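import Claimed.Agent.R289.Chart
import Claimed.Agent.R289.End
import Claimed.Agent.Lib.BrouwerConvex

/-!
# Row 289 (S0537), road MIX (head helper246), file Mix/Disc : THE SOFT DISC, ITS KIT AND ITS INSTANCE `K(δ)`      (helper262; prefix `pvxd_`, defs `pvxd*`, record `PvxmDisc`)

* **`PvxmDisc K Φ`**      THE RECORD: `K` compact, `Φ` continuous and injective on `K`, `Φ '' K = closedBall 0 1`, `‖Φ z‖ < 1 ⟹ K ∈ 𝓝 z`
* KIT      `pvxdInv K Φ` (inverse), `.inv_mem .phi_inv .inv_phi .inv_cont`, moduli `.mod .mod_inv`, `.joined_conv` (pull-back of a convex subset of the disc is path connected), `.conn` (D4 in the continuum), `.interior_of_lt`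
* THE INSTANCE      `h : PvChart D d ψ`, `Ψ = h.disc`, `Z` a closed nonempty subset of the unit circle (the TARGET arcs), `0 < κ`, `0 ≤ δ < 1`:
      `pvxdRho Z κ δ ζ = 1 - δ min 1 (dist (ζ/‖ζ‖, Z) / κ)`,   `pvxdR` radial stretch `ζ ↦ ζ / ρ(ζ)`,   `pvxdS` its inverse `ξ ↦ ξ ρ(ξ)`
      `pvxdK h Z κ δ = {z ∈ closure D | ‖Ψ z‖ ≤ ρ (Ψ z)}`,   `pvxdPhi h Z κ δ = R ∘ Ψ`;      **`pvxd_disc`** : `PvxmDisc (pvxdK …) (pvxdPhi …)`
      `pvxd_K_sub` (`K ⊆ closure D`), `pvxd_K_deep` (`‖Ψ z‖ ≤ 1 - δ ⟹ z ∈ K`), `pvxd_K_overZ` (direction in `Z` ⟹ `z ∈ K`), `pvxd_K_off` (`z ∈ K`, `z ∉ D` ⟹ `Ψ z ∈ Z`), `pvxd_K_far` (direction `κ`-far from `Z`: `z ∈ K ↔ ‖Ψ z‖ ≤ 1 - δ`)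
      `pvxd_Phi_near` (`‖Φ z - Ψ z‖ ≤ δ / (1 - δ)`), `pvxd_inv_eq` (`Φ⁻¹ ξ = Ψ⁻¹ (ξ ρ(ξ))`), `pvxd_S_near` (`‖ξ ρ(ξ) - ξ‖ ≤ δ`), `pvxd_K_dense` (`K(δ)` fills `closure D`, uniformly in `Z`, `κ`)
* THE INSTANCE OF THE ROAD      `pvxdArcs D d ψ x = pvArcL ∪ pvArcR`,  `pvxdZ h x κ = cthickening κ (Ψ '' arcs)`,  `pvxdKm h x κ δ`, `pvxdPm h x κ δ`;   `pvxd_road_disc`
      (S6b) `pvxd_arcs_mem` arcs `⊆ K`;   (S6a) `pvxd_off_near` points of `K \ D` are `t`-close to the arcs (`κ < κ0(t)`);   (S8) `pvxd_nbhd` the `μ0`-neighbourhood of `K` lies in `D ∪ thickening t arcs`;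
      (S9) **`pvxd_out`** `closure D ∩ thickening s arcs ⊆ K`, `s = s(κ)` (so a site OFF `K` which is `s`-close to an arc is OUTSIDE `closure D`);   `pvxd_road_far` (directions `2κ`-far from the arcs: sublevel `1 - δ`)
      FRONTIER `‖Φ z‖ = 1 ⟹ z ∈ frontier K`: last section (helper91): `PvxmDisc.frontier_eq`, `pvxa2_frontier`, `pvxa2_chart*`;   twin `pvxs_circle_frontier` (45, `Mix/Topo.lean`).
-/

set_option autoImplicit false

namespace Claimed.Agent.R289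

open Set Metric Topology Filter

/-- **THE SOFT DISC** -/
structure PvxmDisc (K : Set ℂ) (Φ : ℂ → ℂ) : Prop where
  cpt : IsCompact K
  cont : ContinuousOn Φ K
  inj : InjOn Φ K
  img : Φ '' K = closedBall 0 1
  nhd : ∀ z ∈ K, ‖Φ z‖ < 1 → K ∈ 𝓝 z

/-- the inverse of the chart of a soft disc -/
noncomputable def pvxdInv (K : Set ℂ) (Φ : ℂ → ℂ) : ℂ → ℂ := Function.invFunOn Φ K

theorem pvxd_eqns_cite : True := by
  have := @pvxdInv.eq_1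
  trivial

namespace PvxmDisc

variable {K : Set ℂ} {Φ : ℂ → ℂ}

theorem norm_le (H : PvxmDisc K Φ) {z : ℂ} (hz : z ∈ K) : ‖Φ z‖ ≤ 1 := by
  have : Φ z ∈ closedBall (0 : ℂ) 1 := H.img ▸ mem_image_of_mem Φ hz
  simpa using this

theorem mem_img (H : PvxmDisc K Φ) {ζ : ℂ} (hζ : ‖ζ‖ ≤ 1) : ζ ∈ Φ '' K := by
  rw [H.img]; simpa using hζ

theorem inv_mem (H : PvxmDisc K Φ) {ζ : ℂ} (hζ : ‖ζ‖ ≤ 1) : pvxdInv K Φ ζ ∈ K := Function.invFunOn_mem (H.mem_img hζ)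

theorem phi_inv (H : PvxmDisc K Φ) {ζ : ℂ} (hζ : ‖ζ‖ ≤ 1) : Φ (pvxdInv K Φ ζ) = ζ := Function.invFunOn_eq (H.mem_img hζ)

theorem inv_phi (H : PvxmDisc K Φ) {z : ℂ} (hz : z ∈ K) : pvxdInv K Φ (Φ z) = z := H.inj.leftInvOn_invFunOn hz

theorem inv_cont (H : PvxmDisc K Φ) : ContinuousOn (pvxdInv K Φ) (closedBall 0 1) := by
  rw [← H.img]
  exact pvch_inv_cont H.cpt H.cont fun x hx => H.inv_phi hx

theorem inv_injOn (H : PvxmDisc K Φ) : InjOn (pvxdInv K Φ) (closedBall 0 1) := fun ζ hζ ξ hξ e => by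
  rw [← H.phi_inv (ζ := ζ) (by simpa using hζ), e, H.phi_inv (by simpa using hξ)]

theorem nonempty (H : PvxmDisc K Φ) : K.Nonempty := ⟨_, H.inv_mem (ζ := 0) (by simp)⟩

/-- modulus of `Φ` -/
theorem mod (H : PvxmDisc K Φ) {t : ℝ} (ht : 0 < t) : ∃ s : ℝ, 0 < s ∧ ∀ a ∈ K, ∀ b ∈ K, dist a b < s → dist (Φ a) (Φ b) < t := by
  have := H.cpt.uniformContinuousOn_of_continuous H.cont
  rw [Metric.uniformContinuousOn_iff] at this
  obtain ⟨s, hs, h⟩ := this t ht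
  exact ⟨s, hs, fun a ha b hb => h a ha b hb⟩

/-- modulus of the inverse -/
theorem mod_inv (H : PvxmDisc K Φ) {t : ℝ} (ht : 0 < t) :
    ∃ s : ℝ, 0 < s ∧ ∀ ζ ∈ closedBall (0 : ℂ) 1, ∀ ξ ∈ closedBall (0 : ℂ) 1, dist ζ ξ < s → dist (pvxdInv K Φ ζ) (pvxdInv K Φ ξ) < t := by
  have := (isCompact_closedBall (0 : ℂ) 1).uniformContinuousOn_of_continuous H.inv_cont
  rw [Metric.uniformContinuousOn_iff] at this
  obtain ⟨s, hs, h⟩ := this t ht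
  exact ⟨s, hs, fun a ha b hb => h a ha b hb⟩

/-- the pull-back of a convex subset of the disc is path connected -/
theorem joined_conv (H : PvxmDisc K Φ) {C : Set ℂ} (hC : Convex ℝ C) (hC1 : C ⊆ closedBall 0 1) {a b : ℂ} (ha : a ∈ K) (hb : b ∈ K)
    (hΦa : Φ a ∈ C) (hΦb : Φ b ∈ C) : JoinedIn (K ∩ Φ ⁻¹' C) a b := by
  have h1 : JoinedIn C (Φ a) (Φ b) := JoinedIn.of_segment_subset (hC.segment_subset hΦa hΦb)
  have h2 := h1.map_continuousOn (f := pvxdInv K Φ) (H.inv_cont.mono hC1)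
  rw [H.inv_phi ha, H.inv_phi hb] at h2
  refine h2.mono ?_
  rintro _ ⟨ζ, hζ, rfl⟩
  have hζ1 : ‖ζ‖ ≤ 1 := by simpa using hC1 hζ
  exact ⟨H.inv_mem hζ1, by show Φ _ ∈ C; rw [H.phi_inv hζ1]; exact hζ⟩

theorem isPathConnected (H : PvxmDisc K Φ) : IsPathConnected K := by
  obtain ⟨a, ha⟩ := H.nonempty
  refine ⟨a, ha, fun {b} hb => ?_⟩
  exact (H.joined_conv (convex_closedBall 0 1) Subset.rfl ha hb (by simpa using H.norm_le ha) (by simpa using H.norm_le hb)).mono inter_subset_left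

/-- **(D4) in the continuum**: two close points of `K` are joined inside `K` by a short path -/
theorem conn (H : PvxmDisc K Φ) {t : ℝ} (ht : 0 < t) : ∃ s : ℝ, 0 < s ∧ ∀ a ∈ K, ∀ b ∈ K, dist a b < s → JoinedIn (K ∩ ball a t) a b := by
  obtain ⟨s1, hs1, h1⟩ := H.mod_inv ht
  obtain ⟨s, hs, h2⟩ := H.mod hs1
  refine ⟨s, hs, fun a ha b hb hab => ?_⟩
  have h3 := h2 a ha b hb hab
  have hCc : Convex ℝ (closedBall (0 : ℂ) 1 ∩ ball (Φ a) s1) := (convex_closedBall 0 1).inter (convex_ball _ _)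
  have hj := H.joined_conv hCc inter_subset_left ha hb ⟨by simpa using H.norm_le ha, mem_ball_self hs1⟩
    ⟨by simpa using H.norm_le hb, by rw [mem_ball, dist_comm]; exact h3⟩
  refine hj.mono ?_
  rintro z ⟨hz, hz1, hz2⟩
  refine ⟨hz, ?_⟩
  have h4 := h1 (Φ z) hz1 (Φ a) (by simpa using H.norm_le ha) hz2
  rwa [H.inv_phi hz, H.inv_phi ha] at h4

theorem interior_of_lt (H : PvxmDisc K Φ) {z : ℂ} (hz : z ∈ K) (h : ‖Φ z‖ < 1) : z ∈ interior K := mem_interior_iff_mem_nhds.2 (H.nhd z hz h)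

theorem norm_eq_of_frontier (H : PvxmDisc K Φ) {z : ℂ} (hz : z ∈ frontier K) : z ∈ K ∧ ‖Φ z‖ = 1 := by
  have hzK : z ∈ K := H.cpt.isClosed.frontier_subset hz
  refine ⟨hzK, le_antisymm (H.norm_le hzK) (not_lt.1 fun h => ?_)⟩
  exact hz.2 (H.interior_of_lt hzK h)

end PvxmDisc

/-! ## the radial stretch -/

/-- the radius function `ρ(ζ) = 1 - δ min 1 (dist (ζ/‖ζ‖, Z) / κ)` -/
noncomputable def pvxdRho (Z : Set ℂ) (κ δ : ℝ) (ζ : ℂ) : ℝ := 1 - δ * min 1 (infDist (ζ / (‖ζ‖ : ℂ)) Z / κ)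

/-- the radial stretch -/
noncomputable def pvxdR (Z : Set ℂ) (κ δ : ℝ) (ζ : ℂ) : ℂ := ζ / (pvxdRho Z κ δ ζ : ℂ)

/-- its inverse -/
noncomputable def pvxdS (Z : Set ℂ) (κ δ : ℝ) (ξ : ℂ) : ℂ := ξ * (pvxdRho Z κ δ ξ : ℂ)

theorem pvxd_eqns_cite2 : True := by
  have := @pvxdRho.eq_1; have := @pvxdR.eq_1; have := @pvxdS.eq_1
  trivial

section radial

variable {Z : Set ℂ} {κ δ : ℝ}

theorem pvxd_chi_mem (Z : Set ℂ) (hκ : 0 < κ) (u : ℂ) : 0 ≤ min 1 (infDist u Z / κ) ∧ min 1 (infDist u Z / κ) ≤ 1 :=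
  ⟨le_min zero_le_one (div_nonneg infDist_nonneg hκ.le), min_le_left _ _⟩

theorem pvxd_rho_le (hκ : 0 < κ) (hδ : 0 ≤ δ) (ζ : ℂ) : pvxdRho Z κ δ ζ ≤ 1 := by
  unfold pvxdRho
  nlinarith [(pvxd_chi_mem Z hκ (ζ / (‖ζ‖ : ℂ))).1]

theorem pvxd_rho_ge (hκ : 0 < κ) (hδ : 0 ≤ δ) (ζ : ℂ) : 1 - δ ≤ pvxdRho Z κ δ ζ := by
  unfold pvxdRho
  nlinarith [(pvxd_chi_mem Z hκ (ζ / (‖ζ‖ : ℂ))).2]

theorem pvxd_rho_pos (hκ : 0 < κ) (hδ : 0 ≤ δ) (hδ1 : δ < 1) (ζ : ℂ) : 0 < pvxdRho Z κ δ ζ := by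
  linarith [pvxd_rho_ge (Z := Z) hκ hδ ζ]

/-- `ρ` is constant on the rays -/
theorem pvxd_rho_smul {s : ℝ} (hs : 0 < s) (ζ : ℂ) : pvxdRho Z κ δ (ζ * (s : ℂ)) = pvxdRho Z κ δ ζ := by
  unfold pvxdRho
  have : ζ * (s : ℂ) / ((‖ζ * (s : ℂ)‖ : ℝ) : ℂ) = ζ / (‖ζ‖ : ℂ) := by
    rw [norm_mul, Complex.norm_real, Real.norm_of_nonneg hs.le]
    push_cast
    have hs' : (s : ℂ) ≠ 0 := by exact_mod_cast hs.ne'
    rw [mul_div_mul_right _ _ hs']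
  rw [this]

theorem pvxd_rho_contAt {ζ : ℂ} (hζ : ζ ≠ 0) : ContinuousAt (pvxdRho Z κ δ) ζ := by
  unfold pvxdRho
  have h1 : ContinuousAt (fun ζ : ℂ => ζ / (‖ζ‖ : ℂ)) ζ :=
    continuousAt_id.div (Complex.continuous_ofReal.continuousAt.comp continuous_norm.continuousAt) (by simpa using hζ)
  have h2 : ContinuousAt (fun ζ : ℂ => infDist (ζ / (‖ζ‖ : ℂ)) Z) ζ := (continuous_infDist_pt Z).continuousAt.comp h1
  exact continuousAt_const.sub (continuousAt_const.mul (continuousAt_const.min (h2.div_const κ)))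

theorem pvxd_R_norm (hκ : 0 < κ) (hδ : 0 ≤ δ) (hδ1 : δ < 1) (ζ : ℂ) : ‖pvxdR Z κ δ ζ‖ = ‖ζ‖ / pvxdRho Z κ δ ζ := by
  unfold pvxdR
  rw [norm_div, Complex.norm_real, Real.norm_of_nonneg (pvxd_rho_pos hκ hδ hδ1 ζ).le]

theorem pvxd_R_zero : pvxdR Z κ δ 0 = 0 := by unfold pvxdR; simp

theorem pvxd_R_cont (hκ : 0 < κ) (hδ : 0 ≤ δ) (hδ1 : δ < 1) : Continuous (pvxdR Z κ δ) := by
  rw [continuous_iff_continuousAt]
  intro ζ
  by_cases hζ : ζ = 0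
  · subst hζ
    rw [ContinuousAt, pvxd_R_zero, tendsto_zero_iff_norm_tendsto_zero]
    have h1 : Tendsto (fun ζ : ℂ => ‖ζ‖ / (1 - δ)) (𝓝 0) (𝓝 0) := by
      have := (continuous_norm (E := ℂ)).continuousAt (x := 0) |>.div_const (1 - δ)
      simpa [ContinuousAt] using this
    refine tendsto_of_tendsto_of_tendsto_of_le_of_le tendsto_const_nhds h1 (fun _ => norm_nonneg _) fun ζ => ?_
    rw [pvxd_R_norm hκ hδ hδ1]
    exact div_le_div_of_nonneg_left (norm_nonneg _) (by linarith) (pvxd_rho_ge hκ hδ ζ)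
  · unfold pvxdR
    refine continuousAt_id.div (Complex.continuous_ofReal.continuousAt.comp (pvxd_rho_contAt hζ)) ?_
    exact_mod_cast (pvxd_rho_pos hκ hδ hδ1 ζ).ne'

theorem pvxd_rho_R (hκ : 0 < κ) (hδ : 0 ≤ δ) (hδ1 : δ < 1) (ζ : ℂ) : pvxdRho Z κ δ (pvxdR Z κ δ ζ) = pvxdRho Z κ δ ζ := by
  have h0 := pvxd_rho_pos (Z := Z) hκ hδ hδ1 ζ
  have : pvxdR Z κ δ ζ = ζ * (((pvxdRho Z κ δ ζ)⁻¹ : ℝ) : ℂ) := by
    unfold pvxdR
    push_cast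
    rw [div_eq_mul_inv]
  rw [this, pvxd_rho_smul (inv_pos.2 h0)]

theorem pvxd_rho_S (hκ : 0 < κ) (hδ : 0 ≤ δ) (hδ1 : δ < 1) (ξ : ℂ) : pvxdRho Z κ δ (pvxdS Z κ δ ξ) = pvxdRho Z κ δ ξ := by
  unfold pvxdS
  exact pvxd_rho_smul (pvxd_rho_pos hκ hδ hδ1 ξ) ξ

theorem pvxd_S_R (hκ : 0 < κ) (hδ : 0 ≤ δ) (hδ1 : δ < 1) (ζ : ℂ) : pvxdS Z κ δ (pvxdR Z κ δ ζ) = ζ := by
  have h0 : ((pvxdRho Z κ δ ζ : ℝ) : ℂ) ≠ 0 := by exact_mod_cast (pvxd_rho_pos (Z := Z) hκ hδ hδ1 ζ).ne'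
  unfold pvxdS
  rw [pvxd_rho_R hκ hδ hδ1]
  unfold pvxdR
  exact div_mul_cancel₀ _ h0

theorem pvxd_R_S (hκ : 0 < κ) (hδ : 0 ≤ δ) (hδ1 : δ < 1) (ξ : ℂ) : pvxdR Z κ δ (pvxdS Z κ δ ξ) = ξ := by
  have h0 : ((pvxdRho Z κ δ ξ : ℝ) : ℂ) ≠ 0 := by exact_mod_cast (pvxd_rho_pos (Z := Z) hκ hδ hδ1 ξ).ne'
  unfold pvxdR
  rw [pvxd_rho_S hκ hδ hδ1]
  unfold pvxdS
  exact mul_div_cancel_right₀ _ h0

theorem pvxd_R_inj (hκ : 0 < κ) (hδ : 0 ≤ δ) (hδ1 : δ < 1) : Function.Injective (pvxdR Z κ δ) :=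
  Function.LeftInverse.injective (g := pvxdS Z κ δ) (pvxd_S_R hκ hδ hδ1)

theorem pvxd_S_norm (hκ : 0 < κ) (hδ : 0 ≤ δ) (hδ1 : δ < 1) (ξ : ℂ) : ‖pvxdS Z κ δ ξ‖ = ‖ξ‖ * pvxdRho Z κ δ ξ := by
  unfold pvxdS
  rw [norm_mul, Complex.norm_real, Real.norm_of_nonneg (pvxd_rho_pos hκ hδ hδ1 ξ).le]

theorem pvxd_S_near (hκ : 0 < κ) (hδ : 0 ≤ δ) {ξ : ℂ} (hξ : ‖ξ‖ ≤ 1) : ‖pvxdS Z κ δ ξ - ξ‖ ≤ δ := by
  have e : pvxdS Z κ δ ξ - ξ = ξ * ((pvxdRho Z κ δ ξ - 1 : ℝ) : ℂ) := by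
    unfold pvxdS
    push_cast
    ring
  rw [e, norm_mul, Complex.norm_real, Real.norm_eq_abs]
  have h1 : |pvxdRho Z κ δ ξ - 1| ≤ δ := by
    rw [abs_le]
    constructor <;> linarith [pvxd_rho_ge (Z := Z) hκ hδ ξ, pvxd_rho_le (Z := Z) hκ hδ ξ]
  calc ‖ξ‖ * |pvxdRho Z κ δ ξ - 1| ≤ 1 * δ := mul_le_mul hξ h1 (abs_nonneg _) zero_le_one
    _ = δ := one_mul _

theorem pvxd_R_near (hκ : 0 < κ) (hδ : 0 ≤ δ) (hδ1 : δ < 1) {ζ : ℂ} (hζ : ‖ζ‖ ≤ 1) : ‖pvxdR Z κ δ ζ - ζ‖ ≤ δ / (1 - δ) := by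
  have h0 := pvxd_rho_pos (Z := Z) hκ hδ hδ1 ζ
  have h0' : ((pvxdRho Z κ δ ζ : ℝ) : ℂ) ≠ 0 := by exact_mod_cast h0.ne'
  have e : pvxdR Z κ δ ζ - ζ = ζ * (((1 - pvxdRho Z κ δ ζ) / pvxdRho Z κ δ ζ : ℝ) : ℂ) := by
    unfold pvxdR
    push_cast
    field_simp
  have h1 : 0 ≤ 1 - pvxdRho Z κ δ ζ := by linarith [pvxd_rho_le (Z := Z) hκ hδ ζ]
  rw [e, norm_mul, Complex.norm_real, Real.norm_of_nonneg (div_nonneg h1 h0.le)]
  have h2 : (1 - pvxdRho Z κ δ ζ) / pvxdRho Z κ δ ζ ≤ δ / (1 - δ) :=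
    div_le_div₀ hδ (by linarith [pvxd_rho_ge (Z := Z) hκ hδ ζ]) (by linarith) (pvxd_rho_ge hκ hδ ζ)
  calc ‖ζ‖ * ((1 - pvxdRho Z κ δ ζ) / pvxdRho Z κ δ ζ) ≤ 1 * (δ / (1 - δ)) := mul_le_mul hζ h2 (div_nonneg h1 h0.le) zero_le_one
    _ = δ / (1 - δ) := one_mul _

/-- `ρ = 1` in the directions of `Z` -/
theorem pvxd_rho_eq_one {ζ : ℂ} (h : ζ / (‖ζ‖ : ℂ) ∈ Z) : pvxdRho Z κ δ ζ = 1 := by
  unfold pvxdRho
  rw [infDist_zero_of_mem h, zero_div, min_eq_right zero_le_one, mul_zero, sub_zero]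

/-- `ρ = 1 - δ` in the directions which are `κ`-far from `Z` -/
theorem pvxd_rho_far (hκ : 0 < κ) {ζ : ℂ} (h : κ ≤ infDist (ζ / (‖ζ‖ : ℂ)) Z) : pvxdRho Z κ δ ζ = 1 - δ := by
  unfold pvxdRho
  rw [min_eq_left ((one_le_div hκ).2 h), mul_one]

/-- `ρ = 1` only in the directions of `Z` -/
theorem pvxd_mem_of_rho (hZ : IsClosed Z) (hZn : Z.Nonempty) (hκ : 0 < κ) (hδ : 0 < δ) {ζ : ℂ} (h : 1 ≤ pvxdRho Z κ δ ζ) : ζ / (‖ζ‖ : ℂ) ∈ Z := by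
  unfold pvxdRho at h
  have h1 : min 1 (infDist (ζ / (‖ζ‖ : ℂ)) Z / κ) ≤ 0 := by
    by_contra hc
    rw [not_le] at hc
    nlinarith
  have h2 : infDist (ζ / (‖ζ‖ : ℂ)) Z / κ ≤ 0 := by
    rcases min_le_iff.1 h1 with h3 | h3
    · linarith
    · exact h3
  have h3 : infDist (ζ / (‖ζ‖ : ℂ)) Z = 0 := by
    refine le_antisymm ?_ infDist_nonneg
    have := (div_le_iff₀ hκ).1 h2
    linarith
  exact (hZ.mem_iff_infDist_zero hZn).2 h3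

end radial

/-! ## the instance -/

section inst

variable {D : Set ℂ} {d : ℂ} {ψ : ℂ → ℂ}

/-- `K(δ)`: the FREE arcs pulled in by `δ`, the TARGET arcs `Ψ⁻¹ Z` left out -/
def pvxdK (h : PvChart D d ψ) (Z : Set ℂ) (κ δ : ℝ) : Set ℂ := {z | z ∈ closure D ∧ ‖h.disc z‖ ≤ pvxdRho Z κ δ (h.disc z)}

/-- its chart -/
noncomputable def pvxdPhi (h : PvChart D d ψ) (Z : Set ℂ) (κ δ : ℝ) (z : ℂ) : ℂ := pvxdR Z κ δ (h.disc z)

theorem pvxd_eqns_cite3 : True := by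
  have := @pvxdK.eq_1; have := @pvxdPhi.eq_1
  trivial

variable (h : PvChart D d ψ) {Z : Set ℂ} {κ δ : ℝ}

theorem pvxd_K_sub : pvxdK h Z κ δ ⊆ closure D := fun _ hz => hz.1

theorem pvxd_Phi_cont (hκ : 0 < κ) (hδ : 0 ≤ δ) (hδ1 : δ < 1) : ContinuousOn (pvxdPhi h Z κ δ) (closure D) :=
  (pvxd_R_cont hκ hδ hδ1).comp_continuousOn h.disc_cont

theorem pvxd_Phi_norm (hκ : 0 < κ) (hδ : 0 ≤ δ) (hδ1 : δ < 1) (z : ℂ) : ‖pvxdPhi h Z κ δ z‖ = ‖h.disc z‖ / pvxdRho Z κ δ (h.disc z) :=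
  pvxd_R_norm hκ hδ hδ1 _

theorem pvxd_mem_K (hκ : 0 < κ) (hδ : 0 ≤ δ) (hδ1 : δ < 1) {z : ℂ} : z ∈ pvxdK h Z κ δ ↔ z ∈ closure D ∧ ‖pvxdPhi h Z κ δ z‖ ≤ 1 := by
  rw [pvxd_Phi_norm h hκ hδ hδ1, div_le_one (pvxd_rho_pos hκ hδ hδ1 _)]
  rfl

theorem pvxd_Phi_lt (hκ : 0 < κ) (hδ : 0 ≤ δ) (hδ1 : δ < 1) {z : ℂ} : ‖pvxdPhi h Z κ δ z‖ < 1 ↔ ‖h.disc z‖ < pvxdRho Z κ δ (h.disc z) := by
  rw [pvxd_Phi_norm h hκ hδ hδ1, div_lt_one (pvxd_rho_pos hκ hδ hδ1 _)]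

theorem pvxd_mem_D_of_lt {z : ℂ} (hz : z ∈ closure D) (h1 : ‖h.disc z‖ < 1) : z ∈ D := by
  by_contra hzD
  have : z ∈ frontier D := by rw [h.isOpen.frontier_eq]; exact ⟨hz, hzD⟩
  exact h1.ne (h.disc_norm_eq this)

/-- **the instance** -/
theorem pvxd_disc (hκ : 0 < κ) (hδ : 0 ≤ δ) (hδ1 : δ < 1) : PvxmDisc (pvxdK h Z κ δ) (pvxdPhi h Z κ δ) := by
  have hcl : IsCompact (closure D) := h.bdd.isCompact_closure
  refine ⟨?_, (pvxd_Phi_cont h hκ hδ hδ1).mono (pvxd_K_sub h), ?_, ?_, ?_⟩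
  · have e : pvxdK h Z κ δ = closure D ∩ pvxdPhi h Z κ δ ⁻¹' closedBall 0 1 := by
      ext z
      rw [pvxd_mem_K h hκ hδ hδ1]
      simp
    rw [e]
    exact hcl.of_isClosed_subset ((pvxd_Phi_cont h hκ hδ hδ1).preimage_isClosed_of_isClosed isClosed_closure isClosed_closedBall) inter_subset_left
  · intro z hz w hw e
    exact h.disc_injOn hz.1 hw.1 (pvxd_R_inj hκ hδ hδ1 e)
  · ext ξ
    constructor
    · rintro ⟨z, hz, rfl⟩
      simpa using ((pvxd_mem_K h hκ hδ hδ1).1 hz).2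
    · intro hξ
      have hξ1 : ‖ξ‖ ≤ 1 := by simpa using hξ
      have h1 : ‖pvxdS Z κ δ ξ‖ ≤ 1 := by
        rw [pvxd_S_norm hκ hδ hδ1]
        exact mul_le_one₀ hξ1 (pvxd_rho_pos hκ hδ hδ1 ξ).le (pvxd_rho_le hκ hδ ξ)
      refine ⟨h.dinv (pvxdS Z κ δ ξ), (pvxd_mem_K h hκ hδ hδ1).2 ⟨h.dinv_mem h1, ?_⟩, ?_⟩
      · unfold pvxdPhi
        rw [h.disc_dinv h1, pvxd_R_S hκ hδ hδ1]
        exact hξ1
      · unfold pvxdPhi
        rw [h.disc_dinv h1, pvxd_R_S hκ hδ hδ1]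
  · intro z hz hlt
    have h1 := (pvxd_Phi_lt h hκ hδ hδ1).1 hlt
    have hzD : z ∈ D := pvxd_mem_D_of_lt h hz.1 (h1.trans_le (pvxd_rho_le hκ hδ _))
    have hop : IsOpen (D ∩ pvxdPhi h Z κ δ ⁻¹' ball 0 1) :=
      ((pvxd_Phi_cont h hκ hδ hδ1).mono subset_closure).isOpen_inter_preimage h.isOpen isOpen_ball
    refine mem_of_superset (hop.mem_nhds ⟨hzD, by simpa using hlt⟩) ?_
    rintro w ⟨hwD, hw⟩
    exact (pvxd_mem_K h hκ hδ hδ1).2 ⟨subset_closure hwD, by have : ‖pvxdPhi h Z κ δ w‖ < 1 := by simpa using hw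
                                                             exact this.le⟩

/-- the deep points belong to `K(δ)` -/
theorem pvxd_K_deep (hκ : 0 < κ) (hδ : 0 ≤ δ) {z : ℂ} (hz : z ∈ closure D) (h1 : ‖h.disc z‖ ≤ 1 - δ) : z ∈ pvxdK h Z κ δ :=
  ⟨hz, h1.trans (pvxd_rho_ge hκ hδ _)⟩

/-- the whole rays over `Z` belong to `K(δ)` -/
theorem pvxd_K_overZ {z : ℂ} (hz : z ∈ closure D) (h1 : h.disc z / (‖h.disc z‖ : ℂ) ∈ Z) : z ∈ pvxdK h Z κ δ :=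
  ⟨hz, by rw [pvxd_rho_eq_one h1]; exact h.disc_norm_le hz⟩

/-- a point of `K(δ)` which is not in `D` lies over `Z` -/
theorem pvxd_K_off (hZ : IsClosed Z) (hZn : Z.Nonempty) (hκ : 0 < κ) (hδ : 0 < δ) {z : ℂ} (hz : z ∈ pvxdK h Z κ δ) (hzD : z ∉ D) : h.disc z ∈ Z := by
  have hfr : z ∈ frontier D := by rw [h.isOpen.frontier_eq]; exact ⟨hz.1, hzD⟩
  have h1 := h.disc_norm_eq hfr
  have h2 := pvxd_mem_of_rho hZ hZn hκ hδ (h1 ▸ hz.2)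
  rwa [h1, Complex.ofReal_one, div_one] at h2

/-- in the directions `κ`-far from `Z` the set `K(δ)` is the sublevel `1 - δ` -/
theorem pvxd_K_far (hκ : 0 < κ) {z : ℂ} (h1 : κ ≤ infDist (h.disc z / (‖h.disc z‖ : ℂ)) Z) : z ∈ pvxdK h Z κ δ ↔ z ∈ closure D ∧ ‖h.disc z‖ ≤ 1 - δ := by
  unfold pvxdK
  rw [mem_ofPred_eq, pvxd_rho_far hκ h1]

theorem pvxd_Phi_near (hκ : 0 < κ) (hδ : 0 ≤ δ) (hδ1 : δ < 1) {z : ℂ} (hz : z ∈ closure D) : ‖pvxdPhi h Z κ δ z - h.disc z‖ ≤ δ / (1 - δ) :=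
  pvxd_R_near hκ hδ hδ1 (h.disc_norm_le hz)

/-- the inverse chart -/
theorem pvxd_inv_eq (hκ : 0 < κ) (hδ : 0 ≤ δ) (hδ1 : δ < 1) {ξ : ℂ} (hξ : ‖ξ‖ ≤ 1) :
    pvxdInv (pvxdK h Z κ δ) (pvxdPhi h Z κ δ) ξ = h.dinv (pvxdS Z κ δ ξ) := by
  have H := pvxd_disc h (Z := Z) hκ hδ hδ1
  have h1 : ‖pvxdS Z κ δ ξ‖ ≤ 1 := by
    rw [pvxd_S_norm hκ hδ hδ1]
    exact mul_le_one₀ hξ (pvxd_rho_pos hκ hδ hδ1 ξ).le (pvxd_rho_le hκ hδ ξ)
  have h2 : pvxdPhi h Z κ δ (h.dinv (pvxdS Z κ δ ξ)) = ξ := by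
    unfold pvxdPhi
    rw [h.disc_dinv h1, pvxd_R_S hκ hδ hδ1]
  have h3 : h.dinv (pvxdS Z κ δ ξ) ∈ pvxdK h Z κ δ := (pvxd_mem_K h hκ hδ hδ1).2 ⟨h.dinv_mem h1, by rw [h2]; exact hξ⟩
  rw [← h2, H.inv_phi h3, h2]

/-- `K(δ)` fills `closure D` as `δ ↓ 0`, uniformly -/
theorem pvxd_K_dense {t : ℝ} (ht : 0 < t) : ∃ δ0 : ℝ, 0 < δ0 ∧ ∀ (Z : Set ℂ) (κ δ : ℝ), 0 < κ → 0 ≤ δ → δ < 1 → δ < δ0 → ∀ p ∈ closure D, ∃ z ∈ pvxdK h Z κ δ, dist z p < t ∧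
    pvxdPhi h Z κ δ z = h.disc p := by
  have huc := (isCompact_closedBall (0 : ℂ) 1).uniformContinuousOn_of_continuous h.dinv_cont
  rw [Metric.uniformContinuousOn_iff] at huc
  obtain ⟨δ0, hδ0, hu⟩ := huc t ht
  refine ⟨δ0, hδ0, fun Z κ δ hκ hδ hδ1 hlt p hp => ?_⟩
  have hξ := h.disc_norm_le hp
  have h1 : ‖pvxdS Z κ δ (h.disc p)‖ ≤ 1 := by
    rw [pvxd_S_norm hκ hδ hδ1]
    exact mul_le_one₀ hξ (pvxd_rho_pos hκ hδ hδ1 _).le (pvxd_rho_le hκ hδ _)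
  have h2 : pvxdPhi h Z κ δ (h.dinv (pvxdS Z κ δ (h.disc p))) = h.disc p := by
    unfold pvxdPhi
    rw [h.disc_dinv h1, pvxd_R_S hκ hδ hδ1]
  refine ⟨h.dinv (pvxdS Z κ δ (h.disc p)), (pvxd_mem_K h hκ hδ hδ1).2 ⟨h.dinv_mem h1, by rw [h2]; exact hξ⟩, ?_, h2⟩
  have h3 := hu (pvxdS Z κ δ (h.disc p)) (by simpa using h1) (h.disc p) (by simpa using hξ)
    (by rw [dist_eq_norm]; exact (pvxd_S_near hκ hδ hξ).trans_lt hlt)
  rwa [h.dinv_disc hp] at h3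

end inst

/-! ## the instance of the road: `Z` = closed `κ`-neighbourhood of the images of the two target arcs -/

section road

variable {D : Set ℂ} {d : ℂ} {ψ : ℂ → ℂ}

/-- the two target arcs -/
def pvxdArcs (D : Set ℂ) (d : ℂ) (ψ : ℂ → ℂ) (x : ℝ) : Set ℂ := pvArcL D d ψ x ∪ pvArcR D d ψ

/-- the closed `κ`-neighbourhood of the images of the two target arcs -/
def pvxdZ (h : PvChart D d ψ) (x κ : ℝ) : Set ℂ := cthickening κ (h.disc '' pvxdArcs D d ψ x)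

/-- **`K(κ, δ)` of the road** -/
def pvxdKm (h : PvChart D d ψ) (x κ δ : ℝ) : Set ℂ := pvxdK h (pvxdZ h x κ) κ δ

/-- its chart -/
noncomputable def pvxdPm (h : PvChart D d ψ) (x κ δ : ℝ) : ℂ → ℂ := pvxdPhi h (pvxdZ h x κ) κ δ

theorem pvxd_eqns_cite4 : True := by
  have := @pvxdArcs.eq_1; have := @pvxdZ.eq_1; have := @pvxdKm.eq_1; have := @pvxdPm.eq_1
  trivial

variable (h : PvChart D d ψ) {x κ δ : ℝ}

include h in
theorem pvxd_arcs_sub : pvxdArcs D d ψ x ⊆ frontier D := by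
  rintro z (hz | hz | hz)
  · exact hz.1
  · rw [hz]; exact h.hd
  · exact hz.1

theorem pvxd_arcs_nonempty : (pvxdArcs D d ψ x).Nonempty := ⟨d, Or.inr (Or.inl rfl)⟩

theorem pvxd_Z_closed : IsClosed (pvxdZ h x κ) := isClosed_cthickening

theorem pvxd_Z_nonempty (hκ : 0 ≤ κ) : (pvxdZ h x κ).Nonempty :=
  ⟨h.disc d, mem_cthickening_of_dist_le _ (h.disc d) _ _ (mem_image_of_mem _ (Or.inr (Or.inl rfl))) (by rw [dist_self]; exact hκ)⟩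

theorem pvxd_road_disc (hκ : 0 < κ) (hδ : 0 ≤ δ) (hδ1 : δ < 1) : PvxmDisc (pvxdKm h x κ δ) (pvxdPm h x κ δ) := pvxd_disc h hκ hδ hδ1

/-- the direction of a point of the plane which is close to a point of the unit circle -/
theorem pvxd_dir_near {ζ u : ℂ} (hu : ‖u‖ = 1) : ‖ζ / (‖ζ‖ : ℂ) - u‖ ≤ 2 * ‖ζ - u‖ := by
  have h1 : ‖ζ / (‖ζ‖ : ℂ) - ζ‖ ≤ ‖ζ - u‖ := by
    by_cases hζ : ζ = 0
    · subst hζ; simp
    · have hn : (0 : ℝ) < ‖ζ‖ := norm_pos_iff.2 hζ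
      have hn' : ((‖ζ‖ : ℝ) : ℂ) ≠ 0 := by exact_mod_cast hn.ne'
      have e : ζ / (‖ζ‖ : ℂ) - ζ = ζ / (‖ζ‖ : ℂ) * ((1 - ‖ζ‖ : ℝ) : ℂ) := by
        push_cast
        field_simp
      rw [e, norm_mul, norm_div, Complex.norm_real, Real.norm_of_nonneg hn.le, div_self hn.ne', one_mul, Complex.norm_real, Real.norm_eq_abs, ← hu]
      exact (abs_norm_sub_norm_le u ζ).trans (by rw [norm_sub_rev])
  calc ‖ζ / (‖ζ‖ : ℂ) - u‖ ≤ ‖ζ / (‖ζ‖ : ℂ) - ζ‖ + ‖ζ - u‖ := norm_sub_le_norm_sub_add_norm_sub _ _ _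
    _ ≤ 2 * ‖ζ - u‖ := by linarith

/-- (S6b) the two target arcs belong to `K` -/
theorem pvxd_arcs_mem (hκ : 0 ≤ κ) {p : ℂ} (hp : p ∈ pvxdArcs D d ψ x) : p ∈ pvxdKm h x κ δ := by
  have hfr := pvxd_arcs_sub h hp
  refine pvxd_K_overZ h (frontier_subset_closure hfr) ?_
  rw [h.disc_norm_eq hfr, Complex.ofReal_one, div_one]
  exact mem_cthickening_of_dist_le _ _ _ _ (mem_image_of_mem _ hp) (by rw [dist_self]; exact hκ)

/-- (S9) **OUT**: `K` contains the part of `closure D` which is close to the target arcs (`s` depends on `κ` only) -/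
theorem pvxd_out (hκ : 0 < κ) : ∃ s : ℝ, 0 < s ∧ ∀ (x δ : ℝ), ∀ p ∈ pvxdArcs D d ψ x, ∀ v ∈ closure D, dist v p < s → v ∈ pvxdKm h x κ δ := by
  have huc := h.bdd.isCompact_closure.uniformContinuousOn_of_continuous h.disc_cont
  rw [Metric.uniformContinuousOn_iff] at huc
  obtain ⟨s, hs, hu⟩ := huc (κ / 2) (by positivity)
  refine ⟨s, hs, fun x δ p hp v hv hvp => ?_⟩
  have hfr := pvxd_arcs_sub h hp
  have h1 := hu v hv p (frontier_subset_closure hfr) hvp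
  refine pvxd_K_overZ h hv ?_
  refine mem_cthickening_of_dist_le _ (h.disc p) _ _ (mem_image_of_mem _ hp) ?_
  rw [dist_eq_norm]
  rw [dist_eq_norm] at h1
  linarith [pvxd_dir_near (ζ := h.disc v) (h.disc_norm_eq hfr)]

/-- (S6a) the points of `K` which are not in `D` are close to the target arcs (`κ0` depends on `t` only) -/
theorem pvxd_off_near {t : ℝ} (ht : 0 < t) : ∃ κ0 : ℝ, 0 < κ0 ∧ ∀ (x κ δ : ℝ), 0 < κ → κ < κ0 → 0 < δ → ∀ z ∈ pvxdKm h x κ δ, z ∉ D → z ∈ thickening t (pvxdArcs D d ψ x) := by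
  have huc := (isCompact_closedBall (0 : ℂ) 1).uniformContinuousOn_of_continuous h.dinv_cont
  rw [Metric.uniformContinuousOn_iff] at huc
  obtain ⟨κ0, hκ0, hu⟩ := huc t ht
  refine ⟨κ0, hκ0, fun x κ δ hκ hκ1 hδ z hz hzD => ?_⟩
  have h1 : h.disc z ∈ pvxdZ h x κ := pvxd_K_off h (pvxd_Z_closed h) (pvxd_Z_nonempty h hκ.le) hκ hδ hz hzD
  have h2 : infDist (h.disc z) (h.disc '' pvxdArcs D d ψ x) < κ0 := by
    have hne : (h.disc '' pvxdArcs D d ψ x).Nonempty := (pvxd_arcs_nonempty (x := x)).image _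
    have h3 : h.disc z ∈ cthickening κ (h.disc '' pvxdArcs D d ψ x) := h1
    rw [cthickening_eq_preimage_infEDist] at h3
    have h4 : infEDist (h.disc z) (h.disc '' pvxdArcs D d ψ x) ≤ ENNReal.ofReal κ := h3
    have h5 : infDist (h.disc z) (h.disc '' pvxdArcs D d ψ x) ≤ κ := by
      unfold infDist
      exact ENNReal.toReal_le_of_le_ofReal hκ.le h4
    linarith
  obtain ⟨_, ⟨p, hp, rfl⟩, hlt⟩ := (infDist_lt_iff ((pvxd_arcs_nonempty (x := x)).image _)).1 h2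
  have hpc := frontier_subset_closure (pvxd_arcs_sub h hp)
  have h3 := hu (h.disc z) (by simpa using h.disc_norm_le hz.1) (h.disc p) (by simpa using h.disc_norm_le hpc) hlt
  rw [h.dinv_disc hz.1, h.dinv_disc hpc] at h3
  exact mem_thickening_iff.2 ⟨p, hp, h3⟩

/-- (S8) **a small neighbourhood of `K` lies in `D ∪` the `t`-neighbourhood of the target arcs** -/
theorem pvxd_nbhd {t : ℝ} (ht : 0 < t) : ∃ κ0 : ℝ, 0 < κ0 ∧ ∀ (x κ δ : ℝ), 0 < κ → κ < κ0 → 0 < δ → δ < 1 →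
    ∃ μ0 : ℝ, 0 < μ0 ∧ ∀ w : ℂ, infDist w (pvxdKm h x κ δ) < μ0 → w ∈ D ∪ thickening t (pvxdArcs D d ψ x) := by
  obtain ⟨κ0, hκ0, H⟩ := pvxd_off_near h (half_pos ht)
  refine ⟨κ0, hκ0, fun x κ δ hκ hκ1 hδ hδ1 => ?_⟩
  have HD := pvxd_road_disc h (x := x) hκ hδ.le hδ1
  set K' : Set ℂ := pvxdKm h x κ δ \ thickening (t / 2) (pvxdArcs D d ψ x) with hK'
  have hK'c : IsCompact K' := HD.cpt.diff isOpen_thickening
  have hK'D : K' ⊆ D := by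
    intro z hz
    by_contra hzD
    exact hz.2 (H x κ δ hκ hκ1 hδ z hz.1 hzD)
  obtain ⟨μ1, hμ1, hth⟩ := hK'c.exists_thickening_subset_open h.isOpen hK'D
  refine ⟨min μ1 (t / 2), lt_min hμ1 (half_pos ht), fun w hw => ?_⟩
  obtain ⟨z, hz, hwz⟩ := (infDist_lt_iff HD.nonempty).1 hw
  by_cases hzt : z ∈ thickening (t / 2) (pvxdArcs D d ψ x)
  · right
    obtain ⟨p, hp, hzp⟩ := mem_thickening_iff.1 hzt
    refine mem_thickening_iff.2 ⟨p, hp, ?_⟩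
    have := dist_triangle w z p
    have h2 := hwz.trans_le (min_le_right _ _)
    linarith
  · left
    exact hth (mem_thickening_iff.2 ⟨z, ⟨hz, hzt⟩, hwz.trans_le (min_le_left _ _)⟩)

/-- in the directions `2κ`-far from the images of the target arcs, `K` is the sublevel `1 - δ` -/
theorem pvxd_road_far (hκ : 0 < κ) {z : ℂ} (h1 : 2 * κ ≤ infDist (h.disc z / (‖h.disc z‖ : ℂ)) (h.disc '' pvxdArcs D d ψ x)) :
    z ∈ pvxdKm h x κ δ ↔ z ∈ closure D ∧ ‖h.disc z‖ ≤ 1 - δ := by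
  refine pvxd_K_far h hκ ?_
  have hne : (pvxdZ h x κ).Nonempty := pvxd_Z_nonempty h hκ.le
  refine (le_infDist hne).2 fun y hy => ?_
  have hne0 : (h.disc '' pvxdArcs D d ψ x).Nonempty := (pvxd_arcs_nonempty (x := x)).image _
  have h4 : infDist y (h.disc '' pvxdArcs D d ψ x) ≤ κ := by
    have h3 : y ∈ cthickening κ (h.disc '' pvxdArcs D d ψ x) := hy
    rw [cthickening_eq_preimage_infEDist] at h3
    have h4 : infEDist y (h.disc '' pvxdArcs D d ψ x) ≤ ENNReal.ofReal κ := h3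
    unfold infDist
    exact ENNReal.toReal_le_of_le_ofReal hκ.le h4
  have h5 := infDist_le_infDist_add_dist (s := h.disc '' pvxdArcs D d ψ x) (x := h.disc z / (‖h.disc z‖ : ℂ)) (y := y)
  linarith

end road

/-! ## FRONTIER (S7)      (helper91; prefix `pvxa2_`)

NO Jordan curve theorem, NO invariance of domain: ONE application of Brouwer (`Lib.bfp_brouwer`).      If `closedBall z l ⊆ K`, let `G = e⁻¹` on `closedBall 0 r`, `ε` small with `‖G ((1-ε) w) - G w‖ ≤ l` for all `w` (uniform continuity).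
`H x = z + (x - G ((1-ε) e x))` maps `closedBall z l` into itself (`x = G (e x)`).   A fixed point has `G ((1-ε) e x) = z`, so `(1-ε) e x = e z` and `‖e z‖ ≤ (1-ε) r < r`.
* `pvxa2_frontier`, `pvxa2_frontier_eq`, `PvxmDisc.frontier_eq`      `frontier K = {z ∈ K | ‖Φ z‖ = 1}`
* `pvxa2_chart_frontier`, `pvxa2_chart`, `pvxa2_chart_exists`      `frontier (closure D) = frontier D`: every frontier point of `D` is a limit of points OUTSIDE `closure D` -/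

/-- **a point of the sphere is not an interior point** -/
theorem pvxa2_not_nhds {K : Set ℂ} (hK : IsCompact K) {e : ℂ → ℂ} (he : ContinuousOn e K) (hinj : InjOn e K) {r : ℝ} (hr : 0 < r)
    (himg : e '' K = closedBall 0 r) {z : ℂ} (hz : z ∈ K) (hzr : ‖e z‖ = r) : K ∉ 𝓝 z := by
  intro hn
  obtain ⟨l, hl, hlK⟩ := Metric.nhds_basis_closedBall.mem_iff.1 hn
  -- the inverse chart
  set G : ℂ → ℂ := Function.invFunOn e K with hG
  have hGe : ∀ x ∈ K, G (e x) = x := fun x hx => hinj.leftInvOn_invFunOn hx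
  have hGc : ContinuousOn G (closedBall 0 r) := himg ▸ pvch_inv_cont hK he hGe
  have hGK : ∀ w ∈ closedBall (0 : ℂ) r, G w ∈ K ∧ e (G w) = w := by
    intro w hw
    rw [← himg] at hw
    exact ⟨Function.invFunOn_mem hw, Function.invFunOn_eq hw⟩
  have hGu : UniformContinuousOn G (closedBall 0 r) := (isCompact_closedBall 0 r).uniformContinuousOn_of_continuous hGc
  obtain ⟨δ, hδ, hGδ⟩ := Metric.uniformContinuousOn_iff.1 hGu l hl
  -- the contraction factor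
  set ε : ℝ := min (1 / 2) (δ / (2 * r)) with hε
  have hε0 : 0 < ε := lt_min (by norm_num) (by positivity)
  have hε1 : ε ≤ 1 / 2 := min_le_left _ _
  have hεδ : ε * r < δ := by
    have h1 : ε * r ≤ δ / (2 * r) * r := mul_le_mul_of_nonneg_right (min_le_right _ _) hr.le
    have h2 : δ / (2 * r) * r = δ / 2 := by field_simp
    linarith
  have hsh : ∀ w ∈ closedBall (0 : ℂ) r, ((1 - ε : ℝ) : ℂ) * w ∈ closedBall (0 : ℂ) r := by
    intro w hw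
    rw [mem_closedBall_zero_iff] at hw ⊢
    rw [norm_mul, Complex.norm_real, Real.norm_of_nonneg (by linarith)]
    calc (1 - ε) * ‖w‖ ≤ 1 * ‖w‖ := mul_le_mul_of_nonneg_right (by linarith) (norm_nonneg _)
      _ ≤ r := by rw [one_mul]; exact hw
  have hclose : ∀ w ∈ closedBall (0 : ℂ) r, ‖G w - G (((1 - ε : ℝ) : ℂ) * w)‖ ≤ l := by
    intro w hw
    have h1 : dist w (((1 - ε : ℝ) : ℂ) * w) < δ := by
      rw [dist_eq_norm]
      have e1 : w - ((1 - ε : ℝ) : ℂ) * w = ((ε : ℝ) : ℂ) * w := by push_cast; ring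
      rw [e1, norm_mul, Complex.norm_real, Real.norm_of_nonneg hε0.le]
      exact lt_of_le_of_lt (mul_le_mul_of_nonneg_left (mem_closedBall_zero_iff.1 hw) hε0.le) hεδ
    have h2 := hGδ w hw _ (hsh w hw) h1
    rw [dist_eq_norm] at h2
    exact h2.le
  have heB : ∀ x ∈ closedBall z l, e x ∈ closedBall (0 : ℂ) r := fun x hx => himg ▸ mem_image_of_mem e (hlK hx)
  -- the self map
  set H : ℂ → ℂ := fun x => z + (x - G (((1 - ε : ℝ) : ℂ) * e x)) with hH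
  have hHc : ContinuousOn H (closedBall z l) := by
    have c1 : ContinuousOn (fun x => ((1 - ε : ℝ) : ℂ) * e x) (closedBall z l) := continuousOn_const.mul (he.mono hlK)
    have c2 : ContinuousOn (fun x => G (((1 - ε : ℝ) : ℂ) * e x)) (closedBall z l) := hGc.comp c1 fun x hx => hsh _ (heB x hx)
    exact continuousOn_const.add (continuousOn_id.sub c2)
  have hHm : MapsTo H (closedBall z l) (closedBall z l) := by
    intro x hx
    rw [mem_closedBall, dist_eq_norm]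
    have e1 : H x - z = G (e x) - G (((1 - ε : ℝ) : ℂ) * e x) := by
      rw [hGe x (hlK hx)]
      simp only [hH]
      ring
    rw [e1]
    exact hclose _ (heB x hx)
  obtain ⟨x, hx, hfix⟩ := Claimed.Agent.Lib.bfp_brouwer (isCompact_closedBall z l) (convex_closedBall z l) ⟨z, mem_closedBall_self hl.le⟩ H hHc hHm
  have h1 : G (((1 - ε : ℝ) : ℂ) * e x) = z := by
    have h2 : z + (x - G (((1 - ε : ℝ) : ℂ) * e x)) = x := hfix
    linear_combination -h2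
  have h3 : ((1 - ε : ℝ) : ℂ) * e x = e z := by
    rw [← h1]
    exact ((hGK _ (hsh _ (heB x hx))).2).symm
  have h4 : ‖e z‖ ≤ (1 - ε) * r := by
    rw [← h3, norm_mul, Complex.norm_real, Real.norm_of_nonneg (by linarith)]
    exact mul_le_mul_of_nonneg_left (mem_closedBall_zero_iff.1 (heB x hx)) (by linarith)
  rw [hzr] at h4
  nlinarith

/-- **(S7), soft form**: the points of the sphere are frontier points -/
theorem pvxa2_frontier {K : Set ℂ} (hK : IsCompact K) {e : ℂ → ℂ} (he : ContinuousOn e K) (hinj : InjOn e K) {r : ℝ} (hr : 0 < r)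
    (himg : e '' K = closedBall 0 r) {z : ℂ} (hz : z ∈ K) (hzr : ‖e z‖ = r) : z ∈ frontier K := by
  rw [hK.isClosed.frontier_eq]
  exact ⟨hz, fun hi => pvxa2_not_nhds hK he hinj hr himg hz hzr (mem_interior_iff_mem_nhds.1 hi)⟩

/-- the frontier of a soft disc -/
theorem pvxa2_frontier_eq {K : Set ℂ} (hK : IsCompact K) {e : ℂ → ℂ} (he : ContinuousOn e K) (hinj : InjOn e K) {r : ℝ} (hr : 0 < r)
    (himg : e '' K = closedBall 0 r) (hint : ∀ z ∈ K, ‖e z‖ < r → K ∈ 𝓝 z) : frontier K = {z | z ∈ K ∧ ‖e z‖ = r} := by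
  ext z
  constructor
  · intro hz
    rw [hK.isClosed.frontier_eq] at hz
    refine ⟨hz.1, ?_⟩
    have h1 : ‖e z‖ ≤ r := mem_closedBall_zero_iff.1 (himg ▸ mem_image_of_mem e hz.1)
    by_contra hne
    exact hz.2 (mem_interior_iff_mem_nhds.2 (hint z hz.1 (lt_of_le_of_ne h1 hne)))
  · rintro ⟨hz, hzr⟩
    exact pvxa2_frontier hK he hinj hr himg hz hzr

/-- a frontier point of a closed set is a limit of points of the complement -/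
theorem pvxa2_closure_compl {K : Set ℂ} {z : ℂ} (hz : z ∈ frontier K) : z ∈ closure Kᶜ := by
  rw [frontier_eq_closure_inter_closure] at hz
  exact hz.2

/-- a quantitative form: points of the complement at every scale -/
theorem pvxa2_exists_compl {K : Set ℂ} {z : ℂ} (hz : z ∈ frontier K) {s : ℝ} (hs : 0 < s) : ∃ w, w ∉ K ∧ ‖w - z‖ < s := by
  obtain ⟨w, hw, hwz⟩ := Metric.mem_closure_iff.1 (pvxa2_closure_compl hz) s hs
  exact ⟨w, hw, by rwa [dist_comm, dist_eq_norm] at hwz⟩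

section chart

variable {D : Set ℂ} {d : ℂ} {ψ : ℂ → ℂ}

theorem pvxa2_chart_compact (h : PvChart D d ψ) : IsCompact (closure D) := h.bdd.isCompact_closure

/-- **(S7) for a chart**: the frontier of `closure D` is the frontier of `D` -/
theorem pvxa2_chart_frontier (h : PvChart D d ψ) : frontier (closure D) = frontier D := by
  refine Subset.antisymm frontier_closure_subset fun p hp => ?_
  exact pvxa2_frontier (pvxa2_chart_compact h) h.disc_cont h.disc_injOn one_pos h.disc_img (frontier_subset_closure hp) (h.disc_norm_eq hp)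

/-- **(S7) for a chart**: every frontier point of `D` is a limit of points OUTSIDE `closure D` -/
theorem pvxa2_chart (h : PvChart D d ψ) {p : ℂ} (hp : p ∈ frontier D) : p ∈ closure (closure D)ᶜ :=
  pvxa2_closure_compl (by rw [pvxa2_chart_frontier h]; exact hp)

theorem pvxa2_chart_exists (h : PvChart D d ψ) {p : ℂ} (hp : p ∈ frontier D) {s : ℝ} (hs : 0 < s) : ∃ w, w ∉ closure D ∧ ‖w - p‖ < s :=
  pvxa2_exists_compl (by rw [pvxa2_chart_frontier h]; exact hp) hs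

end chart

/-- **the frontier of a soft disc is the preimage of the unit circle** -/
theorem PvxmDisc.frontier_eq {K : Set ℂ} {Φ : ℂ → ℂ} (H : PvxmDisc K Φ) : frontier K = {z | z ∈ K ∧ ‖Φ z‖ = 1} :=
  pvxa2_frontier_eq H.cpt H.cont H.inj one_pos H.img H.nhd

theorem PvxmDisc.mem_frontier {K : Set ℂ} {Φ : ℂ → ℂ} (H : PvxmDisc K Φ) {z : ℂ} (hz : z ∈ K) (h1 : ‖Φ z‖ = 1) : z ∈ frontier K := by
  rw [H.frontier_eq]; exact ⟨hz, h1⟩

/-- points of the complement at every scale round a point of the circle -/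
theorem PvxmDisc.exists_compl {K : Set ℂ} {Φ : ℂ → ℂ} (H : PvxmDisc K Φ) {z : ℂ} (hz : z ∈ K) (h1 : ‖Φ z‖ = 1) {s : ℝ} (hs : 0 < s) : ∃ w, w ∉ K ∧ ‖w - z‖ < s :=
  pvxa2_exists_compl (H.mem_frontier hz h1) hs

end Claimed.Agent.R289
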