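import Claimed.Agent.R289.Ext.Sub
import Claimed.Agent.R289.Ext.Tgt
import Claimed.Agent.R289.Obs.Sys

/-!
# Row 289 (S0537), unit EXT, ROAD 2 = MIX, file Mix/Tol: `PvLower` WITH A TOLERANCE ON THE TWO ARCS      (helper246; prefix `pvxt_`)

    PvLowerFat  ⟹(`pvxt_lower_fat`, HERE, 0 sorry)⟹  PvLower          (also: PvLowerTol ⟹(`pvxt_lower`)⟹ PvLower)

* `PvFatTol D d ψ x r ω`   locally finite sample with a preconnected `S ⊆ closure D ∩ pvxgBk t ω`, `t > 0`, meeting the frontier `r`-close to each of the two arcs (input form of `pvxg_tgt`, helper49).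
* `PvLowerFat`   for EVERY chart, `0 < x < 1`, `r, η > 0` and EVERY measurable `T ⊇ {PvFatTol}`: eventually `pvLaw ε T ≥ cardyF x - η`  (no measurability question is left to the road MIX).

* `PvStrictTol D d ψ x r ω`   a strict black path of `closure D` whose end points are FRONTIER points `r`-close (Euclidean distance) to the arcs `ψ⁻¹[0,x]`, `{d} ∪ ψ⁻¹[1,∞)`.
* `PvLowerTol`   for EVERY chart (wild boundary allowed), `0 < x < 1`, `r, η > 0`: eventually a measurable `E ⊆ {PvStrictTol}` with `pvLaw ε E ≥ cardyF x - η`.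
PROOF of `pvxt_lower`: change of marks.   `ψ' = T_κ ∘ ψ` (`PvChart.inv`, `PvChart.aff`; real Moebius map of helper10, `Ext/Sub.lean` sec. 4) has the marks `(κ, x - κ, 1 + κ, 1/κ) ↦ (0, x', 1, ∞)`;
its two arcs are the SHRUNK arcs of `ψ`; frontier points `ρ0`-close to the shrunk arcs lie on the arcs (`pvx1_sepL`, `pvx1_sepR`);  `cardyF x' ≥ cardyF x - η/2` (`pvx1_kappa`).
-/

set_option autoImplicit false

namespace Claimed.Agent.R289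

open Complex MeasureTheory Set Filter Topology
open Claims.C0465

/-- **strict black crossing with tolerance `r`** -/
def PvStrictTol (D : Set ℂ) (d : ℂ) (ψ : ℂ → ℂ) (x r : ℝ) (ω : PVSample) : Prop :=
  ∃ σ : ℝ → ℂ, ContinuousOn σ (Icc 0 1) ∧ (∀ t ∈ Icc (0 : ℝ) 1, σ t ∈ closure D ∧ σ t ∈ pvBlack ω ∧ σ t ∉ pvWhite ω) ∧
    σ 0 ∈ frontier D ∧ σ 0 ∈ Metric.thickening r (pvArcL D d ψ x) ∧ σ 1 ∈ frontier D ∧ σ 1 ∈ Metric.thickening r (pvArcR D d ψ)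

/-- **the lower bound in Cardy's formula with a tolerance on the arcs, all charts** (exit of NICE in the design MIX) -/
def PvLowerTol : Prop :=
  ∀ (D : Set ℂ) (d : ℂ) (ψ : ℂ → ℂ), PvChart D d ψ → ∀ x : ℝ, 0 < x → x < 1 → ∀ r η : ℝ, 0 < r → 0 < η →
    ∀ᶠ ε in 𝓝[>] (0 : ℝ), ∃ E : Set PVSample, MeasurableSet E ∧ E ⊆ {ω | PvStrictTol D d ψ x r ω} ∧ ENNReal.ofReal (cardyF x - η) ≤ pvLaw ε E

/-- **fat black crossing with tolerance `r`** (input form of `pvxg_tgt`) -/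
def PvFatTol (D : Set ℂ) (d : ℂ) (ψ : ℂ → ℂ) (x r : ℝ) (ω : PVSample) : Prop :=
  PvLF (pvConf ω) ∧ ∃ t : ℝ, 0 < t ∧ ∃ S : Set ℂ, IsPreconnected S ∧ S ⊆ closure D ∩ pvxgBk t ω ∧
    (S ∩ (frontier D ∩ Metric.thickening r (pvArcL D d ψ x))).Nonempty ∧ (S ∩ (frontier D ∩ Metric.thickening r (pvArcR D d ψ))).Nonempty

/-- **the lower bound in Cardy's formula for the outer probability of the fat tolerant crossings, all charts** (exit of the road MIX) -/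
def PvLowerFat : Prop :=
  ∀ (D : Set ℂ) (d : ℂ) (ψ : ℂ → ℂ), PvChart D d ψ → ∀ x : ℝ, 0 < x → x < 1 → ∀ r η : ℝ, 0 < r → 0 < η →
    ∀ T : Set PVSample, MeasurableSet T → {ω | PvFatTol D d ψ x r ω} ⊆ T → ∀ᶠ ε in 𝓝[>] (0 : ℝ), ENNReal.ofReal (cardyF x - η) ≤ pvLaw ε T

theorem pvxt_eqns_cite : True := by
  have := @PvStrictTol.eq_1; have := @PvLowerTol.eq_1; have := @PvFatTol.eq_1; have := @PvLowerFat.eq_1
  trivial

variable {D : Set ℂ} {d : ℂ} {ψ : ℂ → ℂ}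

/-- **the chart `T_κ ∘ ψ`** of the SAME domain, pole at the point of coordinate `1/κ` (`pvx1_marks` for a `PvChart`) -/
theorem pvxt_marks (h0 : PvChart D d ψ) {κ : ℝ} (hκ0 : 0 < κ) (hκ1 : κ < 1 / 2) :
    ∃ (d' : ℂ) (ψ' : ℂ → ℂ), PvChart D d' ψ' ∧ d' ∈ frontier D ∧ d' ≠ d ∧ ψ d' = ((1 / κ : ℝ) : ℂ) ∧ ψ' d = ((pvx1B κ : ℝ) : ℂ) ∧
      ∀ z ∈ frontier D, z ≠ d → z ≠ d' → ∃ w : ℝ, ψ z = (w : ℂ) ∧ w ≠ 1 / κ ∧ ψ' z = ((pvx1T κ w : ℝ) : ℂ) := by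
  obtain ⟨d', ⟨hd'f, hd'0⟩, hd'⟩ : ((1 / κ : ℝ) : ℂ) ∈ ψ '' (frontier D \ {d}) := by
    rw [h0.imgB]
    simp
  have hd'0' : d' ≠ d := hd'0
  refine ⟨d', _, (h0.inv hd'f hd'0').aff (α := pvx1A κ) (β := pvx1B κ) (pvx1_A_pos hκ0 hκ1), hd'f, hd'0', hd', by simp, ?_⟩
  intro z hz hz0 hzd
  refine ⟨(ψ z).re, ?_, ?_, ?_⟩
  · apply Complex.ext
    · simp
    · simp [h0.im_zero hz hz0]
  · intro hw
    apply h0.psi_ne hd'f hd'0' (frontier_subset_closure hz) hz0 hzd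
    rw [hd']
    apply Complex.ext
    · simp [hw]
    · simp [h0.im_zero hz hz0]
  · have e1 : ψ z = (((ψ z).re : ℝ) : ℂ) := by
      apply Complex.ext
      · simp
      · simp [h0.im_zero hz hz0]
    simp only [if_neg hz0, hd']
    rw [e1]
    unfold pvx1T
    push_cast
    simp

/-- the two arcs of the chart `T_κ ∘ ψ` are the shrunk arcs of `ψ` -/
theorem pvxt_quad (h : PvChart D d ψ) {x κ : ℝ} (hx1 : x < 1) (hκ0 : 0 < κ) (hκ1 : κ < 1 / 2) :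
    ∃ (d' : ℂ) (ψ' : ℂ → ℂ), PvChart D d' ψ' ∧ pvArcL D d' ψ' (pvx1T κ (x - κ)) ⊆ pvx1AL D d ψ x κ ∧ pvArcR D d' ψ' ⊆ pvx1AR D d ψ κ := by
  obtain ⟨d', ψ', h', hd'f, hd'0, hd', hψ'0, hT⟩ := pvxt_marks h hκ0 hκ1
  have hB := pvx1_B_neg hκ0 hκ1
  have hk2 := pvx1_inv_gt hκ0 hκ1
  refine ⟨d', ψ', h', ?_, ?_⟩
  · rintro z ⟨hzf, hzd, hz1, hz2⟩
    have hz0 : z ≠ d := by
      rintro rfl
      rw [hψ'0, Complex.ofReal_re] at hz1
      linarith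
    obtain ⟨w, hw, hwk, hTw⟩ := hT z hzf hz0 hzd
    rw [hTw, Complex.ofReal_re] at hz1 hz2
    have hwlt : w < 1 / κ := by
      rcases lt_or_gt_of_ne hwk with h1 | h1
      · exact h1
      · linarith [pvx1_T_neg hκ0 hκ1 h1]
    refine ⟨hzf, hz0, ?_, ?_⟩
    · rw [hw, Complex.ofReal_re]
      refine (pvx1_T_le hκ0 hκ1 (by linarith) hwlt).1 ?_
      rw [pvx1_T_zero hκ0 hκ1]
      exact hz1
    · rw [hw, Complex.ofReal_re]
      exact (pvx1_T_le hκ0 hκ1 hwlt (by linarith)).1 hz2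
  · rintro z (rfl | ⟨hzf, hzd, hz1⟩)
    · refine ⟨hd'f, hd'0, ?_, ?_⟩
      · rw [hd', Complex.ofReal_re]
        linarith
      · rw [hd', Complex.ofReal_re]
    · have hz0 : z ≠ d := by
        rintro rfl
        rw [hψ'0, Complex.ofReal_re] at hz1
        linarith
      obtain ⟨w, hw, hwk, hTw⟩ := hT z hzf hz0 hzd
      rw [hTw, Complex.ofReal_re] at hz1
      have hwlt : w < 1 / κ := by
        rcases lt_or_gt_of_ne hwk with h1 | h1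
        · exact h1
        · linarith [pvx1_T_neg hκ0 hκ1 h1]
      refine ⟨hzf, hz0, ?_, ?_⟩
      · rw [hw, Complex.ofReal_re]
        refine (pvx1_T_le hκ0 hκ1 (by linarith) hwlt).1 ?_
        rw [pvx1_T_one hκ0 hκ1]
        exact hz1
      · rw [hw, Complex.ofReal_re]
        exact hwlt.le

/-- **EXT in the design MIX**: the tolerance is absorbed by a change of marks -/
theorem pvxt_lower (hN : PvLowerTol) : PvLower := by
  intro D d ψ h x hx0 hx1 η hη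
  obtain ⟨κ, hκ0, hκ1, -, hx'0, hx'1, hF⟩ := pvx1_kappa hx0 hx1 (half_pos hη)
  obtain ⟨ρL, hρL, HL⟩ := pvx1_sepL h x hκ0
  obtain ⟨ρR, hρR, HR⟩ := pvx1_sepR h hκ0
  obtain ⟨d', ψ', h', hL, hR⟩ := pvxt_quad h hx1 hκ0 hκ1
  filter_upwards [hN D d' ψ' h' _ hx'0 hx'1 (min ρL ρR) (η / 2) (lt_min hρL hρR) (half_pos hη)] with ε hε
  obtain ⟨E, hEm, hEs, hEp⟩ := hε
  refine ⟨E, hEm, fun ω hω => ?_, le_trans (ENNReal.ofReal_le_ofReal (by linarith)) hEp⟩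
  obtain ⟨σ, hσc, hσ, h0f, h0, h1f, h1⟩ := hEs hω
  refine ⟨σ, hσc, hσ, ?_, ?_⟩
  · obtain ⟨z, hz, hzd⟩ := Metric.mem_thickening_iff.1 h0
    have hz' := hL hz
    exact HL z hz'.1 hz'.2.1 hz'.2.2.1 hz'.2.2.2 _ h0f (hzd.trans_le (min_le_left _ _))
  · obtain ⟨z, hz, hzd⟩ := Metric.mem_thickening_iff.1 h1
    have hz' := hR hz
    exact HR z hz'.1 hz'.2.1 hz'.2.2.1 hz'.2.2.2 _ h1f (hzd.trans_le (min_le_right _ _))

/-- **EXT in the road MIX, fat form**: the tolerance is absorbed by a change of marks, the measurable event is the target of `pvxg_tgt` for the ORIGINAL marks -/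
theorem pvxt_lower_fat (hN : PvLowerFat) : PvLower := by
  intro D d ψ h x hx0 hx1 η hη
  obtain ⟨κ, hκ0, hκ1, -, hx'0, hx'1, hF⟩ := pvx1_kappa hx0 hx1 (half_pos hη)
  obtain ⟨ρL, hρL, HL⟩ := pvx1_sepL h x hκ0
  obtain ⟨ρR, hρR, HR⟩ := pvx1_sepR h hκ0
  obtain ⟨d', ψ', h', hL, hR⟩ := pvxt_quad h hx1 hκ0 hκ1
  obtain ⟨T, hTm, hTs, hT⟩ := pvxg_tgt h x
  have hsub : {ω | PvFatTol D d' ψ' (pvx1T κ (x - κ)) (min ρL ρR) ω} ⊆ T := by
    rintro ω ⟨lf, t, ht, S, hS, hSs, ⟨p, hpS, hpf, hp⟩, ⟨q, hqS, hqf, hq⟩⟩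
    refine hT ω lf t ht S hS hSs ⟨p, hpS, ?_⟩ ⟨q, hqS, ?_⟩
    · obtain ⟨z, hz, hzd⟩ := Metric.mem_thickening_iff.1 hp
      have hz' := hL hz
      exact HL z hz'.1 hz'.2.1 hz'.2.2.1 hz'.2.2.2 _ hpf (hzd.trans_le (min_le_left _ _))
    · obtain ⟨z, hz, hzd⟩ := Metric.mem_thickening_iff.1 hq
      have hz' := hR hz
      exact HR z hz'.1 hz'.2.1 hz'.2.2.1 hz'.2.2.2 _ hqf (hzd.trans_le (min_le_right _ _))
  filter_upwards [hN D d' ψ' h' _ hx'0 hx'1 (min ρL ρR) (η / 2) (lt_min hρL hρR) (half_pos hη) T hTm hsub] with ε hε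
  exact ⟨T, hTm, hTs, le_trans (ENNReal.ofReal_le_ofReal (by linarith)) hε⟩

/-! ## 9. THE DEFS OF THE ROAD MIX (consumed by `Mix/Main.lean` and by the owners of its contracts): the record OUT, the guard -/

/-- the sites whose cell leaves `D` only `t`-close to the two arcs of the crossing -/
def pvzmW (D : Set ℂ) (d : ℂ) (ψ : ℂ → ℂ) (x t : ℝ) (Y : Set ℂ) : Set ℂ :=
  {p | vorCell Y p ⊆ D ∪ Metric.thickening t (pvArcL D d ψ x) ∪ Metric.thickening t (pvArcR D d ψ)}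

/-- **OUT**: what the exit of the road MIX consumes from the soft disc, beyond `PvoFam.Good` -/
structure PvzmOut (𝔇 : PvoFam) (D : Set ℂ) (d : ℂ) (ψ : ℂ → ℂ) (x : ℝ) (Y : Set ℂ) (t : ℝ) : Prop where
  /-- the attachments of the sector of the fan `s₀` from the CANONICAL probe of `b` up to the closing dart are outside `D` -/
  secOut : ∀ b ∈ frontier D, b ≠ d → ψ b = x → ∀ e' ∈ (𝔇 Y).T.Sec ((𝔇 Y).T.opp (𝔇.probe D ψ Y b)) (𝔇 Y).q, ∀ a', (𝔇 Y).lab ((𝔇 Y).T.tgt e') = Sum.inl a' → a' ∉ D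
  /-- the attachments of the fan `s₁` are outside `D` -/
  arcOut : ∀ e a, (𝔇 Y).lab ((𝔇 Y).T.src e) = Sum.inl a → (𝔇 Y).lab ((𝔇 Y).T.tgt e) = Sum.inr 1 → a ∉ D
  /-- the cells of the disc sites leave `D` only near the two arcs -/
  cellIn : ∀ v p, (𝔇 Y).lab v = Sum.inl p → p ∈ pvzmW D d ψ x t Y

/-- good + out with high probability, at all tolerances -/
def PvzmWhp (𝔇 : PvoFam) (D : Set ℂ) (d : ℂ) (ψ : ℂ → ℂ) (x : ℝ) : Prop :=
  ∀ t : ℝ, 0 < t → ∃ s : ℝ, 0 < s ∧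
    Tendsto (fun ε : ℝ => pvGeo ε {g | ¬ (𝔇.Good D d ψ x (pvgSites g) s t ∧ PvzmOut 𝔇 D d ψ x (pvgSites g) t)}) (𝓝[>] 0) (𝓝 0)

/-- the guard of the road MIX -/
structure PvzmGuard (𝔇 : PvoFam) (D : Set ℂ) (d : ℂ) (ψ : ℂ → ℂ) (x : ℝ) (εs : ℕ → ℝ) (𝒯 : ℕ → Set PvGeoT) : Prop where
  gd : PvoGuard 𝔇 D d ψ x εs 𝒯
  out : ∀ t : ℝ, 0 < t → ∀ᶠ k in atTop, ∀ g ∈ 𝒯 k, PvzmOut 𝔇 D d ψ x (pvgSites g) t

theorem pvzm_eqns_cite : True := by
  have := @pvzmW.eq_1; have := @PvzmWhp.eq_1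
  trivial

theorem PvzmOut.mono {𝔇 : PvoFam} {D : Set ℂ} {d : ℂ} {ψ : ℂ → ℂ} {x : ℝ} {Y : Set ℂ} {t t' : ℝ} (h : PvzmOut 𝔇 D d ψ x Y t) (htt : t ≤ t') :
    PvzmOut 𝔇 D d ψ x Y t' :=
  ⟨h.secOut, h.arcOut, fun v p hv z hz => by
    rcases h.cellIn v p hv hz with (h1 | h1) | h1
    · exact Or.inl (Or.inl h1)
    · exact Or.inl (Or.inr (Metric.thickening_mono htt _ h1))
    · exact Or.inr (Metric.thickening_mono htt _ h1)⟩

end Claimed.Agent.R289
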