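-- KEEP
import Claimed.Agent.R289.Ext.Strict
import Claimed.Agent.R289.Mix.Tol

/-!
# Row 289 (S0537), unit EXT, ROAD 2 = MIX, file Mix/Exit : FROM ONE BLACK CHAIN OF SITES TO THE FAT TOLERANT CROSSING `PvFatTol`      (owner helper104, second pen helper10; head of the road helper246; prefix `pvxme_`)

CONSUMER: `Mix/Main.lean` (246).      INPUTS: `Ext/Strict` (10: `pvx5_clip`, `Pvx5Good`, `pvx5_good_ev`, `pvx5_vc`), `Del/Strict` (285: `dels_chain`, `dels_vc`), `Ext/Cells` (255: `pvxk_strict_thin`), `Ext/Tgt` (49: `pvxgBk`), `Mix/Tol` (246: `PvFatTol`, `PvLowerFat`).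
Notation: `NL = thickening r (pvArcL D d ψ x)`, `NR = thickening r (pvArcR D d ψ)`, `Y = cfSites (pvConf ω)`.

* sec. 1  `pvxme_thick` (a compact set of strict black points lies in a thick black region), `pvxme_of_joined` (strict path of `closure D` between frontier points of `NL`, `NR` ⟹ `PvFatTol`), `pvxme_of_strict` (`PvStrictTol ⟹ PvFatTol`), `pvxme_mono`
* sec. 2  `pvxme_arcs_sep` : the two arcs of a chart (`x < 1`) have disjoint thickenings;      `pvxme_room` : a compact `K ⊆ D ∪ NL ∪ NR` has a thickening inside `D ∪ NL ∪ NR`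
* sec. 3  deterministic exits: `pvxme_path` (strict path in `D ∪ NL ∪ NR` from `NL \ D` to `NR \ D`), **`pvxme_chain`** (chain of black sites, cells touching, cells inside `D ∪ NL ∪ NR`), `pvxme_adj` (the same, `DelAdj`), `pvxme_vc` (`PvVC`),
          `pvxme_end` (a site `∉ D` whose small cell lies in `D ∪ NL' ∪ NR'` and meets `NL'` is in `NL'`), **`pvxme_chain'`** (= the contract of 246: the two end cells MEET the thickenings)
* sec. 5  **`pvxme_det`** = the contract `pvzm_det` of `Mix/Main.lean`, verbatim (without the unused `0 < x`)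
* sec. 4  `pvxme_good` (on a good sample: `PvVC` in `W`, `vorNbd W ρ ⊆ D ∪ NL ∪ NR`), **`pvxme_main`** (good event of probability `≥ 1 - η`), **`pvxme_lower`** (lower bound for every measurable `T ⊇ {PvFatTol}`: the conclusion of `PvLowerFat` for one chart; no measurability of the crossing event is asked)
-/

set_option autoImplicit false

namespace Claimed.Agent.R289

open MeasureTheory Set Metric Filter Topology Claims.C0465

variable {D : Set ℂ} {d : ℂ} {ψ : ℂ → ℂ} {x r : ℝ} {ω : PVSample}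

/-! ## 1. strict paths are fat -/

/-- a compact set of strict black points lies in a thick black region -/
theorem pvxme_thick (ok : DelgpOk ω) {G : Set ℂ} (hG : IsCompact G) (hGs : G ⊆ pvBlack ω \ pvWhite ω) : ∃ t : ℝ, 0 < t ∧ G ⊆ pvxgBk t ω := by
  rw [dels_frozen_ok ok] at hGs
  obtain ⟨t, ht, h⟩ := pvxk_strict_thin ok.lf hG hGs
  refine ⟨t, ht, ?_⟩
  rw [pvxg_bk_eq_fat, dels_wh_eq ok.cf.one]
  exact h

/-- a strict path of `closure D` between two frontier points close to the two arcs is a fat tolerant crossing -/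
theorem pvxme_of_joined (ok : DelgpOk ω) {p q : ℂ} (hp : p ∈ frontier D) (hpL : p ∈ thickening r (pvArcL D d ψ x)) (hq : q ∈ frontier D)
    (hqR : q ∈ thickening r (pvArcR D d ψ)) (hj : JoinedIn ((pvBlack ω \ pvWhite ω) ∩ closure D) p q) : PvFatTol D d ψ x r ω := by
  obtain ⟨γ, hγ⟩ := hj
  obtain ⟨t, ht, hsub⟩ := pvxme_thick ok (isCompact_range γ.continuous) (by rintro _ ⟨s, rfl⟩; exact (hγ s).1)
  refine ⟨ok.pvlf, t, ht, range γ, (isConnected_range γ.continuous).isPreconnected, ?_, ⟨p, ⟨0, γ.source⟩, hp, hpL⟩, ⟨q, ⟨1, γ.target⟩, hq, hqR⟩⟩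
  rintro _ ⟨s, rfl⟩
  exact ⟨(hγ s).2, hsub ⟨s, rfl⟩⟩

/-- `PvStrictTol ⟹ PvFatTol` -/
theorem pvxme_of_strict (ok : DelgpOk ω) (h : PvStrictTol D d ψ x r ω) : PvFatTol D d ψ x r ω := by
  obtain ⟨σ, hσc, hσ, h0f, h0, h1f, h1⟩ := h
  refine pvxme_of_joined ok h0f h0 h1f h1 (JoinedIn.ofLine hσc rfl rfl ?_)
  rintro _ ⟨t, ht, rfl⟩
  exact ⟨⟨(hσ t ht).2.1, (hσ t ht).2.2⟩, (hσ t ht).1⟩

/-- the tolerance may be increased -/
theorem pvxme_mono {r' : ℝ} (hr : r ≤ r') (h : PvFatTol D d ψ x r ω) : PvFatTol D d ψ x r' ω := by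
  obtain ⟨lf, t, ht, S, hS, hSs, ⟨p, hpS, hpf, hp⟩, ⟨q, hqS, hqf, hq⟩⟩ := h
  exact ⟨lf, t, ht, S, hS, hSs, ⟨p, hpS, hpf, thickening_mono hr _ hp⟩, ⟨q, hqS, hqf, thickening_mono hr _ hq⟩⟩

/-! ## 2. room -/

/-- the two arcs of a chart have disjoint thickenings -/
theorem pvxme_arcs_sep (h : PvChart D d ψ) (hx1 : x < 1) : ∃ r0 : ℝ, 0 < r0 ∧ Disjoint (thickening r0 (pvArcL D d ψ x)) (thickening r0 (pvArcR D d ψ)) := by
  obtain ⟨ρ0, hρ0, H⟩ := pvx1_sep h (-((1 - x) / 2)) (x + (1 - x) / 2) (κ := (1 - x) / 2) (by linarith)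
  refine ⟨ρ0 / 2, by linarith, ?_⟩
  rw [Set.disjoint_left]
  intro w h1 h2
  obtain ⟨z, hz, hwz⟩ := mem_thickening_iff.1 h1
  obtain ⟨z', hz', hwz'⟩ := mem_thickening_iff.1 h2
  have h3 : dist z' z < ρ0 := by
    have := dist_triangle_left z' z w
    linarith
  have hz'c : z' ∈ closure D := by
    rcases hz' with rfl | hz'
    · exact frontier_subset_closure h.hd
    · exact frontier_subset_closure hz'.1
  obtain ⟨a, -, c⟩ := H z hz.1 hz.2.1 (by linarith [hz.2.2.1]) (by linarith [hz.2.2.2]) z' hz'c h3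
  rcases hz' with rfl | hz'
  · exact a rfl
  · linarith [hz'.2.2]

/-- a compact subset of `D ∪ NL ∪ NR` has a thickening inside `D ∪ NL ∪ NR` -/
theorem pvxme_room (hD : IsOpen D) {K AL AR : Set ℂ} (hK : IsCompact K) (hsub : K ⊆ D ∪ thickening r AL ∪ thickening r AR) :
    ∃ μ : ℝ, 0 < μ ∧ thickening μ K ⊆ D ∪ thickening r AL ∪ thickening r AR :=
  hK.exists_thickening_subset_open ((hD.union isOpen_thickening).union isOpen_thickening) hsub

/-! ## 3. the deterministic exits -/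

/-- path form -/
theorem pvxme_path (hD : IsOpen D) (hdis : Disjoint (thickening r (pvArcL D d ψ x)) (thickening r (pvArcR D d ψ))) (ok : DelgpOk ω) {u v : ℂ}
    (hu : u ∈ thickening r (pvArcL D d ψ x) \ D) (hv : v ∈ thickening r (pvArcR D d ψ) \ D)
    (hj : JoinedIn ((pvBlack ω \ pvWhite ω) ∩ (D ∪ thickening r (pvArcL D d ψ x) ∪ thickening r (pvArcR D d ψ))) u v) : PvFatTol D d ψ x r ω := by
  obtain ⟨p', q', hp1, hp2, hq1, hq2, hj'⟩ := pvx5_clip hD isOpen_thickening isOpen_thickening hdis hu.1 hu.2 hv.1 hv.2 hj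
  exact pvxme_of_joined ok hp1 hp2 hq1 hq2 hj'

/-- **chain form**: `S` = a set of black sites with bounded cells inside `D ∪ NL ∪ NR`; a chain in `S` (consecutive cells touching) from a site of `NL \ D` to a site of `NR \ D` -/
theorem pvxme_chain (hD : IsOpen D) (hdis : Disjoint (thickening r (pvArcL D d ψ x)) (thickening r (pvArcR D d ψ))) (ok : DelgpOk ω) {S : Set ℂ}
    (hS : S ⊆ delsBk (pvConf ω)) (hbd : ∀ v ∈ S, Bornology.IsBounded (vorCell (cfSites (pvConf ω)) v))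
    (hcell : ∀ v ∈ S, vorCell (cfSites (pvConf ω)) v ⊆ D ∪ thickening r (pvArcL D d ψ x) ∪ thickening r (pvArcR D d ψ)) {a b : ℂ} (ha : a ∈ S)
    (hch : Relation.ReflTransGen (fun u v => v ∈ S ∧ (vorCell (cfSites (pvConf ω)) u ∩ vorCell (cfSites (pvConf ω)) v).Nonempty) a b)
    (haL : a ∈ thickening r (pvArcL D d ψ x) \ D) (hbR : b ∈ thickening r (pvArcR D d ψ) \ D) : PvFatTol D d ψ x r ω := by
  obtain ⟨-, hj⟩ := dels_chain ok.lf ok.gp (dels_bk_subset _) hS hbd ha hch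
  refine pvxme_path hD hdis ok haL hbR (hj.mono ?_)
  rw [dels_frozen_ok ok]
  refine inter_subset_inter_right _ ?_
  rintro z ⟨v, hv, hz⟩
  exact hcell v hv hz

/-- the same with `DelAdj` -/
theorem pvxme_adj (hD : IsOpen D) (hdis : Disjoint (thickening r (pvArcL D d ψ x)) (thickening r (pvArcR D d ψ))) (ok : DelgpOk ω) {S : Set ℂ}
    (hS : S ⊆ delsBk (pvConf ω)) (hbd : ∀ v ∈ S, Bornology.IsBounded (vorCell (cfSites (pvConf ω)) v))
    (hcell : ∀ v ∈ S, vorCell (cfSites (pvConf ω)) v ⊆ D ∪ thickening r (pvArcL D d ψ x) ∪ thickening r (pvArcR D d ψ)) {a b : ℂ} (ha : a ∈ S)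
    (hch : Relation.ReflTransGen (fun u v => v ∈ S ∧ DelAdj (cfSites (pvConf ω)) u v) a b)
    (haL : a ∈ thickening r (pvArcL D d ψ x) \ D) (hbR : b ∈ thickening r (pvArcR D d ψ) \ D) : PvFatTol D d ψ x r ω :=
  pvxme_chain hD hdis ok hS hbd hcell ha (Relation.ReflTransGen.mono (fun _ _ h => ⟨h.1, h.2.2.2.2⟩) _ _ hch) haL hbR

/-- `PvVC` form -/
theorem pvxme_vc (hD : IsOpen D) (hdis : Disjoint (thickening r (pvArcL D d ψ x)) (thickening r (pvArcR D d ψ))) (ok : DelgpOk ω) {W : Set ℂ}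
    (hbd : ∀ v, PvBk (pvConf ω) W v → Bornology.IsBounded (vorCell (cfSites (pvConf ω)) v))
    (hcell : ∀ v, PvBk (pvConf ω) W v → vorCell (cfSites (pvConf ω)) v ⊆ D ∪ thickening r (pvArcL D d ψ x) ∪ thickening r (pvArcR D d ψ))
    (h : PvVC (pvConf ω) W (thickening r (pvArcL D d ψ x) \ D) (thickening r (pvArcR D d ψ) \ D)) : PvFatTol D d ψ x r ω := by
  obtain ⟨u, v, hu, hv, hbk, hch⟩ := h
  refine pvxme_chain (S := {w | PvBk (pvConf ω) W w}) hD hdis ok (fun w hw => hw.1) hbd hcell hbk ?_ hu hv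
  refine Relation.ReflTransGen.mono (fun a b hab => ?_) _ _ hch
  rw [cfCell_eq_vor, cfCell_eq_vor] at hab
  exact hab

/-- **the end sites**: a site `a ∉ D` whose cell has radius `≤ μ`, lies in `D ∪ NL(t) ∪ NR(t)` and meets `NL(t)` is in `NL(t)`, as soon as `NL(t + μ)`, `NR(t + μ)` are disjoint -/
theorem pvxme_end {AL AR C : Set ℂ} {t μ : ℝ} (hμ : 0 ≤ μ) (hdis : Disjoint (thickening (t + μ) AL) (thickening (t + μ) AR)) {a : ℂ} (haC : a ∈ C) (haD : a ∉ D)
    (hC : C ⊆ D ∪ thickening t AL ∪ thickening t AR) (hrad : ∀ z ∈ C, ‖z - a‖ ≤ μ) (hm : (C ∩ thickening t AL).Nonempty) : a ∈ thickening t AL := by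
  rcases hC haC with (h | h) | h
  · exact absurd h haD
  · exact h
  · exfalso
    obtain ⟨y, hyC, hy⟩ := hm
    obtain ⟨z, hz, hyz⟩ := mem_thickening_iff.1 hy
    refine Set.disjoint_left.1 hdis (mem_thickening_iff.2 ⟨z, hz, ?_⟩) (thickening_mono (by linarith) _ h)
    have h1 := dist_triangle a y z
    have h2 := hrad y hyC
    rw [← dist_eq_norm, dist_comm] at h2
    linarith

/-- **THE CONTRACT OF 246**: black chain of sites, cells of radius `≤ μ` inside `D ∪ NL(t) ∪ NR(t)`, first and last site `∉ D`, first cell meeting `NL(t)`, last cell meeting `NR(t)`; `NL(t + μ)`, `NR(t + μ)` disjoint -/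
theorem pvxme_chain' {t μ : ℝ} (hD : IsOpen D) (hμ : 0 ≤ μ) (hdis : Disjoint (thickening (t + μ) (pvArcL D d ψ x)) (thickening (t + μ) (pvArcR D d ψ))) (ok : DelgpOk ω)
    {S : Set ℂ} (hS : S ⊆ delsBk (pvConf ω)) (hrad : ∀ v ∈ S, ∀ z ∈ vorCell (cfSites (pvConf ω)) v, ‖z - v‖ ≤ μ)
    (hcell : ∀ v ∈ S, vorCell (cfSites (pvConf ω)) v ⊆ D ∪ thickening t (pvArcL D d ψ x) ∪ thickening t (pvArcR D d ψ)) {a b : ℂ} (ha : a ∈ S)
    (hch : Relation.ReflTransGen (fun u v => v ∈ S ∧ (vorCell (cfSites (pvConf ω)) u ∩ vorCell (cfSites (pvConf ω)) v).Nonempty) a b)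
    (haD : a ∉ D) (haL : (vorCell (cfSites (pvConf ω)) a ∩ thickening t (pvArcL D d ψ x)).Nonempty)
    (hbD : b ∉ D) (hbR : (vorCell (cfSites (pvConf ω)) b ∩ thickening t (pvArcR D d ψ)).Nonempty) : PvFatTol D d ψ x t ω := by
  have hb : b ∈ S := by
    rcases Relation.ReflTransGen.cases_tail hch with h | ⟨c, -, h⟩
    · rw [h]; exact ha
    · exact h.1
  have hbd : ∀ v ∈ S, Bornology.IsBounded (vorCell (cfSites (pvConf ω)) v) := fun v hv =>
    (isBounded_closedBall (x := v) (r := μ)).subset fun z hz => by rw [mem_closedBall, dist_eq_norm]; exact hrad v hv z hz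
  have hdis' : Disjoint (thickening t (pvArcL D d ψ x)) (thickening t (pvArcR D d ψ)) :=
    hdis.mono (thickening_mono (by linarith) _) (thickening_mono (by linarith) _)
  have h1 := pvxme_end hμ hdis (vor_self_mem _ a) haD (hcell a ha) (hrad a ha) haL
  have h2 := pvxme_end (AL := pvArcR D d ψ) (AR := pvArcL D d ψ x) hμ hdis.symm (vor_self_mem _ b) hbD
    (fun z hz => by rcases hcell b hb hz with (h | h) | h; exacts [Or.inl (Or.inl h), Or.inr h, Or.inl (Or.inr h)]) (hrad b hb) hbR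
  exact pvxme_chain hD hdis' ok hS hbd hcell ha hch ⟨h1, haD⟩ ⟨h2, hbD⟩

/-! ## 4. the good event and the lower bound -/

/-- on a good sample -/
theorem pvxme_good (hD : IsOpen D) (hdis : Disjoint (thickening r (pvArcL D d ψ x)) (thickening r (pvArcR D d ψ))) {K W : Set ℂ} {ρ R : ℝ}
    (hg : Pvx5Good K ρ ω) (hρ : 0 ≤ ρ) (hR : ρ < R) (hWK : ∀ v ∈ W, closedBall v R ⊆ K)
    (hloc : vorNbd W ρ ⊆ D ∪ thickening r (pvArcL D d ψ x) ∪ thickening r (pvArcR D d ψ))
    (h : PvVC (pvConf ω) W (thickening r (pvArcL D d ψ x) \ D) (thickening r (pvArcR D d ψ) \ D)) : PvFatTol D d ψ x r ω := by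
  obtain ⟨u, hu, v, hv, hj⟩ := pvx5_vc hg hρ hR hWK h
  exact pvxme_path hD hdis hg.ok hu hv (hj.mono (inter_subset_inter_right _ hloc))

/-- **the good event**: measurable, probability `≥ 1 - η` for small `ε`; on it ONE black vertex chain in `W` from `NL \ D` to `NR \ D` gives the fat tolerant crossing -/
theorem pvxme_main (hD : IsOpen D) (hdis : Disjoint (thickening r (pvArcL D d ψ x)) (thickening r (pvArcR D d ψ))) {W : Set ℂ} (hW : Bornology.IsBounded W) {ρ η : ℝ} (hρ : 0 < ρ)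
    (hloc : vorNbd W ρ ⊆ D ∪ thickening r (pvArcL D d ψ x) ∪ thickening r (pvArcR D d ψ)) (hη : 0 < η) :
    ∀ᶠ ε in 𝓝[>] (0 : ℝ), ∃ G : Set PVSample, MeasurableSet G ∧ pvLaw ε Gᶜ ≤ ENNReal.ofReal η ∧ ∀ ω ∈ G,
      PvVC (pvConf ω) W (thickening r (pvArcL D d ψ x) \ D) (thickening r (pvArcR D d ψ) \ D) → PvFatTol D d ψ x r ω := by
  have hKb : Bornology.IsBounded (cthickening (2 * ρ) W) := hW.cthickening
  have hWK : ∀ v ∈ W, closedBall v (2 * ρ) ⊆ cthickening (2 * ρ) W := fun v hv z hz =>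
    mem_cthickening_of_dist_le z v _ _ hv (mem_closedBall.1 hz)
  filter_upwards [pvx5_good_ev hKb hρ hη] with ε ⟨G, hGm, hGp, hG⟩
  exact ⟨G, hGm, hGp, fun ω hω h => pvxme_good hD hdis (hG ω hω) hρ.le (by linarith) hWK hloc h⟩

/-- **the lower bound**: if the OUTER probability of the vertex crossing is eventually `≥ c - η` for every `η > 0`, so is the probability of every `T ⊇ {PvFatTol}` -/
theorem pvxme_lower (hD : IsOpen D) (hdis : Disjoint (thickening r (pvArcL D d ψ x)) (thickening r (pvArcR D d ψ))) {W : Set ℂ} (hW : Bornology.IsBounded W) {ρ c : ℝ} (hρ : 0 < ρ)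
    (hloc : vorNbd W ρ ⊆ D ∪ thickening r (pvArcL D d ψ x) ∪ thickening r (pvArcR D d ψ))
    (hN : ∀ η : ℝ, 0 < η → ∀ᶠ ε in 𝓝[>] (0 : ℝ), ENNReal.ofReal (c - η) ≤
      pvLaw ε {ω | PvVC (pvConf ω) W (thickening r (pvArcL D d ψ x) \ D) (thickening r (pvArcR D d ψ) \ D)})
    {η : ℝ} (hη : 0 < η) {T : Set PVSample} (hT : {ω | PvFatTol D d ψ x r ω} ⊆ T) : ∀ᶠ ε in 𝓝[>] (0 : ℝ), ENNReal.ofReal (c - η) ≤ pvLaw ε T := by
  filter_upwards [hN (η / 2) (half_pos hη), pvxme_main hD hdis hW hρ hloc (half_pos hη)] with ε h1 ⟨G, _, hGp, hG⟩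
  have hsub : {ω | PvVC (pvConf ω) W (thickening r (pvArcL D d ψ x) \ D) (thickening r (pvArcR D d ψ) \ D)} ⊆ T ∪ Gᶜ := by
    intro ω hω
    by_cases hωG : ω ∈ G
    · exact Or.inl (hT (hG ω hωG hω))
    · exact Or.inr hωG
  have h2 : ENNReal.ofReal (c - η / 2) ≤ pvLaw ε T + ENNReal.ofReal (η / 2) :=
    h1.trans ((measure_mono hsub).trans ((measure_union_le _ _).trans (add_le_add_right hGp _)))
  have h3 : ENNReal.ofReal (c - η) + ENNReal.ofReal (η / 2) ≤ pvLaw ε T + ENNReal.ofReal (η / 2) := by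
    rcases le_or_gt (c - η) 0 with h0 | h0
    · rw [ENNReal.ofReal_of_nonpos h0, zero_add]
      exact le_add_self
    · rw [← ENNReal.ofReal_add h0.le (half_pos hη).le]
      refine le_trans (ENNReal.ofReal_le_ofReal (by linarith)) h2
  exact (ENNReal.add_le_add_iff_right ENNReal.ofReal_ne_top).1 h3

/-! ## 5. THE CONTRACT `pvzm_det` OF `Mix/Main.lean` -/

/-- `D ∪ NL ∪ NR` is bounded -/
theorem pvxme_bdd (h : PvChart D d ψ) (x t : ℝ) : Bornology.IsBounded (D ∪ thickening t (pvArcL D d ψ x) ∪ thickening t (pvArcR D d ψ)) := by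
  have hf : Bornology.IsBounded (frontier D) := h.bdd.closure.subset frontier_subset_closure
  have hL : pvArcL D d ψ x ⊆ frontier D := fun z hz => hz.1
  have hR : pvArcR D d ψ ⊆ frontier D := by
    rintro z (rfl | hz)
    · exact h.hd
    · exact hz.1
  exact (h.bdd.union (hf.subset hL).thickening).union (hf.subset hR).thickening

/-- **DET-EXIT** (= `pvzm_det` of `Mix/Main.lean`, verbatim) -/
theorem pvxme_det (h : PvChart D d ψ) (hx1 : x < 1) (hr : 0 < r) :
    ∃ t0 : ℝ, 0 < t0 ∧ ∀ t : ℝ, 0 < t → t ≤ t0 → ∀ (g : PvGeoT) (c : PvColT), PvgOk g → ∀ u v : ℂ, u ∉ D → v ∉ D →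
      u ∈ Metric.thickening t (pvArcL D d ψ x) → v ∈ Metric.thickening t (pvArcR D d ψ) → PvBk (pvConf (pvMerge (g, c))) (pvzmW D d ψ x t (pvgSites g)) u →
      Relation.ReflTransGen (fun a b => PvBk (pvConf (pvMerge (g, c))) (pvzmW D d ψ x t (pvgSites g)) b ∧ DelAdj (pvgSites g) a b) u v →
      PvFatTol D d ψ x r (pvMerge (g, c)) := by
  obtain ⟨r0, hr0, hdis⟩ := pvxme_arcs_sep (x := x) h hx1
  refine ⟨min r r0, lt_min hr hr0, fun t _ htt g c hg u v hu hv huL hvR hbk hch => ?_⟩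
  have hdis' : Disjoint (thickening t (pvArcL D d ψ x)) (thickening t (pvArcR D d ψ)) :=
    hdis.mono (thickening_mono (htt.trans (min_le_right _ _)) _) (thickening_mono (htt.trans (min_le_right _ _)) _)
  refine pvxme_mono (htt.trans (min_le_left _ _)) ?_
  refine pvxme_adj (S := {w | PvBk (pvConf (pvMerge (g, c))) (pvzmW D d ψ x t (pvgSites g)) w}) h.isOpen hdis' (hg.ok c) (fun w hw => hw.1) ?_ ?_ hbk ?_ ⟨huL, hu⟩ ⟨hvR, hv⟩
  · intro w hw
    rw [pvqu_cfSites]
    exact (pvxme_bdd h x t).subset hw.2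
  · intro w hw
    rw [pvqu_cfSites]
    exact hw.2
  · rw [pvqu_cfSites]
    exact hch

end Claimed.Agent.R289
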