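import Claimed.Agent.R289.Del.Ord

-- KEEP
/-!
# Row 289 (S0537), road MIX (head helper246), file Mix/Fold : NO FOLD AND ORDER OF THE BOUNDARY CYCLE IN A SOFT CHART      (owner helper148; prefix `pvxf_`)      0 sorry

ABSTRACT ON `PvMap`: no Schoenflies, no winding number, nothing bi-Lipschitz, no holomorphy.
`T : PvMap V D` a triangulated sphere, `c : T.Cyc` the boundary cycle of the discrete disc `c.Left`, `x_k = T.src (c.e k)`, `X` = the inner sites (`pl_star_cycle`), `G : V → ℂ` = the chart value of a site.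
* sec.1  `PvxfCh T X G om` (CH: any two sites of `X` are joined inside `X` by a chain which stays `om`-close, in the chart, to the SEGMENT between their chart values;
         instance: pull the segment back by the inverse chart, nerve of the cells it meets `doc_del_conn`, uniform continuity),
         record `PvxfIn T c X G om th` : `sub apex ch cen leX leC rim step`  (centre `|G o| ≤ om`; `|G| ≤ 1`; cycle vertices have `|G| ≥ 1 - th`; edges of `Left` are `om`-short in the chart)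
* sec.2  `pvxf_num` (a radial segment which comes close to a point of the rim starts close to it), `pvxf_seg`
* sec.3  **`pvxf_nofold`** : `|G x_j - G x_i| ≤ vt` ⟹ one of the two arcs `[i,j]`, `[j,i+n]` stays within `2 th + 3 vt + 16 om` of `G x_i`.
         PROOF: crosscut `x_i b_i ⇝ b_j x_j` (CH chain over the chord) against `x_l b_l ⇝ o ⇝ b_l' x_l'` (two RADIAL CH chains): they meet by `doc_cut` (helper19, Hex); numerics.   Needs only `T.IsSph`.
* sec.4  `PvxfOrd c P δ` (exact lifts, one positive turn, steps `≤ δ`, monotone up to `δ`), `pvxf_ord_aux` (via `do_main` of helper253 = `dos_main` of helper19), `pvxf_sum_conj`,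
         **`pvxf_ord`** : `PvxfOrd c G δ ∨ PvxfOrd c (conj ∘ G) δ`, `δ = 64 th + 424 om ≤ 1/4`; input: density of the `G x_k` on the unit circle.      **`pvxf_ord_pos`**, `pvxf_main_pos` : with `0 ≤ doSum G c` (block SIGN) only the first alternative.
* sec.5  record `PvxfMarks c P α m th δ` : `lt per mark arc dens secL secR` = chart forms of the fields `arc`, `densB`, `sec` of `PvoFam.Good` / `PvgfRec`;   **`pvxf_marks`** (from ORD), **`pvxf_main`** (from the soft disc)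
* sec.6  `pvxf_conn`, `pvxf_foot`, **`pvxf_conn'`** : chart form of `conn` (D4) on `X ∪ c.verts`
-/

set_option autoImplicit false
set_option linter.unusedVariables false

namespace Claimed.Agent.R289

open Relation Complex Real

variable {V D : Type} {T : PvMap V D}

/-! ## 1. the soft data -/

/-- **(CH)** chains follow chart segments -/
def PvxfCh (T : PvMap V D) (X : Set V) (G : V → ℂ) (om : ℝ) : Prop :=
  ∀ a ∈ X, ∀ b ∈ X, ∃ Z : Set V, Z ⊆ X ∧ a ∈ Z ∧ (∀ y ∈ Z, ∃ w ∈ segment ℝ (G a) (G b), ‖G y - w‖ ≤ om) ∧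
    ReflTransGen (fun u v => T.Adj u v ∧ v ∈ Z) a b

/-- **the soft discrete disc** -/
structure PvxfIn (T : PvMap V D) (c : T.Cyc) (X : Set V) (G : V → ℂ) (om th : ℝ) : Prop where
  sub : X ⊆ T.Int c.Left
  apex : ∀ k, T.apex (c.e k) ∈ X
  ch : PvxfCh T X G om
  cen : ∃ o ∈ X, ‖G o‖ ≤ om
  leX : ∀ v ∈ X, ‖G v‖ ≤ 1
  leC : ∀ k, ‖G (T.src (c.e k))‖ ≤ 1
  rim : ∀ k, 1 - th ≤ ‖G (T.src (c.e k))‖
  step : ∀ d ∈ c.Left, ‖G (T.tgt d) - G (T.src d)‖ ≤ om

theorem pvxf_eqns_cite : True := by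
  have := @PvxfCh.eq_1
  trivial

/-! ## 2. numerics -/

theorem pvxf_num {A O P q : ℂ} {om th e : ℝ} (hom : om ≤ 1 / 3) (hA : ‖A‖ ≤ 1) (hO : ‖O‖ ≤ om) (hq : q ∈ segment ℝ A O)
    (hP : 1 - th ≤ ‖P‖) (hqP : ‖q - P‖ ≤ e) : ‖A - P‖ ≤ 2 * (th + e) + e := by
  obtain ⟨a, b, ha, hb, hab, rfl⟩ := hq
  have h1 : ‖a • A + b • O‖ ≤ a * 1 + b * om := by
    calc ‖a • A + b • O‖ ≤ ‖a • A‖ + ‖b • O‖ := norm_add_le _ _
      _ = a * ‖A‖ + b * ‖O‖ := by rw [norm_smul, norm_smul, Real.norm_of_nonneg ha, Real.norm_of_nonneg hb]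
      _ ≤ a * 1 + b * om := by gcongr
  have h2 : ‖P‖ ≤ ‖a • A + b • O‖ + e := by
    have := norm_sub_norm_le P (a • A + b • O)
    rw [norm_sub_rev] at this
    linarith
  have h3 : b * (1 - om) ≤ th + e := by nlinarith
  have h4 : A - (a • A + b • O) = b • (A - O) := by
    have e1 : a = 1 - b := by linarith
    rw [e1, sub_smul, one_smul, smul_sub]
    ring
  have h5 : ‖A - (a • A + b • O)‖ ≤ b * (1 + om) := by
    rw [h4, norm_smul, Real.norm_of_nonneg hb]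
    gcongr
    calc ‖A - O‖ ≤ ‖A‖ + ‖O‖ := norm_sub_le _ _
      _ ≤ 1 + om := by linarith
  have h6 : b * (1 + om) ≤ 2 * (b * (1 - om)) := by nlinarith
  calc ‖A - P‖ = ‖(A - (a • A + b • O)) + ((a • A + b • O) - P)‖ := by ring_nf
    _ ≤ ‖A - (a • A + b • O)‖ + ‖(a • A + b • O) - P‖ := norm_add_le _ _
    _ ≤ 2 * (th + e) + e := by linarith

theorem pvxf_seg {A B w : ℂ} (hw : w ∈ segment ℝ A B) : ‖w - A‖ ≤ ‖B - A‖ := by
  have := dist_add_dist_of_mem_segment hw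
  rw [dist_eq_norm, dist_eq_norm, dist_eq_norm, norm_sub_rev A w, norm_sub_rev A B] at this
  linarith [norm_nonneg (w - B)]

/-! ## 3. NO FOLD -/

/-- a chain inside `Z ⊆ Int A`, prolonged by one edge at each end -/
theorem pvxf_join {A : Set D} {Z : Set V} (hZ : Z ⊆ T.Int A) {x x' b b' : V} (hb : b ∈ Z) (hxb : T.Adj x b) (hxb' : T.Adj x' b')
    (h : ReflTransGen (fun u v => T.Adj u v ∧ v ∈ Z) b b') : T.Join A (Z ∪ {x, x'}) x x' := by
  have hb' : b' ∈ Z := by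
    cases h with
    | refl => exact hb
    | tail _ h2 => exact h2.2
  refine doc_join_of_adj hZ (Or.inr (Or.inl rfl)) ?_
  refine (ReflTransGen.single ⟨hxb, Or.inr hb, Or.inl hb⟩).trans ((ReflTransGen.mono (fun u v huv => ⟨huv.1, Or.inr huv.2, Or.inl huv.2⟩) _ _ h).trans
    (ReflTransGen.single ⟨T.adj_symm hxb', Or.inl hb', Or.inr (Or.inr rfl)⟩))

namespace PvxfIn

variable {c : T.Cyc} {X : Set V} {G : V → ℂ} {om th : ℝ}

theorem om_nonneg (H : PvxfIn T c X G om th) : 0 ≤ om := by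
  obtain ⟨o, -, ho⟩ := H.cen
  exact (norm_nonneg _).trans ho

theorem th_nonneg (H : PvxfIn T c X G om th) : 0 ≤ th := by
  have := H.rim 0
  have := H.leC 0
  linarith

/-- the inner neighbour of a cycle vertex has almost the same chart value -/
theorem nb (hT : T.IsSph) (H : PvxfIn T c X G om th) (k : ℕ) : ‖G (T.apex (c.e k)) - G (T.src (c.e k))‖ ≤ om := by
  have m1 : c.e k ∈ c.Left := (pl_jordan hT c).2.1 k
  have m2 : T.nxt (T.nxt (c.e k)) ∈ c.Left := ((pl_left_face _).nxt2 T _).2 m1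
  have := H.step _ m2
  rw [T.tgt_nxt2, T.src_nxt2, norm_sub_rev] at this
  exact this

theorem stepC (hT : T.IsSph) (H : PvxfIn T c X G om th) (k : ℕ) : ‖G (T.src (c.e (k + 1))) - G (T.src (c.e k))‖ ≤ om := by
  have := H.step _ ((pl_jordan hT c).2.1 k)
  rwa [c.chain] at this

end PvxfIn

/-- **NO FOLD**.      If the chart values of `x_i`, `x_j` are `vt`-close, one of the two arcs of the cycle between them stays within `2 th + 3 vt + 16 om` of `G x_i`. -/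
theorem pvxf_nofold (hT : T.IsSph) {c : T.Cyc} {X : Set V} {G : V → ℂ} {om th : ℝ} (H : PvxfIn T c X G om th) (hom : om ≤ 1 / 3) {i j : ℕ} {vt : ℝ}
    (hv : ‖G (T.src (c.e j)) - G (T.src (c.e i))‖ ≤ vt) :
    (∀ l, i ≤ l → l ≤ j → ‖G (T.src (c.e l)) - G (T.src (c.e i))‖ ≤ 2 * th + 3 * vt + 16 * om) ∨
      (∀ l, j ≤ l → l ≤ i + c.n → ‖G (T.src (c.e l)) - G (T.src (c.e i))‖ ≤ 2 * th + 3 * vt + 16 * om) := by
  have hom0 := H.om_nonneg
  have hth0 := H.th_nonneg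
  have hvt0 : 0 ≤ vt := (norm_nonneg _).trans hv
  by_contra hcon
  push Not at hcon
  obtain ⟨⟨l, l1, l2, hl⟩, ⟨l', l1', l2', hl'⟩⟩ := hcon
  obtain ⟨o, hoX, ho⟩ := H.cen
  obtain ⟨Z, hZX, hZa, hZs, hZc⟩ := H.ch _ (H.apex i) _ (H.apex j)
  obtain ⟨Z1, hZ1X, hZ1a, hZ1s, hZ1c⟩ := H.ch _ (H.apex l) _ hoX
  obtain ⟨Z2, hZ2X, hZ2a, hZ2s, hZ2c⟩ := H.ch _ hoX _ (H.apex l')
  have jX := pvxf_join (hZX.trans H.sub) hZa (doc_adj_apex T (c.e i)) (doc_adj_apex T (c.e j)) hZc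
  have jY := pvxf_join (Z := Z1 ∪ Z2) (Set.union_subset (hZ1X.trans H.sub) (hZ2X.trans H.sub)) (Or.inl hZ1a) (doc_adj_apex T (c.e l)) (doc_adj_apex T (c.e l'))
    ((ReflTransGen.mono (fun u v huv => ⟨huv.1, Or.inl huv.2⟩) _ _ hZ1c).trans (ReflTransGen.mono (fun u v huv => ⟨huv.1, Or.inr huv.2⟩) _ _ hZ2c))
  obtain ⟨y, hyX, hyY⟩ := doc_cut hT c l1 l2 l1' l2' jX jY
  -- every vertex of the crosscut is close to `x_i` in the chart
  have near : ‖G y - G (T.src (c.e i))‖ ≤ vt + 4 * om := by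
    rcases hyX with hy | rfl | rfl
    · obtain ⟨w, hw, hyw⟩ := hZs y hy
      have a1 := pvxf_seg hw
      have a2 := H.nb hT i
      have a3 := H.nb hT j
      have a4 : ‖G (T.apex (c.e j)) - G (T.apex (c.e i))‖ ≤ vt + 2 * om := by
        calc ‖G (T.apex (c.e j)) - G (T.apex (c.e i))‖
            = ‖(G (T.apex (c.e j)) - G (T.src (c.e j))) + (G (T.src (c.e j)) - G (T.src (c.e i))) - (G (T.apex (c.e i)) - G (T.src (c.e i)))‖ := by ring_nf
          _ ≤ ‖G (T.apex (c.e j)) - G (T.src (c.e j))‖ + ‖G (T.src (c.e j)) - G (T.src (c.e i))‖ + ‖G (T.apex (c.e i)) - G (T.src (c.e i))‖ :=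
            (norm_sub_le _ _).trans (add_le_add_left (norm_add_le _ _) _)
          _ ≤ vt + 2 * om := by linarith
      calc ‖G y - G (T.src (c.e i))‖ = ‖(G y - w) + (w - G (T.apex (c.e i))) + (G (T.apex (c.e i)) - G (T.src (c.e i)))‖ := by ring_nf
        _ ≤ ‖G y - w‖ + ‖w - G (T.apex (c.e i))‖ + ‖G (T.apex (c.e i)) - G (T.src (c.e i))‖ := norm_add₃_le
        _ ≤ vt + 4 * om := by linarith
    · rw [sub_self, norm_zero]; positivity
    · linarith
  -- a radial chain which comes close to `x_i` starts close to `x_i`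
  have rad : ∀ k, ∀ q ∈ segment ℝ (G (T.apex (c.e k))) (G o), ‖G y - q‖ ≤ om → ‖G (T.src (c.e k)) - G (T.src (c.e i))‖ ≤ 2 * th + 3 * vt + 16 * om := by
    intro k q hq hyq
    have b1 : ‖q - G (T.src (c.e i))‖ ≤ vt + 5 * om := by
      calc ‖q - G (T.src (c.e i))‖ = ‖(G y - G (T.src (c.e i))) - (G y - q)‖ := by ring_nf
        _ ≤ ‖G y - G (T.src (c.e i))‖ + ‖G y - q‖ := norm_sub_le _ _
        _ ≤ vt + 5 * om := by linarith
    have b2 := pvxf_num hom (H.leX _ (H.apex k)) ho hq (H.rim i) b1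
    have b3 := H.nb hT k
    calc ‖G (T.src (c.e k)) - G (T.src (c.e i))‖ = ‖(G (T.apex (c.e k)) - G (T.src (c.e i))) - (G (T.apex (c.e k)) - G (T.src (c.e k)))‖ := by ring_nf
      _ ≤ ‖G (T.apex (c.e k)) - G (T.src (c.e i))‖ + ‖G (T.apex (c.e k)) - G (T.src (c.e k))‖ := norm_sub_le _ _
      _ ≤ 2 * th + 3 * vt + 16 * om := by linarith
  rcases hyY with (hy | hy) | rfl | rfl
  · obtain ⟨q, hq, hyq⟩ := hZ1s y hy
    exact absurd (rad l q hq hyq) (not_le.2 hl)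
  · obtain ⟨q, hq, hyq⟩ := hZ2s y hy
    rw [segment_symm] at hq
    exact absurd (rad l' q hq hyq) (not_le.2 hl')
  · linarith
  · linarith

/-! ## 4. ORDER -/

/-- **(ORD)** the exit: exact lifts of the chart values of the cycle vertices, ONE POSITIVE turn, small steps, monotone up to `δ` -/
def PvxfOrd (c : T.Cyc) (P : V → ℂ) (δ : ℝ) : Prop :=
  ∃ θ : ℕ → ℝ, (∀ k, P (T.src (c.e k)) = ‖P (T.src (c.e k))‖ * exp (θ k * I)) ∧ (∀ k, θ (k + c.n) = θ k + 2 * π) ∧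
    (∀ k, |θ (k + 1) - θ k| ≤ δ) ∧ ∀ k k', k ≤ k' → θ k ≤ θ k' + δ

theorem pvxf_ord_eqns_cite : True := by
  have := @PvxfOrd.eq_1
  trivial

theorem pvxf_pi_div {th r : ℝ} (hth : th ≤ 1 / 2) (hr : 0 ≤ r) : π * (r / (1 - th)) ≤ 8 * r := by
  have h1 : r / (1 - th) ≤ 2 * r := by
    rw [div_le_iff₀ (by linarith)]
    nlinarith
  have h2 : 0 ≤ r / (1 - th) := div_nonneg hr (by linarith)
  nlinarith [Real.pi_le_four, Real.pi_pos]

/-- ORD from NO FOLD, norm form, orientation given -/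
theorem pvxf_ord_aux {P : V → ℂ} {c : T.Cyc} {om th dn : ℝ} (hom : 0 < om) (hth : 0 ≤ th) (hsm : 64 * th + 424 * om ≤ 1 / 4)
    (hlo : ∀ k, 1 - th ≤ ‖P (T.src (c.e k))‖) (hhi : ∀ k, ‖P (T.src (c.e k))‖ ≤ 1)
    (hstep : ∀ k, ‖P (T.src (c.e (k + 1))) - P (T.src (c.e k))‖ ≤ om)
    (hNH : ∀ i j vt, ‖P (T.src (c.e j)) - P (T.src (c.e i))‖ ≤ vt →
      (∀ l, i ≤ l → l ≤ j → ‖P (T.src (c.e l)) - P (T.src (c.e i))‖ ≤ 2 * th + 3 * vt + 16 * om) ∨
      (∀ l, j ≤ l → l ≤ i + c.n → ‖P (T.src (c.e l)) - P (T.src (c.e i))‖ ≤ 2 * th + 3 * vt + 16 * om))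
    (hdn : dn ≤ 8 * th + 52 * om) (hdense : ∀ w : ℂ, ‖w‖ = 1 → ∃ k, ‖P (T.src (c.e k)) - w‖ ≤ dn)
    (hOR : 0 ≤ doSum P c) : PvxfOrd c P (64 * th + 424 * om) := by
  have hth2 : th ≤ 1 / 2 := by linarith
  have h0 : ∀ k, P (T.src (c.e k)) ≠ 0 := fun k => norm_pos_iff.1 (lt_of_lt_of_le (by linarith) (hlo k))
  have p1 := pvxf_pi_div hth2 hom.le
  have p2 := pvxf_pi_div hth2 (show 0 ≤ 8 * th + 52 * om by positivity)
  have p0 : 0 ≤ π * (om / (1 - th)) := mul_nonneg Real.pi_pos.le (div_nonneg hom.le (by linarith))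
  obtain ⟨g1, g2, g3⟩ := do_main (P := P) (c := c) (r₀ := 1) (μ := th) (σ := om) (r₁ := 2 * th + 12 * om) (r₂ := 8 * th + 52 * om) hth (by linarith) hom
    (fun k => by rw [abs_le]; constructor <;> linarith [hlo k, hhi k]) hstep (by nlinarith) (by linarith) (by linarith)
    (fun i j _ _ hv => by
      rcases hNH i j _ hv with h | h
      · exact Or.inl fun l a b => (h l a b).trans (by linarith)
      · exact Or.inr fun l a b => (h l a b).trans (by linarith))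
    (fun w hw => by
      obtain ⟨k, hk⟩ := hdense w hw
      refine ⟨k, hk.trans (hdn.trans ?_)⟩
      have : 1 ≤ 1 / (1 - th) := by rw [le_div_iff₀ (by linarith)]; linarith
      nlinarith) hOR
  refine ⟨doLift P c, g1, g2, fun k => ?_, fun k k' hk => (g3 k k' hk).trans (by linarith)⟩
  rw [do_lift_succ, add_sub_cancel_left]
  refine (do_inc_le h0 k).trans ?_
  have : ‖P (T.src (c.e (k + 1))) - P (T.src (c.e k))‖ / ‖P (T.src (c.e k))‖ ≤ om / (1 - th) :=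
    div_le_div₀ hom.le (hstep k) (by linarith) (hlo k)
  have := mul_le_mul_of_nonneg_left this Real.pi_pos.le
  linarith

/-- the total turning of the mirror chart -/
theorem pvxf_sum_conj (P : V → ℂ) (c : T.Cyc) : - doSum P c ≤ doSum (fun v => (starRingEnd ℂ) (P v)) c := by
  unfold doSum
  rw [← Finset.sum_neg_distrib]
  refine Finset.sum_le_sum fun k _ => ?_
  unfold doInc
  rw [← map_div₀, Complex.arg_conj]
  split_ifs with h
  · rw [h]; linarith [Real.pi_pos]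
  · exact le_rfl

theorem pvxf_norm_conj (a b : ℂ) : ‖(starRingEnd ℂ) a - (starRingEnd ℂ) b‖ = ‖a - b‖ := by
  rw [← map_sub, Complex.norm_conj]

/-- **ORDER OF THE BOUNDARY CYCLE IN A SOFT CHART**: the chart, or its mirror image, sees the cycle turn once in the positive sense, monotonically up to `64 th + 424 om`. -/
theorem pvxf_ord (hT : T.IsSph) {c : T.Cyc} {X : Set V} {G : V → ℂ} {om th dn : ℝ} (H : PvxfIn T c X G om th) (hom : 0 < om) (hsm : 64 * th + 424 * om ≤ 1 / 4)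
    (hdn : dn ≤ 8 * th + 52 * om) (hdense : ∀ w : ℂ, ‖w‖ = 1 → ∃ k, ‖G (T.src (c.e k)) - w‖ ≤ dn) :
    PvxfOrd c G (64 * th + 424 * om) ∨ PvxfOrd c (fun v => (starRingEnd ℂ) (G v)) (64 * th + 424 * om) := by
  have hth := H.th_nonneg
  have hom3 : om ≤ 1 / 3 := by linarith
  rcases le_total 0 (doSum G c) with hs | hs
  · exact Or.inl (pvxf_ord_aux hom hth hsm H.rim H.leC (H.stepC hT) (fun i j vt hv => pvxf_nofold hT H hom3 hv) hdn hdense hs)
  · refine Or.inr (pvxf_ord_aux hom hth hsm (fun k => by rw [Complex.norm_conj]; exact H.rim k) (fun k => by rw [Complex.norm_conj]; exact H.leC k)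
      (fun k => by rw [pvxf_norm_conj]; exact H.stepC hT k) (fun i j vt hv => ?_) hdn (fun w hw => ?_) (le_trans (by linarith) (pvxf_sum_conj G c)))
    · simp only [pvxf_norm_conj] at hv ⊢
      exact pvxf_nofold hT H hom3 hv
    · obtain ⟨k, hk⟩ := hdense ((starRingEnd ℂ) w) (by rw [Complex.norm_conj]; exact hw)
      refine ⟨k, ?_⟩
      rw [← pvxf_norm_conj, Complex.conj_conj] at hk
      exact hk

/-- **ORDER, orientation given** (`0 ≤ doSum G c` = block SIGN): the mirror alternative is excluded -/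
theorem pvxf_ord_pos (hT : T.IsSph) {c : T.Cyc} {X : Set V} {G : V → ℂ} {om th dn : ℝ} (H : PvxfIn T c X G om th) (hom : 0 < om) (hsm : 64 * th + 424 * om ≤ 1 / 4)
    (hdn : dn ≤ 8 * th + 52 * om) (hdense : ∀ w : ℂ, ‖w‖ = 1 → ∃ k, ‖G (T.src (c.e k)) - w‖ ≤ dn) (hOR : 0 ≤ doSum G c) :
    PvxfOrd c G (64 * th + 424 * om) :=
  pvxf_ord_aux hom H.th_nonneg hsm H.rim H.leC (H.stepC hT) (fun i j vt hv => pvxf_nofold hT H (by linarith [H.th_nonneg]) hv) hdn hdense hOR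

/-! ## 5. marks, arcs, sectors, density on the index arcs (chart form of the fields `arc`, `densB`, `sec`) -/

theorem pvxf_chord_of_near {w : ℂ} {θ t th e : ℝ} (q : ℤ) (hw : w = ‖w‖ * exp (θ * I)) (hlo : 1 - th ≤ ‖w‖) (hhi : ‖w‖ ≤ 1)
    (h : |θ - (t + 2 * π * q)| ≤ e) : ‖w - exp (t * I)‖ ≤ th + e := by
  have h1 := dos_polar_dist ‖w‖ θ t q
  rw [← hw] at h1
  have h2 : |‖w‖ - 1| ≤ th := by rw [abs_le]; constructor <;> linarith
  linarith

theorem pvxf_near_of_chord {w : ℂ} {θ β th s : ℝ} (hw : w = ‖w‖ * exp (θ * I)) (hlo : 1 - th ≤ ‖w‖) (hhi : ‖w‖ ≤ 1)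
    (h : ‖w - exp (β * I)‖ ≤ s) : dosNear (θ - β) (π / 2 * (s + th)) := by
  refine dos_exp_near ?_
  have e1 : ‖exp (((θ - β : ℝ) : ℂ) * I) - 1‖ = ‖exp (θ * I) - exp (β * I)‖ := by
    have : exp (θ * I) - exp (β * I) = exp (β * I) * (exp (((θ - β : ℝ) : ℂ) * I) - 1) := by
      rw [mul_sub, ← Complex.exp_add, mul_one]
      congr 2
      push_cast
      ring
    rw [this, norm_mul, Complex.norm_exp_ofReal_mul_I, one_mul]
  have e2 : ‖exp (θ * I) - w‖ ≤ th := by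
    have : exp (θ * I) - w = ((1 - ‖w‖ : ℝ) : ℂ) * exp (θ * I) := by
      conv_lhs => rw [hw]
      push_cast
      ring
    rw [this, norm_mul, Complex.norm_exp_ofReal_mul_I, mul_one, Complex.norm_real, Real.norm_eq_abs, abs_le]
    constructor <;> linarith
  rw [e1]
  calc ‖exp (θ * I) - exp (β * I)‖ = ‖(exp (θ * I) - w) + (w - exp (β * I))‖ := by ring_nf
    _ ≤ ‖exp (θ * I) - w‖ + ‖w - exp (β * I)‖ := norm_add_le _ _
    _ ≤ s + th := by linarith

theorem pvxf_clamp {lo hi x e : ℝ} (h : lo ≤ hi) (he : 0 ≤ e) (h1 : lo - e ≤ x) (h2 : x ≤ hi + e) : ∃ t, lo ≤ t ∧ t ≤ hi ∧ |x - t| ≤ e := by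
  rcases lt_or_ge x lo with c1 | c1
  · exact ⟨lo, le_rfl, h, by rw [abs_le]; constructor <;> linarith⟩
  · rcases lt_or_ge hi x with c2 | c2
    · exact ⟨hi, h, le_rfl, by rw [abs_le]; constructor <;> linarith⟩
    · exact ⟨x, c1, c2, by rw [sub_self, abs_zero]; exact he⟩

/-- the number of turns is determined in a window shorter than one turn -/
theorem pvxf_turn {x L s : ℝ} {z q : ℤ} (h1 : |x - 2 * π * q| ≤ L) (h2 : |x - 2 * π * z| ≤ s) (h : L + s < 2 * π) : z = q := by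
  have hπ := Real.pi_pos
  have a1 := abs_le.1 h1
  have a2 := abs_le.1 h2
  have h3 : |((z - q : ℤ) : ℝ)| < 1 := by
    push_cast
    rw [abs_lt]
    constructor
    · by_contra hc
      push Not at hc
      nlinarith [a1.1, a1.2, a2.1, a2.2]
    · by_contra hc
      push Not at hc
      nlinarith [a1.1, a1.2, a2.1, a2.2]
  have h4 : |z - q| < 1 := by exact_mod_cast h3
  have := Int.abs_lt_one_iff.1 h4
  omega

/-- **four marks on the cycle**, all statements in the chart `P`; `α 0 < α 1 < α 2 < α 3 < α 4 = α 0 + 2π` the angles of the marks -/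
structure PvxfMarks (c : T.Cyc) (P : V → ℂ) (α : ℕ → ℝ) (m : ℕ → ℕ) (th δ : ℝ) : Prop where
  lt : ∀ j, j < 4 → m j < m (j + 1)
  per : m 4 = m 0 + c.n
  /-- the marked vertices sit at the marks -/
  mark : ∀ j, j ≤ 4 → ‖P (T.src (c.e (m j))) - exp (α j * I)‖ ≤ th + δ
  /-- the index arc `j` follows the geometric arc `j` -/
  arc : ∀ j, j < 4 → ∀ k, m j ≤ k → k ≤ m (j + 1) → ∃ t, α j ≤ t ∧ t ≤ α (j + 1) ∧ ‖P (T.src (c.e k)) - exp (t * I)‖ ≤ th + δ
  /-- the index arc `j` is dense on the geometric arc `j` -/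
  dens : ∀ j, j < 4 → ∀ t, α j ≤ t → t ≤ α (j + 1) → ∃ k, m j ≤ k ∧ k ≤ m (j + 1) ∧ ‖P (T.src (c.e k)) - exp (t * I)‖ ≤ th + δ
  /-- sector before a vertex near `e^{iβ}` -/
  secL : ∀ j, j < 4 → ∀ k, m j ≤ k → k ≤ m (j + 1) → ∀ β s, α j ≤ β → β ≤ α (j + 1) → ‖P (T.src (c.e k)) - exp (β * I)‖ ≤ s →
    α (j + 1) - α j + δ + π / 2 * (s + th) < 2 * π → ∀ k', m j ≤ k' → k' ≤ k →
      ∃ t, α j ≤ t ∧ t ≤ β ∧ ‖P (T.src (c.e k')) - exp (t * I)‖ ≤ th + (π / 2 * (s + th) + δ)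
  /-- sector after a vertex near `e^{iβ}` -/
  secR : ∀ j, j < 4 → ∀ k, m j ≤ k → k ≤ m (j + 1) → ∀ β s, α j ≤ β → β ≤ α (j + 1) → ‖P (T.src (c.e k)) - exp (β * I)‖ ≤ s →
    α (j + 1) - α j + δ + π / 2 * (s + th) < 2 * π → ∀ k', k ≤ k' → k' ≤ m (j + 1) →
      ∃ t, β ≤ t ∧ t ≤ α (j + 1) ∧ ‖P (T.src (c.e k')) - exp (t * I)‖ ≤ th + (π / 2 * (s + th) + δ)

/-- **MARKS, ARCS, SECTORS** from (ORD) -/
theorem pvxf_marks {c : T.Cyc} {P : V → ℂ} {δ th : ℝ} (hδ : 0 ≤ δ) (hO : PvxfOrd c P δ)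
    (hlo : ∀ k, 1 - th ≤ ‖P (T.src (c.e k))‖) (hhi : ∀ k, ‖P (T.src (c.e k))‖ ≤ 1)
    {α : ℕ → ℝ} (hlt : ∀ j, j < 4 → α j + δ < α (j + 1)) (hper : α 4 = α 0 + 2 * π) : ∃ m : ℕ → ℕ, PvxfMarks c P α m th δ := by
  obtain ⟨θ, g1, g2, g3, g4⟩ := hO
  have hth : 0 ≤ th := by linarith [hlo 0, hhi 0]
  obtain ⟨m, q, m1, m2, m3, m4⟩ := dos_marks (pl_cyc_pos c) hδ hδ g2 g3 g4 hlt hper
  have chord : ∀ k t e, |θ k - (t + 2 * π * q)| ≤ e → ‖P (T.src (c.e k)) - exp (t * I)‖ ≤ th + e :=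
    fun k t e h => pvxf_chord_of_near q (g1 k) (hlo k) (hhi k) h
  -- the lift at a vertex of the index arc `j` close to `e^{iβ}`
  have loc : ∀ j, j < 4 → ∀ k, m j ≤ k → k ≤ m (j + 1) → ∀ β s, α j ≤ β → β ≤ α (j + 1) → ‖P (T.src (c.e k)) - exp (β * I)‖ ≤ s →
      α (j + 1) - α j + δ + π / 2 * (s + th) < 2 * π → |θ k - β - 2 * π * q| ≤ π / 2 * (s + th) := by
    intro j hj k k1 k2 β s b1 b2 hs hw
    obtain ⟨z, hz⟩ := pvxf_near_of_chord (g1 k) (hlo k) (hhi k) hs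
    obtain ⟨lo, hi⟩ := m4 j hj k k1 k2
    have : z = q := pvxf_turn (x := θ k - β) (L := α (j + 1) - α j + δ) (by rw [abs_le]; constructor <;> linarith) hz hw
    rw [← this]
    exact hz
  refine ⟨m, m1, m2, fun j hj => ?_, fun j hj k k1 k2 => ?_, fun j hj t t1 t2 => ?_, fun j hj k k1 k2 β s b1 b2 hs hw k' k1' k2' => ?_,
    fun j hj k k1 k2 β s b1 b2 hs hw k' k1' k2' => ?_⟩
  · obtain ⟨a, b⟩ := m3 j hj
    exact chord _ _ _ (by rw [abs_le]; constructor <;> linarith)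
  · obtain ⟨lo, hi⟩ := m4 j hj k k1 k2
    obtain ⟨t, t1, t2, t3⟩ := pvxf_clamp (x := θ k - 2 * π * q) (by linarith [hlt j hj] : α j ≤ α (j + 1)) hδ
      (by linarith) (by linarith)
    exact ⟨t, t1, t2, chord _ _ _ (by rw [show θ k - (t + 2 * π * q) = θ k - 2 * π * q - t by ring]; exact t3)⟩
  · obtain ⟨a, b⟩ := m3 j hj.le
    obtain ⟨a', b'⟩ := m3 (j + 1) hj
    rcases le_or_gt (t + 2 * π * q) (θ (m j)) with c1 | c1
    · exact ⟨m j, le_rfl, (m1 j hj).le, chord _ _ _ (by rw [abs_le]; constructor <;> linarith)⟩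
    · obtain ⟨l, l1, l2, l3, l4⟩ := dos_ivt g3 (m1 j hj).le c1 (by linarith : t + 2 * π * q ≤ θ (m (j + 1)))
      exact ⟨l, l1.le, l2, chord _ _ _ (by rw [abs_le]; constructor <;> linarith)⟩
  · have h1 := abs_le.1 (loc j hj k k1 k2 β s b1 b2 hs hw)
    have hs0 : 0 ≤ π / 2 * (s + th) := by
      have : 0 ≤ s := (norm_nonneg _).trans hs
      positivity
    obtain ⟨lo, -⟩ := m4 j hj k' k1' (k2'.trans k2)
    have h2 := g4 k' k k2'
    obtain ⟨t, t1, t2, t3⟩ := pvxf_clamp (x := θ k' - 2 * π * q) (e := π / 2 * (s + th) + δ) b1 (by linarith) (by linarith) (by linarith [h1.2])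
    exact ⟨t, t1, t2, chord _ _ _ (by rw [show θ k' - (t + 2 * π * q) = θ k' - 2 * π * q - t by ring]; exact t3)⟩
  · have h1 := abs_le.1 (loc j hj k k1 k2 β s b1 b2 hs hw)
    have hs0 : 0 ≤ π / 2 * (s + th) := by
      have : 0 ≤ s := (norm_nonneg _).trans hs
      positivity
    obtain ⟨-, hi⟩ := m4 j hj k' (k1.trans k1') k2'
    have h2 := g4 k k' k1'
    obtain ⟨t, t1, t2, t3⟩ := pvxf_clamp (x := θ k' - 2 * π * q) (e := π / 2 * (s + th) + δ) b2 (by linarith) (by linarith [h1.1]) (by linarith)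
    exact ⟨t, t1, t2, chord _ _ _ (by rw [show θ k' - (t + 2 * π * q) = θ k' - 2 * π * q - t by ring]; exact t3)⟩

/-- **THE EXIT OF THE FILE**: soft disc + density of the cycle on the unit circle ⟹ marks, arcs, sectors, for the chart or for its mirror image (`α'` = the angles of the mirrored marks, listed in the positive sense) -/
theorem pvxf_main (hT : T.IsSph) {c : T.Cyc} {X : Set V} {G : V → ℂ} {om th dn : ℝ} (H : PvxfIn T c X G om th) (hom : 0 < om) (hsm : 64 * th + 424 * om ≤ 1 / 4)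
    (hdn : dn ≤ 8 * th + 52 * om) (hdense : ∀ w : ℂ, ‖w‖ = 1 → ∃ k, ‖G (T.src (c.e k)) - w‖ ≤ dn)
    {α α' : ℕ → ℝ} (hlt : ∀ j, j < 4 → α j + (64 * th + 424 * om) < α (j + 1)) (hper : α 4 = α 0 + 2 * π)
    (hlt' : ∀ j, j < 4 → α' j + (64 * th + 424 * om) < α' (j + 1)) (hper' : α' 4 = α' 0 + 2 * π) :
    (∃ m : ℕ → ℕ, PvxfMarks c G α m th (64 * th + 424 * om)) ∨ (∃ m : ℕ → ℕ, PvxfMarks c (fun v => (starRingEnd ℂ) (G v)) α' m th (64 * th + 424 * om)) := by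
  have hth := H.th_nonneg
  rcases pvxf_ord hT H hom hsm hdn hdense with h | h
  · exact Or.inl (pvxf_marks (by positivity) h H.rim H.leC hlt hper)
  · exact Or.inr (pvxf_marks (by positivity) h (fun k => by rw [Complex.norm_conj]; exact H.rim k) (fun k => by rw [Complex.norm_conj]; exact H.leC k) hlt' hper')

/-- **THE EXIT, orientation given** -/
theorem pvxf_main_pos (hT : T.IsSph) {c : T.Cyc} {X : Set V} {G : V → ℂ} {om th dn : ℝ} (H : PvxfIn T c X G om th) (hom : 0 < om) (hsm : 64 * th + 424 * om ≤ 1 / 4)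
    (hdn : dn ≤ 8 * th + 52 * om) (hdense : ∀ w : ℂ, ‖w‖ = 1 → ∃ k, ‖G (T.src (c.e k)) - w‖ ≤ dn) (hOR : 0 ≤ doSum G c)
    {α : ℕ → ℝ} (hlt : ∀ j, j < 4 → α j + (64 * th + 424 * om) < α (j + 1)) (hper : α 4 = α 0 + 2 * π) :
    ∃ m : ℕ → ℕ, PvxfMarks c G α m th (64 * th + 424 * om) := by
  have hth := H.th_nonneg
  exact pvxf_marks (by positivity) (pvxf_ord_pos hT H hom hsm hdn hdense hOR) H.rim H.leC hlt hper

/-! ## 6. short connections (chart form of `conn` = D4) -/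

/-- (D4) between inner sites -/
theorem pvxf_conn {c : T.Cyc} {X : Set V} {G : V → ℂ} {om th : ℝ} (H : PvxfIn T c X G om th) {u v : V} (hu : u ∈ X) (hv : v ∈ X) :
    T.Join c.Left {w | w ∈ X ∧ ‖G w - G u‖ ≤ ‖G v - G u‖ + om} u v := by
  obtain ⟨Z, hZX, hZa, hZs, hZc⟩ := H.ch u hu v hv
  have hsub : ∀ y ∈ Z, y ∈ X ∧ ‖G y - G u‖ ≤ ‖G v - G u‖ + om := by
    intro y hy
    obtain ⟨w, hw, hyw⟩ := hZs y hy
    refine ⟨hZX hy, ?_⟩
    calc ‖G y - G u‖ = ‖(G y - w) + (w - G u)‖ := by ring_nf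
      _ ≤ ‖G y - w‖ + ‖w - G u‖ := norm_add_le _ _
      _ ≤ ‖G v - G u‖ + om := by linarith [pvxf_seg hw]
  exact ⟨hsub u hZa, ReflTransGen.mono (fun a b hab => ⟨doc_edgeIn hab.1 (Or.inr (H.sub (hZX hab.2))), hsub b hab.2⟩) _ _ hZc⟩

/-- every vertex of `X ∪ c.verts` has a foot in `X` -/
theorem pvxf_foot (hT : T.IsSph) {c : T.Cyc} {X : Set V} {G : V → ℂ} {om th : ℝ} (H : PvxfIn T c X G om th) {u : V} (hu : u ∈ X ∪ c.verts) :
    ∃ u' ∈ X, ‖G u' - G u‖ ≤ om ∧ ∀ W : Set V, u ∈ W → u' ∈ W → T.Join c.Left W u u' := by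
  rcases hu with hu | ⟨k, rfl⟩
  · exact ⟨u, hu, by rw [sub_self, norm_zero]; exact H.om_nonneg, fun W h _ => ⟨h, ReflTransGen.refl⟩⟩
  · exact ⟨_, H.apex k, H.nb hT k, fun W h h' => ⟨h, ReflTransGen.single ⟨doc_edgeIn (doc_adj_apex T (c.e k)) (Or.inr (H.sub (H.apex k))), h'⟩⟩⟩

/-- **(D4)** between any two vertices of `X ∪ c.verts`: a connection in the closed disc which stays, in the chart, within `‖G v - G u‖ + 4 om` of `G u` -/
theorem pvxf_conn' (hT : T.IsSph) {c : T.Cyc} {X : Set V} {G : V → ℂ} {om th : ℝ} (H : PvxfIn T c X G om th) {u v : V} (hu : u ∈ X ∪ c.verts) (hv : v ∈ X ∪ c.verts) :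
    T.Join c.Left {w | w ∈ X ∪ c.verts ∧ ‖G w - G u‖ ≤ ‖G v - G u‖ + 4 * om} u v := by
  have hom := H.om_nonneg
  obtain ⟨u', hu', du, ju⟩ := pvxf_foot hT H hu
  obtain ⟨v', hv', dv, jv⟩ := pvxf_foot hT H hv
  set W : Set V := {w | w ∈ X ∪ c.verts ∧ ‖G w - G u‖ ≤ ‖G v - G u‖ + 4 * om} with hW
  have d1 : ‖G v' - G u'‖ ≤ ‖G v - G u‖ + 2 * om := by
    calc ‖G v' - G u'‖ = ‖(G v' - G v) + (G v - G u) - (G u' - G u)‖ := by ring_nf
      _ ≤ ‖G v' - G v‖ + ‖G v - G u‖ + ‖G u' - G u‖ := (norm_sub_le _ _).trans (add_le_add_left (norm_add_le _ _) _)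
      _ ≤ ‖G v - G u‖ + 2 * om := by linarith
  have hsub : {w | w ∈ X ∧ ‖G w - G u'‖ ≤ ‖G v' - G u'‖ + om} ⊆ W := by
    rintro w ⟨hw, hd⟩
    refine ⟨Or.inl hw, ?_⟩
    calc ‖G w - G u‖ = ‖(G w - G u') + (G u' - G u)‖ := by ring_nf
      _ ≤ ‖G w - G u'‖ + ‖G u' - G u‖ := norm_add_le _ _
      _ ≤ ‖G v - G u‖ + 4 * om := by linarith
  have j2 := doc_join_mono hsub (pvxf_conn H hu' hv')
  have huW : u ∈ W := ⟨hu, by rw [sub_self, norm_zero]; positivity⟩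
  have hvW : v ∈ W := ⟨hv, by linarith⟩
  exact doc_join_trans (ju W huW j2.1) (doc_join_trans j2 (doc_join_symm (jv W hvW (doc_join_right j2))))

end Claimed.Agent.R289
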