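import Claimed.Agent.R289.Brg.Defs
import Claimed.Agent.Lib.BrouwerConvex

/-!
# Row 289 (S0537), road MIX (head helper246), file Mix/Topo : SOFT LOCATION OF THE OUTER CIRCUIT OF A CLOSED TOPOLOGICAL DISC      (owner helper45; prefix `pvxs_`)

NO chart near the frontier, NO Jordan curve theorem, NO Schoenflies.      `K` compact;  the only topological input is NONSEP.      `c` = outer circuit of the sites whose cell meets `K` (`PvgRim h K c` of `Brg/Defs.lean`, exists: `pvg_w_del_cyc'`).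
* sec. 1  **NONSEP** `pvxs_nonsep'`: `K` compact, `e` continuous injective on `K`, `e '' K = closedBall 0 r`: every point off `K` lies in an unbounded preconnected subset of `Kᶜ`   (Tietze: `K` is a retract of the plane; Brouwer `bfp_brouwer`)
* sec. 2  **ESCAPE** `pvxs_escape`: for every `r > 0` there is `t > 0`: every `w` with `r ≤ infDist w K` lies in an unbounded preconnected set all of whose points are at distance `> t` from `K`
          `pvxs_ext_pts`: for every `s > 0` there is `r' > 0`: every frontier point of `K` has a point `w` within `s` with `r' < infDist w K`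
* sec. 3  MESH (Euclidean): `VorDense Y B μ`, `B ⊇` the closed `1`-neighbourhood of `K`: cells near `K` have radius `≤ μ`;   `pvxs_rim_loc`: the vertices of `c` are within `3μ` of `K`, their cells within `4μ`, steps `≤ 2μ`
* sec. 4  **OUTER** `pvxs_outer`: a site at distance `≥ r` from `K` is strictly on the right of `c`  (`4μ ≤ t(r)`);   `pvxs_left_near`: all vertices of the closed disc are within `r` of `K`
* sec. 5  **NEAR** `pvxs_near`: every frontier point of `K` has a vertex of `c` within `r`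
* sec. 6  uniform forms `pvxs_main`: one `μ0(K, r)` for OUTER + NEAR + RIM
* sec. 7  **FRONTIER** `pvxs_circle_frontier`: `e` continuous injective on the compact `K`, `e '' K = closedBall 0 1`, `‖e p‖ = 1` ⟹ `p ∈ frontier K`   (push away from `e p` inside the disc + no retraction: Brouwer)
-/

set_option autoImplicit false
set_option linter.unusedVariables false

namespace Claimed.Agent.R289

open Set Metric Topology Relation

/-! ## 1. NONSEP: a closed topological disc does not separate the plane -/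

/-- radial retraction of the plane onto `closedBall 0 r` -/
noncomputable def pvxsRad (r : ℝ) (z : ℂ) : ℂ := ((r / max r ‖z‖ : ℝ) : ℂ) * z

theorem pvxs_rad_cont {r : ℝ} (hr : 0 < r) : Continuous (pvxsRad r) := by
  unfold pvxsRad
  have h1 : Continuous fun z : ℂ => r / max r ‖z‖ :=
    continuous_const.div (continuous_const.max continuous_norm) fun z => (lt_of_lt_of_le hr (le_max_left _ _)).ne'
  exact (Complex.continuous_ofReal.comp h1).mul continuous_id

theorem pvxs_rad_mem {r : ℝ} (hr : 0 < r) (z : ℂ) : pvxsRad r z ∈ closedBall (0 : ℂ) r := by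
  have hm : 0 < max r ‖z‖ := lt_of_lt_of_le hr (le_max_left _ _)
  rw [mem_closedBall_zero_iff]
  unfold pvxsRad
  rw [norm_mul, Complex.norm_real, Real.norm_of_nonneg (div_nonneg hr.le hm.le), div_mul_eq_mul_div, div_le_iff₀ hm]
  exact mul_le_mul_of_nonneg_left (le_max_right _ _) hr.le

theorem pvxs_rad_id {r : ℝ} (hr : 0 < r) {z : ℂ} (hz : z ∈ closedBall (0 : ℂ) r) : pvxsRad r z = z := by
  rw [mem_closedBall_zero_iff] at hz
  unfold pvxsRad
  rw [max_eq_left hz, div_self hr.ne']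
  simp

/-- a compact set which is mapped homeomorphically onto a closed disc is a retract of the plane (Tietze) -/
theorem pvxs_retract {K : Set ℂ} (hK : IsCompact K) {e : ℂ → ℂ} (he : ContinuousOn e K) (hinj : InjOn e K) {r : ℝ} (hr : 0 < r)
    (himg : e '' K = closedBall 0 r) : ∃ ρ : ℂ → ℂ, Continuous ρ ∧ (∀ z, ρ z ∈ K) ∧ ∀ z ∈ K, ρ z = z := by
  obtain ⟨G, hG⟩ := ContinuousMap.exists_restrict_eq hK.isClosed ⟨K.domRestrict e, continuousOn_iff_continuous_domRestrict.1 he⟩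
  have hGe : ∀ p ∈ K, G p = e p := fun p hp => congrArg (fun f : C(K, ℂ) => f ⟨p, hp⟩) hG
  have : CompactSpace K := isCompact_iff_compactSpace.1 hK
  have hfc : Continuous fun x : K => e x := continuousOn_iff_continuous_domRestrict.1 he
  have hfi : Function.Injective fun x : K => e x := fun x y hxy => Subtype.ext (hinj x.2 y.2 hxy)
  have hemb := hfc.isClosedEmbedding hfi
  have hq : ∀ z : ℂ, ∃ x : K, e x = pvxsRad r (G z) := fun z => by
    have h1 : pvxsRad r (G z) ∈ e '' K := himg ▸ pvxs_rad_mem hr _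
    obtain ⟨x, hx, hxe⟩ := h1
    exact ⟨⟨x, hx⟩, hxe⟩
  choose ρ' hρ' using hq
  have hc : Continuous ρ' := by
    rw [hemb.isInducing.continuous_iff]
    have : ((fun x : K => e x) ∘ ρ') = fun z => pvxsRad r (G z) := funext hρ'
    rw [this]
    exact (pvxs_rad_cont hr).comp G.continuous
  refine ⟨fun z => ρ' z, continuous_subtype_val.comp hc, fun z => (ρ' z).2, fun z hz => ?_⟩
  have h1 : e (ρ' z) = e z := by
    rw [hρ', hGe z hz]
    exact pvxs_rad_id hr (himg ▸ mem_image_of_mem e hz)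
  exact hinj (ρ' z).2 hz h1

/-- the frontier of a component of the complement of a closed set lies in the set -/
theorem pvxs_comp_frontier {K : Set ℂ} (hK : IsClosed K) (w : ℂ) : frontier (connectedComponentIn Kᶜ w) ⊆ K := by
  intro p hp
  by_contra hpK
  have hWo : IsOpen (connectedComponentIn Kᶜ w) := hK.isOpen_compl.connectedComponentIn
  rw [frontier, hWo.interior_eq] at hp
  obtain ⟨ε, hε, hball⟩ := Metric.isOpen_iff.1 hK.isOpen_compl p hpK
  obtain ⟨y, hyW, hy⟩ := Metric.mem_closure_iff.1 hp.1 ε hε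
  have hyb : y ∈ ball p ε := by rwa [mem_ball, dist_comm]
  have h1 : ball p ε ⊆ connectedComponentIn Kᶜ y := (convex_ball p ε).isPreconnected.subset_connectedComponentIn hyb hball
  rw [← connectedComponentIn_eq hyW] at h1
  exact hp.2 (h1 (mem_ball_self hε))

/-- **NONSEP**: every component of the complement of a compact retract of the plane is unbounded -/
theorem pvxs_nonsep {K : Set ℂ} (hK : IsCompact K) {ρ : ℂ → ℂ} (hρ : Continuous ρ) (hρK : ∀ z, ρ z ∈ K) (hρid : ∀ z ∈ K, ρ z = z) {w : ℂ}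
    (hw : w ∉ K) : ¬ Bornology.IsBounded (connectedComponentIn Kᶜ w) := by
  classical
  intro hb
  obtain ⟨W, hW⟩ : ∃ W, W = connectedComponentIn Kᶜ w := ⟨_, rfl⟩
  have hwW : w ∈ W := hW ▸ mem_connectedComponentIn hw
  have hWK : W ⊆ Kᶜ := hW ▸ connectedComponentIn_subset _ _
  have hfr : frontier W ⊆ K := hW ▸ pvxs_comp_frontier hK.isClosed w
  obtain ⟨R, hR, hWR⟩ := (hW ▸ hb : Bornology.IsBounded W).subset_ball_lt 0 w
  have hh : Continuous (W.piecewise ρ id) := Continuous.piecewise (fun a ha => hρid a (hfr ha)) hρ continuous_id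
  have hne : ∀ x, W.piecewise ρ id x - w ≠ 0 := by
    intro x hx
    rw [sub_eq_zero] at hx
    by_cases hxW : x ∈ W
    · rw [piecewise_eq_of_mem _ _ _ hxW] at hx
      exact hw (hx ▸ hρK x)
    · rw [piecewise_eq_of_notMem _ _ _ hxW] at hx
      exact hxW (by rw [show x = w from hx]; exact hwW)
  obtain ⟨φ, hφ⟩ : ∃ φ : ℂ → ℂ, φ = fun x => w - ((R / ‖W.piecewise ρ id x - w‖ : ℝ) : ℂ) * (W.piecewise ρ id x - w) := ⟨_, rfl⟩
  have hφc : Continuous φ := by
    rw [hφ]
    have h1 : Continuous fun x => R / ‖W.piecewise ρ id x - w‖ :=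
      continuous_const.div (hh.sub continuous_const).norm fun x => norm_ne_zero_iff.2 (hne x)
    exact continuous_const.sub ((Complex.continuous_ofReal.comp h1).mul (hh.sub continuous_const))
  have hφn : ∀ x, ‖φ x - w‖ = R := by
    intro x
    have hp : 0 < ‖W.piecewise ρ id x - w‖ := norm_pos_iff.2 (hne x)
    rw [hφ]
    simp only [sub_sub_cancel_left, norm_neg, norm_mul, Complex.norm_real]
    rw [Real.norm_of_nonneg (div_nonneg hR.le hp.le), div_mul_cancel₀ _ hp.ne']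
  obtain ⟨x, -, hx⟩ := Claimed.Agent.Lib.bfp_brouwer (isCompact_closedBall w R) (convex_closedBall w R) ⟨w, mem_closedBall_self hR.le⟩
    φ hφc.continuousOn (fun x _ => by rw [mem_closedBall, dist_eq_norm, hφn])
  have hxR : ‖x - w‖ = R := by rw [← hx]; exact hφn x
  have hxW : x ∉ W := fun hc => by
    have := hWR hc
    rw [mem_ball, dist_eq_norm, hxR] at this
    exact lt_irrefl _ this
  have e1 : φ x = w - (x - w) := by
    rw [hφ]
    simp only [piecewise_eq_of_notMem _ _ _ hxW, id]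
    rw [hxR, div_self hR.ne']
    simp
  rw [hx] at e1
  have e2 : x - w = 0 := by linear_combination (1 / 2 : ℂ) * e1
  rw [e2, norm_zero] at hxR
  exact hR.ne hxR

/-- NONSEP in the form used with chains of cells -/
theorem pvxs_nonsep' {K : Set ℂ} (hK : IsCompact K) {e : ℂ → ℂ} (he : ContinuousOn e K) (hinj : InjOn e K) {r : ℝ} (hr : 0 < r)
    (himg : e '' K = closedBall 0 r) {w : ℂ} (hw : w ∉ K) : ∃ C : Set ℂ, IsPreconnected C ∧ ¬ Bornology.IsBounded C ∧ w ∈ C ∧ C ⊆ Kᶜ := by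
  obtain ⟨ρ, h1, h2, h3⟩ := pvxs_retract hK he hinj hr himg
  exact ⟨_, isPreconnected_connectedComponentIn, pvxs_nonsep hK h1 h2 h3 hw, mem_connectedComponentIn hw, connectedComponentIn_subset _ _⟩


/-- the hypothesis NONSEP -/
def PvxsNS (K : Set ℂ) : Prop := ∀ w ∉ K, ∃ C : Set ℂ, IsPreconnected C ∧ ¬ Bornology.IsBounded C ∧ w ∈ C ∧ C ⊆ Kᶜ

theorem pvxs_eqns_cite : True := by
  have := @pvxsRad.eq_1; have := @PvxsNS.eq_1
  trivial

theorem pvxs_ns_of_disc {K : Set ℂ} (hK : IsCompact K) {e : ℂ → ℂ} (he : ContinuousOn e K) (hinj : InjOn e K) {r : ℝ} (hr : 0 < r)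
    (himg : e '' K = closedBall 0 r) : PvxsNS K := fun _ hw => pvxs_nonsep' hK he hinj hr himg hw

/-! ## 2. ESCAPE -/

/-- the exterior of a round disc is connected -/
theorem pvxs_ext_preconn {a : ℝ} (ha : 0 < a) : IsPreconnected {ζ : ℂ | a ≤ ‖ζ‖} := by
  have h1 : IsPreconnected (Ici a ×ˢ sphere (0 : ℂ) 1) :=
    isPreconnected_Ici.prod (isPreconnected_sphere (by rw [Complex.rank_real_complex]; norm_num) 0 1)
  have h2 := h1.image (fun p : ℝ × ℂ => (p.1 : ℂ) * p.2) (by fun_prop)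
  convert h2 using 1
  ext ζ
  constructor
  · intro h3
    have h3' : a ≤ ‖ζ‖ := h3
    have hz : ‖ζ‖ ≠ 0 := by linarith
    have hz' : ((‖ζ‖ : ℝ) : ℂ) ≠ 0 := by exact_mod_cast hz
    refine ⟨(‖ζ‖, ζ / ‖ζ‖), ⟨h3', ?_⟩, ?_⟩
    · simp [hz]
    · show ((‖ζ‖ : ℝ) : ℂ) * (ζ / ‖ζ‖) = ζ
      field_simp
  · rintro ⟨⟨t, u⟩, ⟨h3, h5⟩, rfl⟩
    have h3' : a ≤ t := h3
    have h6 : ‖u‖ = 1 := by simpa using h5
    have h7 : ‖((t : ℝ) : ℂ) * u‖ = t := by
      rw [norm_mul, h6, mul_one, Complex.norm_real, Real.norm_of_nonneg (by linarith)]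
    show a ≤ ‖((t : ℝ) : ℂ) * u‖
    rw [h7]; exact h3'

theorem pvxs_ext_unbdd (a : ℝ) : ¬ Bornology.IsBounded {ζ : ℂ | a ≤ ‖ζ‖} := by
  intro hb
  obtain ⟨M, hM⟩ := hb.exists_norm_le
  have h1 := hM ((max a (M + 1) : ℝ) : ℂ) (by
    show a ≤ ‖((max a (M + 1) : ℝ) : ℂ)‖
    rw [Complex.norm_real]
    exact (le_max_left _ _).trans (le_abs_self _))
  rw [Complex.norm_real] at h1
  have h2 := (le_max_right a (M + 1)).trans (le_abs_self _)
  rw [Real.norm_eq_abs] at h1
  linarith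

/-- the points at distance `> t` from `K` -/
def pvxsO (K : Set ℂ) (t : ℝ) : Set ℂ := {z | t < infDist z K}

theorem pvxs_O_open (K : Set ℂ) (t : ℝ) : IsOpen (pvxsO K t) := isOpen_lt continuous_const (continuous_infDist_pt K)

theorem pvxs_O_anti (K : Set ℂ) {t t' : ℝ} (h : t ≤ t') : pvxsO K t' ⊆ pvxsO K t := fun _ hz => lt_of_le_of_lt h hz

/-- the points whose component in `{infDist · K > t}` is unbounded -/
def pvxsU (K : Set ℂ) (t : ℝ) : Set ℂ := {w | w ∈ pvxsO K t ∧ ¬ Bornology.IsBounded (connectedComponentIn (pvxsO K t) w)}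

theorem pvxs_eqns_cite2 : True := by
  have := @pvxsO.eq_1; have := @pvxsU.eq_1
  trivial

theorem pvxs_U_open (K : Set ℂ) (t : ℝ) : IsOpen (pvxsU K t) := by
  rw [isOpen_iff_mem_nhds]
  rintro w ⟨hw, hu⟩
  have h1 : connectedComponentIn (pvxsO K t) w ∈ 𝓝 w := (pvxs_O_open K t).connectedComponentIn.mem_nhds (mem_connectedComponentIn hw)
  refine Filter.mem_of_superset h1 fun z hz => ?_
  have h2 := connectedComponentIn_eq hz
  exact ⟨connectedComponentIn_subset _ _ hz, by rw [← h2]; exact hu⟩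

theorem pvxs_U_anti (K : Set ℂ) {t t' : ℝ} (h : t ≤ t') : pvxsU K t' ⊆ pvxsU K t := by
  rintro w ⟨hw, hu⟩
  exact ⟨pvxs_O_anti K h hw, fun hb => hu (hb.subset (connectedComponentIn_mono w (pvxs_O_anti K h)))⟩

/-- membership from any unbounded preconnected witness -/
theorem pvxs_U_of {K : Set ℂ} {t : ℝ} {w : ℂ} {C : Set ℂ} (hC : IsPreconnected C) (hu : ¬ Bornology.IsBounded C) (hw : w ∈ C) (hCO : C ⊆ pvxsO K t) : w ∈ pvxsU K t :=
  ⟨hCO hw, fun hb => hu (hb.subset (hC.subset_connectedComponentIn hw hCO))⟩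

/-- every point off `K` escapes at SOME positive distance -/
theorem pvxs_escape_pt {K : Set ℂ} (hK : IsCompact K) (hne : K.Nonempty) (hns : PvxsNS K) {R0 : ℝ} (hR0 : 0 < R0) (hKR : K ⊆ closedBall 0 R0) {w : ℂ} (hw : w ∉ K) :
    ∃ n : ℕ, w ∈ pvxsU K (1 / ((n : ℝ) + 1)) := by
  obtain ⟨C, hC, hCu, hwC, hCK⟩ := hns w hw
  -- the component of `w` in the complement is open, connected, unbounded
  set U := connectedComponentIn Kᶜ w with hU
  have hUo : IsOpen U := hK.isClosed.isOpen_compl.connectedComponentIn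
  have hUc : IsConnected U := isConnected_connectedComponentIn_iff.2 hw
  have hUp : IsPathConnected U := hUo.isConnected_iff_isPathConnected.1 hUc
  have hCU : C ⊆ U := hC.subset_connectedComponentIn hwC hCK
  -- a far point of `U`
  obtain ⟨w', hw'C, hw'⟩ : ∃ w' ∈ C, R0 + 2 ≤ ‖w'‖ := by
    by_contra hcon
    push Not at hcon
    exact hCu ((isBounded_closedBall (x := (0 : ℂ)) (r := R0 + 2)).subset fun z hz => by
      rw [mem_closedBall_zero_iff]; exact (hcon z hz).le)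
  obtain ⟨γ, hγ⟩ := hUp.joinedIn w (mem_connectedComponentIn hw) w' (hCU hw'C)
  -- the path is at a positive distance from `K`
  have hrc : IsCompact (range γ) := isCompact_range γ.continuous
  have hrK : Disjoint (range γ) K := Set.disjoint_left.2 fun z ⟨s, hs⟩ hzK =>
    (connectedComponentIn_subset Kᶜ w (hs ▸ hγ s) : z ∈ Kᶜ) hzK
  obtain ⟨δ, hδ, hδd⟩ : ∃ δ > 0, ∀ z ∈ range γ, δ ≤ infDist z K := by
    obtain ⟨z0, hz0, hmin⟩ := hrc.exists_isMinOn (range_nonempty γ) (continuous_infDist_pt K).continuousOn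
    refine ⟨infDist z0 K, ?_, fun z hz => hmin hz⟩
    exact (hK.isClosed.notMem_iff_infDist_pos hne).1 (Set.disjoint_left.1 hrK hz0)
  obtain ⟨n, hn⟩ := exists_nat_one_div_lt (lt_min hδ one_pos)
  refine ⟨n, pvxs_U_of (C := range γ ∪ {ζ : ℂ | R0 + 2 ≤ ‖ζ‖}) ?_ ?_ (Or.inl ⟨0, γ.source⟩) ?_⟩
  · exact IsPreconnected.union w' ⟨1, γ.target⟩ hw' (isPreconnected_range γ.continuous) (pvxs_ext_preconn (by linarith))
  · exact fun hb => pvxs_ext_unbdd _ (hb.subset subset_union_right)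
  · rintro z (hz | hz)
    · exact lt_of_lt_of_le (lt_of_lt_of_le hn (min_le_left _ _)) (hδd z hz)
    · have hz' : R0 + 2 ≤ ‖z‖ := hz
      have h1 : (2 : ℝ) ≤ infDist z K := by
        refine (le_infDist hne).2 fun k hk => ?_
        have h2 := hKR hk
        rw [mem_closedBall_zero_iff] at h2
        rw [dist_eq_norm]
        have h3 := norm_sub_norm_le z k
        linarith
      exact lt_of_lt_of_le (lt_of_lt_of_le hn (min_le_right _ _)) (by linarith)

/-- **ESCAPE** -/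
theorem pvxs_escape {K : Set ℂ} (hK : IsCompact K) (hne : K.Nonempty) (hns : PvxsNS K) {r : ℝ} (hr : 0 < r) :
    ∃ t : ℝ, 0 < t ∧ ∀ w, r ≤ infDist w K → ∃ C : Set ℂ, IsPreconnected C ∧ ¬ Bornology.IsBounded C ∧ w ∈ C ∧ ∀ z ∈ C, t < infDist z K := by
  obtain ⟨R0, hR0, hKR⟩ : ∃ R0 : ℝ, 0 < R0 ∧ K ⊆ closedBall 0 R0 := by
    obtain ⟨M, hM⟩ := hK.isBounded.exists_norm_le
    exact ⟨max M 1, lt_of_lt_of_le one_pos (le_max_right _ _), fun z hz => by
      rw [mem_closedBall_zero_iff]; exact (hM z hz).trans (le_max_left _ _)⟩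
  set W : Set ℂ := {w | r ≤ infDist w K} ∩ closedBall 0 (R0 + 2) with hW
  have hWc : IsCompact W := (isCompact_closedBall _ _).inter_left (isClosed_le continuous_const (continuous_infDist_pt K))
  have hcov : W ⊆ ⋃ n : ℕ, pvxsU K (1 / ((n : ℝ) + 1)) := by
    intro w hw
    have hwK : w ∉ K := fun hk => by
      have h1 : r ≤ infDist w K := hw.1
      rw [infDist_zero_of_mem hk] at h1
      linarith
    obtain ⟨n, hn⟩ := pvxs_escape_pt hK hne hns hR0 hKR hwK
    exact mem_iUnion.2 ⟨n, hn⟩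
  have hdir : Directed (· ⊆ ·) fun n : ℕ => pvxsU K (1 / ((n : ℝ) + 1)) := by
    refine directed_of_isDirected_le fun m n hmn => pvxs_U_anti K ?_
    exact one_div_le_one_div_of_le (by positivity) (by exact_mod_cast Nat.add_le_add_right hmn 1)
  obtain ⟨n, hn⟩ := hWc.elim_directed_cover _ (fun n => pvxs_U_open K _) hcov hdir
  refine ⟨1 / ((n : ℝ) + 1), by positivity, fun w hw => ?_⟩
  by_cases hwR : ‖w‖ ≤ R0 + 2
  · obtain ⟨h1, h2⟩ := hn ⟨hw, by rw [mem_closedBall_zero_iff]; exact hwR⟩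
    exact ⟨_, isPreconnected_connectedComponentIn, h2, mem_connectedComponentIn h1,
      fun z hz => (connectedComponentIn_subset (pvxsO K (1 / ((n : ℝ) + 1))) w hz : z ∈ pvxsO K (1 / ((n : ℝ) + 1)))⟩
  · rw [not_le] at hwR
    refine ⟨{ζ : ℂ | R0 + 2 ≤ ‖ζ‖}, pvxs_ext_preconn (by linarith), pvxs_ext_unbdd _, hwR.le, fun z hz => ?_⟩
    have hz' : R0 + 2 ≤ ‖z‖ := hz
    have h1 : (2 : ℝ) ≤ infDist z K := by
      refine (le_infDist hne).2 fun k hk => ?_
      have h2 := hKR hk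
      rw [mem_closedBall_zero_iff] at h2
      rw [dist_eq_norm]
      have h3 := norm_sub_norm_le z k
      linarith
    have h4 : 1 / ((n : ℝ) + 1) ≤ 1 := by
      rw [div_le_one (by positivity)]
      have : (0 : ℝ) ≤ n := Nat.cast_nonneg n
      linarith
    linarith

/-- uniform exterior points near the frontier -/
theorem pvxs_ext_pts {K : Set ℂ} (hK : IsCompact K) (hne : K.Nonempty) {s : ℝ} (hs : 0 < s) :
    ∃ r' : ℝ, 0 < r' ∧ ∀ p ∈ frontier K, ∃ w, ‖w - p‖ < s ∧ r' < infDist w K := by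
  have hFc : IsCompact (frontier K) := hK.of_isClosed_subset isClosed_frontier hK.isClosed.frontier_subset
  set U : ℕ → Set ℂ := fun n => ⋃ w ∈ pvxsO K (1 / ((n : ℝ) + 1)), ball w s with hU
  have hUo : ∀ n, IsOpen (U n) := fun n => isOpen_biUnion fun _ _ => isOpen_ball
  have hcov : frontier K ⊆ ⋃ n, U n := by
    intro p hp
    have h1 : p ∈ closure Kᶜ := by
      rw [frontier_eq_closure_inter_closure] at hp
      exact hp.2
    obtain ⟨w, hwK, hwp⟩ := Metric.mem_closure_iff.1 h1 s hs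
    have h2 : 0 < infDist w K := (hK.isClosed.notMem_iff_infDist_pos hne).1 hwK
    obtain ⟨n, hn⟩ := exists_nat_one_div_lt h2
    exact mem_iUnion.2 ⟨n, mem_biUnion (show w ∈ pvxsO K _ from hn) hwp⟩
  have hdir : Directed (· ⊆ ·) U := by
    refine directed_of_isDirected_le fun m n hmn => biUnion_subset_biUnion_left (pvxs_O_anti K ?_)
    exact one_div_le_one_div_of_le (by positivity) (by exact_mod_cast Nat.add_le_add_right hmn 1)
  obtain ⟨n, hn⟩ := hFc.elim_directed_cover U hUo hcov hdir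
  refine ⟨1 / ((n : ℝ) + 1), by positivity, fun p hp => ?_⟩
  obtain ⟨w, hw, hpw⟩ := mem_iUnion₂.1 (hn hp)
  exact ⟨w, by rw [← dist_eq_norm, dist_comm]; exact hpw, hw⟩

/-! ## 3. MESH (Euclidean) and the location of the circuit -/

section loc

variable {K B Y : Set ℂ} {μ : ℝ}

/-- a point of `B` is within `μ` of the site of every cell which contains it -/
theorem pvxs_mesh (hd : VorDense Y B μ) {v z : ℂ} (hz : z ∈ vorCell Y v) (hzB : z ∈ B) : ‖z - v‖ ≤ μ := by
  obtain ⟨u, hu, h⟩ := hd z hzB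
  exact (hz u hu).trans h

/-- the cell of a site near `K` has radius `≤ μ` -/
theorem pvxs_cell_ball (hd : VorDense Y B μ) (hB : {z | infDist z K ≤ 1} ⊆ B) (hμ0 : 0 ≤ μ) (hμ : μ < 1 / 2) {v : ℂ} (hv : infDist v K ≤ 1 / 2) :
    vorCell Y v ⊆ closedBall v μ := by
  refine vor_cell_subset_ball hμ0 hμ fun z hz => hd z (hB ?_)
  have h1 := infDist_le_infDist_add_dist (s := K) (x := z) (y := v)
  rw [mem_closedBall] at hz
  show infDist z K ≤ 1
  linarith

variable {h : DelGood Y} {c : (delPl h).toMap.Cyc}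

/-- **location of the circuit**: vertex within `3μ` of `K`, step `≤ 2μ`, cell of radius `≤ μ`, inner neighbour (apex) within `μ` of `K` and within `2μ` of the vertex -/
theorem pvxs_rim_loc (hd : VorDense Y B μ) (hB : {z | infDist z K ≤ 1} ⊆ B) (hμ0 : 0 ≤ μ) (hμ : μ ≤ 1 / 8) (hc : PvgRim h K c) (i : ℕ) :
    infDist ((delPl h).toMap.src (c.e i) : ℂ) K ≤ 3 * μ ∧ ‖((delPl h).toMap.tgt (c.e i) : ℂ) - ((delPl h).toMap.src (c.e i) : ℂ)‖ ≤ 2 * μ ∧
      vorCell Y ((delPl h).toMap.src (c.e i) : ℂ) ⊆ closedBall ((delPl h).toMap.src (c.e i) : ℂ) μ ∧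
      infDist ((delPl h).toMap.apex (c.e i) : ℂ) K ≤ μ ∧ ‖((delPl h).toMap.apex (c.e i) : ℂ) - ((delPl h).toMap.src (c.e i) : ℂ)‖ ≤ 2 * μ := by
  obtain ⟨hs, htg, -, -, z, ⟨hz1, hz2⟩, hz3⟩ := pvg_w_del_face h (c.e i)
  obtain ⟨-, k, hkc, hkK⟩ := (hc.rim i).2
  set a : ℂ := ((delPl h).toMap.src (c.e i) : ℂ) with ha
  set b : ℂ := ((delPl h).toMap.tgt (c.e i) : ℂ) with hb
  set q : ℂ := ((delPl h).toMap.apex (c.e i) : ℂ) with hq
  have h1 : ‖k - q‖ ≤ μ := pvxs_mesh hd hkc (hB (by show infDist k K ≤ 1; rw [infDist_zero_of_mem hkK]; exact zero_le_one))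
  have h2 : infDist q K ≤ μ := (infDist_le_dist_of_mem hkK).trans (by rw [dist_eq_norm, norm_sub_rev]; exact h1)
  have h3 : ‖z - q‖ ≤ μ := by
    have := pvxs_cell_ball hd hB hμ0 (by linarith) (v := q) (by linarith) hz3
    rwa [mem_closedBall, dist_eq_norm] at this
  have h4 : infDist z K ≤ 2 * μ := by
    have := infDist_le_infDist_add_dist (s := K) (x := z) (y := q)
    rw [dist_eq_norm] at this
    linarith
  have hzB : z ∈ B := hB (by show infDist z K ≤ 1; linarith)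
  have h5 : ‖z - a‖ ≤ μ := pvxs_mesh hd hz1 hzB
  have h6 : ‖z - b‖ ≤ μ := pvxs_mesh hd hz2 hzB
  have h7 : infDist a K ≤ 3 * μ := by
    have := infDist_le_infDist_add_dist (s := K) (x := a) (y := z)
    rw [dist_eq_norm, norm_sub_rev] at this
    linarith
  refine ⟨h7, ?_, pvxs_cell_ball hd hB hμ0 (by linarith) (by linarith), h2, ?_⟩
  · have := norm_sub_le (b - z) (a - z)
    rw [sub_sub_sub_cancel_right, norm_sub_rev b z, norm_sub_rev a z] at this
    linarith
  · have := norm_sub_le (q - z) (a - z)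
    rw [sub_sub_sub_cancel_right, norm_sub_rev q z, norm_sub_rev a z] at this
    linarith

/-- the cells of the vertices of the circuit stay within `4μ` of `K` -/
theorem pvxs_rim_off (hd : VorDense Y B μ) (hB : {z | infDist z K ≤ 1} ⊆ B) (hμ0 : 0 ≤ μ) (hμ : μ ≤ 1 / 8) (hc : PvgRim h K c) {t : ℝ} (ht : 4 * μ ≤ t)
    {C : Set ℂ} (hC : ∀ z ∈ C, t < infDist z K) {v : ↥Y} (hv : (v : ℂ) ∈ vorMeet Y C) : v ∉ c.verts := by
  rintro ⟨i, rfl⟩
  obtain ⟨-, z, hz, hzC⟩ := hv
  obtain ⟨h1, -, h2, -, -⟩ := pvxs_rim_loc hd hB hμ0 hμ hc i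
  have h3 := h2 hz
  rw [mem_closedBall] at h3
  have h4 := infDist_le_infDist_add_dist (s := K) (x := z) (y := ((delPl h).toMap.src (c.e i) : ℂ))
  have h5 := hC z hzC
  linarith

/-! ## 4. OUTER -/

/-- a vertex without dart in `Left` is strictly on the right -/
theorem pvxs_int_right_of {v : ↥Y} (hv : v ∉ (delPl h).toMap.VOf c.Left) : v ∈ (delPl h).toMap.Int c.Right := by
  intro d hd
  rw [(pl_jordan (delp_isSph h) c).1]
  exact fun hdL => hv ⟨d, hdL, hd⟩

/-- the sites whose cell meets an unbounded set are infinitely many -/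
theorem pvxs_meet_infinite (h : DelGood Y) {C : Set ℂ} (hCu : ¬ Bornology.IsBounded C) : {u : ↥Y | (u : ℂ) ∈ vorMeet Y C}.Infinite := by
  intro hfin
  apply hCu
  have hb : Bornology.IsBounded (⋃ u ∈ {u : ↥Y | (u : ℂ) ∈ vorMeet Y C}, vorCell Y (u : ℂ)) := (Bornology.isBounded_biUnion hfin).2 fun u _ => h.bdd u
  refine hb.subset fun z hz => ?_
  obtain ⟨u, hu, hzu⟩ := vor_cover h.lf h.ne z
  exact mem_biUnion (show (⟨u, hu⟩ : ↥Y) ∈ {u : ↥Y | (u : ℂ) ∈ vorMeet Y C} from ⟨hu, z, hzu, hz⟩) hzu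

/-- **OUTER, witness form**: a site on an unbounded connected set which stays `> t ≥ 4μ` away from `K` is strictly on the right of the circuit -/
theorem pvxs_outer_of (hd : VorDense Y B μ) (hB : {z | infDist z K ≤ 1} ⊆ B) (hμ0 : 0 ≤ μ) (hμ : μ ≤ 1 / 8) (hc : PvgRim h K c) {t : ℝ} (ht : 4 * μ ≤ t)
    {C : Set ℂ} (hCp : IsPreconnected C) (hCu : ¬ Bornology.IsBounded C) (hC : ∀ z ∈ C, t < infDist z K) {v : ↥Y} (hv : (v : ℂ) ∈ vorMeet Y C) :
    v ∈ (delPl h).toMap.Int c.Right := by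
  obtain ⟨u, hu, huL⟩ := ((pvxs_meet_infinite h hCu).sdiff (pl_VOf_finite (delp_isSph h) c hc.fin)).nonempty
  have hu' : (u : ℂ) ∈ vorMeet Y C := hu
  obtain ⟨_, h1⟩ := pvg_w_lift_chain h u.2 (del_win_conn h.lf hCp hu' hv)
  exact pvgd_sep_right (pvxs_int_right_of huL) (ReflTransGen.mono (fun a b hab => ⟨hab.1, pvxs_rim_off hd hB hμ0 hμ hc ht hC hab.2⟩) _ _ h1)

end loc

/-- the conclusion of ESCAPE at the pair `(r, t)` -/
def PvxsEsc (K : Set ℂ) (r t : ℝ) : Prop :=
  ∀ w, r ≤ infDist w K → ∃ C : Set ℂ, IsPreconnected C ∧ ¬ Bornology.IsBounded C ∧ w ∈ C ∧ ∀ z ∈ C, t < infDist z K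

theorem pvxs_eqns_cite3 : True := by
  have := @PvxsEsc.eq_1
  trivial

section outer

variable {K B Y : Set ℂ} {μ r t : ℝ} {h : DelGood Y} {c : (delPl h).toMap.Cyc}

/-- **OUTER** -/
theorem pvxs_outer (hE : PvxsEsc K r t) (hd : VorDense Y B μ) (hB : {z | infDist z K ≤ 1} ⊆ B) (hμ0 : 0 ≤ μ) (hμ : μ ≤ 1 / 8) (ht : 4 * μ ≤ t) (hc : PvgRim h K c)
    (v : ↥Y) (hv : r ≤ infDist (v : ℂ) K) : v ∈ (delPl h).toMap.Int c.Right := by
  obtain ⟨C, h1, h2, h3, h4⟩ := hE v hv
  exact pvxs_outer_of hd hB hμ0 hμ hc ht h1 h2 h4 ⟨v.2, v, vor_self_mem Y v, h3⟩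

/-- all the vertices of the closed disc are within `r` of `K` -/
theorem pvxs_left_near (hE : PvxsEsc K r t) (hd : VorDense Y B μ) (hB : {z | infDist z K ≤ 1} ⊆ B) (hμ0 : 0 ≤ μ) (hμ : μ ≤ 1 / 8) (ht : 4 * μ ≤ t) (hc : PvgRim h K c) :
    ∀ v ∈ (delPl h).toMap.VOf c.Left, infDist (v : ℂ) K < r := by
  intro v hv
  by_contra hcon
  rw [not_lt] at hcon
  have h1 := pvxs_outer hE hd hB hμ0 hμ ht hc v hcon
  rw [pl_VOf_left (delp_isSph h) c] at hv
  rcases hv with hv | hv
  · exact Set.disjoint_left.1 (pl_jordan_vert_disj (delp_isSph h) c).2.1 hv h1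
  · exact Set.disjoint_left.1 (pl_jordan_vert_disj (delp_isSph h) c).2.2 hv h1

/-! ## 5. NEAR -/

/-- **NEAR, witness form**: `p ∈ K`, `w` an exterior point at distance `≥ r + μ` from `K`, `‖w - p‖ ≤ s ≤ 1`: a vertex of the circuit within `s + μ` of `p` -/
theorem pvxs_near_of (hE : PvxsEsc K r t) (hd : VorDense Y B μ) (hB : {z | infDist z K ≤ 1} ⊆ B) (hμ0 : 0 ≤ μ) (hμ : μ ≤ 1 / 8) (ht : 4 * μ ≤ t) (hc : PvgRim h K c)
    {p w : ℂ} {s : ℝ} (hp : p ∈ K) (hw : r + μ ≤ infDist w K) (hwp : ‖w - p‖ ≤ s) (hs : s ≤ 1) : ∃ i, ‖((delPl h).toMap.src (c.e i) : ℂ) - p‖ ≤ s + μ := by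
  by_contra hcon
  push Not at hcon
  have hsegB : ∀ z ∈ segment ℝ p w, ‖z - p‖ ≤ s ∧ z ∈ B := by
    intro z hz
    have h1 : ‖z - p‖ ≤ s := (norm_sub_le_of_mem_segment hz).trans hwp
    refine ⟨h1, hB ?_⟩
    have h2 := infDist_le_dist_of_mem (x := z) hp
    rw [dist_eq_norm] at h2
    show infDist z K ≤ 1
    linarith
  obtain ⟨b, hb, hbz⟩ := vor_cover h.lf h.ne p
  obtain ⟨u, hu, huz⟩ := vor_cover h.lf h.ne w
  have hbL : (⟨b, hb⟩ : ↥Y) ∈ (delPl h).toMap.Int c.Left := hc.int ⟨b, hb⟩ ⟨hb, p, hbz, hp⟩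
  have huw : ‖w - u‖ ≤ μ := pvxs_mesh hd huz (hsegB w (right_mem_segment _ _ _)).2
  have huR : (⟨u, hu⟩ : ↥Y) ∈ (delPl h).toMap.Int c.Right := by
    refine pvxs_outer hE hd hB hμ0 hμ ht hc ⟨u, hu⟩ ?_
    have h1 := infDist_le_infDist_add_dist (s := K) (x := w) (y := u)
    rw [dist_eq_norm] at h1
    show r ≤ infDist u K
    linarith
  obtain ⟨_, h1⟩ := pvg_w_lift_chain h hb (del_win_conn h.lf (convex_segment p w).isPreconnected (a := b) (b := u) ⟨hb, p, hbz, left_mem_segment _ _ _⟩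
    ⟨hu, w, huz, right_mem_segment _ _ _⟩)
  have h2 : ReflTransGen (fun a b => (delPl h).toMap.Adj a b ∧ b ∉ c.verts) (⟨b, hb⟩ : ↥Y) ⟨u, hu⟩ := by
    refine ReflTransGen.mono (fun a v hav => ⟨hav.1, ?_⟩) _ _ h1
    rintro ⟨k, hk⟩
    obtain ⟨-, z, hz, hzS⟩ := hav.2
    obtain ⟨h3, h4⟩ := hsegB z hzS
    have h5 := pvxs_mesh hd hz h4
    have h6 := hcon k
    rw [hk] at h6
    have h7 := norm_sub_le ((v : ℂ) - z) (p - z)
    rw [sub_sub_sub_cancel_right, norm_sub_rev (v : ℂ) z, norm_sub_rev p z] at h7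
    linarith
  exact Set.disjoint_left.1 (pl_jordan_vert_disj (delp_isSph h) c).2.2 (pl_jordan_sep (delp_isSph h) c hbL h2) huR

end outer

/-! ## 6. uniform form -/

/-- **SOFT LOCATION**: one mesh `μ0(K, r)` for OUTER, the closed disc, NEAR and the steps of the circuit -/
theorem pvxs_main {K : Set ℂ} (hK : IsCompact K) (hne : K.Nonempty) (hns : PvxsNS K) {r : ℝ} (hr : 0 < r) :
    ∃ μ0 : ℝ, 0 < μ0 ∧ μ0 ≤ 1 / 8 ∧ ∀ μ : ℝ, 0 ≤ μ → μ ≤ μ0 → ∀ (B Y : Set ℂ) (h : DelGood Y), {z | infDist z K ≤ 1} ⊆ B → VorDense Y B μ →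
      ∀ c : (delPl h).toMap.Cyc, PvgRim h K c →
        (∀ v : ↥Y, r ≤ infDist (v : ℂ) K → v ∈ (delPl h).toMap.Int c.Right) ∧
        (∀ v ∈ (delPl h).toMap.VOf c.Left, infDist (v : ℂ) K < r) ∧
        (∀ p ∈ frontier K, ∃ i, ‖((delPl h).toMap.src (c.e i) : ℂ) - p‖ < r) := by
  obtain ⟨t1, ht1, hE1⟩ := pvxs_escape hK hne hns hr
  obtain ⟨r', hr', hext⟩ := pvxs_ext_pts hK hne (s := min (r / 2) 1) (lt_min (by linarith) one_pos)
  obtain ⟨t2, ht2, hE2⟩ := pvxs_escape hK hne hns (r := r' / 2) (by linarith)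
  refine ⟨min (min (t1 / 4) (t2 / 4)) (min (min (r' / 2) (r / 4)) (1 / 8)), by positivity, (min_le_right _ _).trans (min_le_right _ _), ?_⟩
  intro μ hμ0 hμ B Y h hB hd c hc
  have m1 : μ ≤ t1 / 4 := hμ.trans ((min_le_left _ _).trans (min_le_left _ _))
  have m2 : μ ≤ t2 / 4 := hμ.trans ((min_le_left _ _).trans (min_le_right _ _))
  have m3 : μ ≤ r' / 2 := hμ.trans ((min_le_right _ _).trans ((min_le_left _ _).trans (min_le_left _ _)))
  have m4 : μ ≤ r / 4 := hμ.trans ((min_le_right _ _).trans ((min_le_left _ _).trans (min_le_right _ _)))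
  have m5 : μ ≤ 1 / 8 := hμ.trans ((min_le_right _ _).trans (min_le_right _ _))
  refine ⟨pvxs_outer hE1 hd hB hμ0 m5 (by linarith) hc, pvxs_left_near hE1 hd hB hμ0 m5 (by linarith) hc, fun p hp => ?_⟩
  obtain ⟨w, hwp, hw⟩ := hext p hp
  obtain ⟨i, hi⟩ := pvxs_near_of hE2 hd hB hμ0 m5 (by linarith) hc (hK.isClosed.frontier_subset hp) (w := w) (by linarith) hwp.le (min_le_right _ _)
  exact ⟨i, lt_of_le_of_lt hi (by have := min_le_left (r / 2) 1; linarith)⟩

/-! ## 7. the unit circle of the chart is the frontier -/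

/-- push away from a boundary point `u` of the closed unit disc, inside the disc -/
theorem pvxs_push {u : ℂ} (hu : ‖u‖ = 1) {δ : ℝ} (hδ : 0 < δ) (hδ2 : δ ≤ 1 / 2) {w : ℂ} (hw : w ∈ closedBall (0 : ℂ) 1) :
    w - ((max 0 (δ - ‖w - u‖) : ℝ) : ℂ) * u ∈ closedBall (0 : ℂ) 1 ∧ w - ((max 0 (δ - ‖w - u‖) : ℝ) : ℂ) * u ≠ u := by
  rw [mem_closedBall_zero_iff] at hw
  rcases le_total (δ - ‖w - u‖) 0 with h0 | h0
  · rw [max_eq_left h0]
    simp only [Complex.ofReal_zero, zero_mul, sub_zero]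
    refine ⟨by rw [mem_closedBall_zero_iff]; exact hw, fun h => ?_⟩
    rw [h, sub_self, norm_zero] at h0
    linarith
  · rw [max_eq_right h0]
    set τ : ℝ := δ - ‖w - u‖ with hτ
    have hn := norm_nonneg (w - u)
    have hτ1 : τ ≤ 1 / 2 := by linarith
    refine ⟨?_, fun h => ?_⟩
    · rw [mem_closedBall_zero_iff]
      have e1 : w - (τ : ℂ) * u = ((1 - τ : ℝ) : ℂ) * w + (τ : ℂ) * (w - u) := by push_cast; ring
      rw [e1]
      refine (norm_add_le _ _).trans ?_
      rw [norm_mul, norm_mul, Complex.norm_real, Complex.norm_real, Real.norm_of_nonneg (by linarith), Real.norm_of_nonneg h0]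
      have h1 : ‖w - u‖ ≤ 1 / 2 := by linarith
      nlinarith
    · rcases h0.lt_or_eq with hpos | hz
      · have e2 : w = ((1 + τ : ℝ) : ℂ) * u := by push_cast; linear_combination h
        rw [e2, norm_mul, hu, mul_one, Complex.norm_real, Real.norm_of_nonneg (by linarith)] at hw
        linarith
      · rw [← hz] at h
        simp only [Complex.ofReal_zero, zero_mul, sub_zero] at h
        rw [h, sub_self, norm_zero] at hτ
        linarith

/-- **the points of the unit circle of a chart of a closed topological disc are frontier points** (no retraction of a round disc onto its boundary: Brouwer) -/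
theorem pvxs_circle_frontier {K : Set ℂ} (hK : IsCompact K) {e : ℂ → ℂ} (he : ContinuousOn e K) (hinj : InjOn e K)
    (himg : e '' K = closedBall 0 1) {p : ℂ} (hp : p ∈ K) (hp1 : ‖e p‖ = 1) : p ∈ frontier K := by
  rw [hK.isClosed.frontier_eq]
  refine ⟨hp, fun hint => ?_⟩
  obtain ⟨ρ0, hρ0, hball⟩ := Metric.mem_nhds_iff.1 (mem_interior_iff_mem_nhds.1 hint)
  obtain ⟨ρ, hρ, hρρ⟩ : ∃ ρ : ℝ, 0 < ρ ∧ ρ < ρ0 := ⟨ρ0 / 2, by linarith, by linarith⟩
  have hsph : sphere p ρ ⊆ K := fun z hz => hball (by rw [mem_ball, mem_sphere.1 hz]; exact hρρ)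
  obtain ⟨rK, hrc, hrK, hrid⟩ := pvxs_retract hK he hinj one_pos himg
  obtain ⟨δ, hδ, hδ2, hδs⟩ : ∃ δ : ℝ, 0 < δ ∧ δ ≤ 1 / 2 ∧ ∀ z ∈ sphere p ρ, δ ≤ ‖e z - e p‖ := by
    have hne : (sphere p ρ).Nonempty := ⟨p + (ρ : ℂ), by
      rw [mem_sphere, dist_eq_norm, add_sub_cancel_left, Complex.norm_real, Real.norm_of_nonneg hρ.le]⟩
    obtain ⟨z0, hz0, hmin⟩ := (isCompact_sphere p ρ).exists_isMinOn hne (f := fun z => ‖e z - e p‖) ((he.mono hsph).sub continuousOn_const).norm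
    have h0 : 0 < ‖e z0 - e p‖ := by
      rw [norm_pos_iff, sub_ne_zero]
      intro h
      have h1 := hinj (hsph hz0) hp h
      rw [h1, mem_sphere, dist_self] at hz0
      exact hρ.ne hz0
    exact ⟨min ‖e z0 - e p‖ (1 / 2), lt_min h0 (by norm_num), min_le_right _ _, fun z hz => (min_le_left _ _).trans (hmin hz)⟩
  obtain ⟨H, hH⟩ : ∃ H : ℂ → ℂ, H = fun w => w - ((max 0 (δ - ‖w - e p‖) : ℝ) : ℂ) * e p := ⟨_, rfl⟩
  have hHc : Continuous H := by
    rw [hH]
    have h1 : Continuous fun w : ℂ => max 0 (δ - ‖w - e p‖) := continuous_const.max (continuous_const.sub (continuous_id.sub continuous_const).norm)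
    exact continuous_id.sub ((Complex.continuous_ofReal.comp h1).mul continuous_const)
  have hHm : ∀ w ∈ closedBall (0 : ℂ) 1, H w ∈ closedBall (0 : ℂ) 1 ∧ H w ≠ e p := fun w hw => by
    rw [hH]; exact pvxs_push hp1 hδ hδ2 hw
  have : CompactSpace K := isCompact_iff_compactSpace.1 hK
  have hfc : Continuous fun x : K => e x := continuousOn_iff_continuous_domRestrict.1 he
  have hfi : Function.Injective fun x : K => e x := fun x y hxy => Subtype.ext (hinj x.2 y.2 hxy)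
  have hemb := hfc.isClosedEmbedding hfi
  have hmem : ∀ z, e (rK z) ∈ closedBall (0 : ℂ) 1 := fun z => himg ▸ mem_image_of_mem e (hrK z)
  have hq : ∀ z : ℂ, ∃ x : K, e x = H (e (rK z)) := fun z => by
    have h2 : H (e (rK z)) ∈ e '' K := himg ▸ (hHm _ (hmem z)).1
    obtain ⟨x, hx, hxe⟩ := h2
    exact ⟨⟨x, hx⟩, hxe⟩
  choose F hF using hq
  have hFc : Continuous F := by
    rw [hemb.isInducing.continuous_iff]
    have e1 : ((fun x : K => e x) ∘ F) = fun z => H (e (rK z)) := funext hF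
    rw [e1]
    exact hHc.comp (he.comp_continuous hrc hrK)
  have hFc' : Continuous fun z => ((F z : K) : ℂ) := continuous_subtype_val.comp hFc
  have hne : ∀ x, ((F x : K) : ℂ) - p ≠ 0 := by
    intro x hx
    rw [sub_eq_zero] at hx
    have h1 := hF x
    rw [hx] at h1
    exact (hHm _ (hmem x)).2 h1.symm
  have hid : ∀ x ∈ sphere p ρ, ((F x : K) : ℂ) = x := by
    intro x hx
    refine hinj (F x).2 (hsph hx) ?_
    rw [hF, hrid x (hsph hx), hH]
    simp only
    rw [max_eq_left (by linarith [hδs x hx])]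
    simp
  obtain ⟨φ, hφ⟩ : ∃ φ : ℂ → ℂ, φ = fun x => p - ((ρ / ‖((F x : K) : ℂ) - p‖ : ℝ) : ℂ) * (((F x : K) : ℂ) - p) := ⟨_, rfl⟩
  have hφc : Continuous φ := by
    rw [hφ]
    have h1 : Continuous fun x => ρ / ‖((F x : K) : ℂ) - p‖ :=
      continuous_const.div (hFc'.sub continuous_const).norm fun x => norm_ne_zero_iff.2 (hne x)
    exact continuous_const.sub ((Complex.continuous_ofReal.comp h1).mul (hFc'.sub continuous_const))
  have hφn : ∀ x, ‖φ x - p‖ = ρ := by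
    intro x
    have hpos : 0 < ‖((F x : K) : ℂ) - p‖ := norm_pos_iff.2 (hne x)
    rw [hφ]
    simp only [sub_sub_cancel_left, norm_neg, norm_mul, Complex.norm_real]
    rw [Real.norm_of_nonneg (div_nonneg hρ.le hpos.le), div_mul_cancel₀ _ hpos.ne']
  obtain ⟨x, -, hx⟩ := Claimed.Agent.Lib.bfp_brouwer (isCompact_closedBall p ρ) (convex_closedBall p ρ) ⟨p, mem_closedBall_self hρ.le⟩
    φ hφc.continuousOn (fun x _ => by rw [mem_closedBall, dist_eq_norm, hφn])
  have hxR : ‖x - p‖ = ρ := by rw [← hx]; exact hφn x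
  have hxs : x ∈ sphere p ρ := by rw [mem_sphere, dist_eq_norm]; exact hxR
  have e1 : φ x = p - (x - p) := by
    rw [hφ]
    simp only [hid x hxs]
    rw [hxR, div_self hρ.ne']
    simp
  rw [hx] at e1
  have e2 : x - p = 0 := by linear_combination (1 / 2 : ℂ) * e1
  rw [e2, norm_zero] at hxR
  exact hρ.ne hxR

end Claimed.Agent.R289
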