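import Claimed.Agent.R289.Mix.Fold
import Claimed.Agent.R289.Mix.Topo
import Claimed.Agent.R289.Mix.Disc

-- KEEP
/-!
# Row 289 (S0537), road MIX (head helper246), file Mix/FoldInst : THE SOFT DISC OF THE DELAUNAY PLANE IS AN INSTANCE OF `PvxfIn`      (owner helper148; prefix `pvxi_`)      0 sorry

INPUT: `H : PvxmDisc K Φ` (helper262, Mix/Disc), `h : DelGood Y`, mesh `VorDense Y B μ`, `{infDist · K ≤ 1} ⊆ B`, `hc : PvgRim h K c` (outer circuit of the sites whose cell meets `K`), location `pvxs_main` (helper45, Mix/Topo).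
* sec.1  `pvxiPt K Y v` (a point of `K`: `v` itself if `v ∈ K` (`pvxi_pt_self`), else in the cell of `v` if this cell meets `K`, else a nearest point), `pvxiG K Φ Y v = Φ (pvxiPt K Y v)`, `pvxiX K Y` (inner sites);
         `pvxi_pt_cell _foot _mem _near`, `pvxi_foot_frontier`, `pvxi_pt_frontier` (so the vertices of the circuit sit EXACTLY on the unit circle: `th = 0`)
* sec.2  **`pvxi_ch`** (CH: `Φ⁻¹(segment)` + `doc_del_conn`), **`pvxi_in_of`** (`PvxfIn … om 0`, moduli given), `pvxi_dense_of`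
* sec.3  **`pvxi_main`** : `∀ om r0 > 0, ∃ μ0, ∀ μ ≤ μ0 …` : `PvxfIn (delPl h).toMap c (pvxiX K Y) (pvxiG K Φ Y) om 0` + density on the circle + `dist v (pvxiPt K Y v) < r0` on `VOf c.Left`
         **`pvxi_marks_pos`** : the same + `0 ≤ doSum (pvxiG K Φ Y) c` (block SIGN) ⟹ `∃ m, PvxfMarks c (pvxiG K Φ Y) α m 0 (424 om)`
* sec.4  `pvxiGam K Φ τ = Φ⁻¹(e^{iτ})`, record `PvxiMarks h c γ α m s t` (EUCLIDEAN: `lt per mark arc dens secL secR`), `pvxi_marks_of`,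
         **`pvxi_marks`** : `∀ t > 0, ∃ s > 0, ∃ μ0, …` : marks for `(γ, α)` or for the reversed curve `(γ(-·), α')`      = what `arc`, `densB`, `sec` of `PvgfRec` need, up to the dictionary `γ τ ↔ ψ`
-/

set_option autoImplicit false
set_option linter.unusedVariables false

namespace Claimed.Agent.R289

open Set Metric Relation Topology

/-! ## 1. the point of `K` attached to a site -/

open Classical in
/-- a point of `K` attached to the site `v`: `v` itself if `v ∈ K`, else a point of the cell of `v` if this cell meets `K`, else a nearest point of `K` -/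
noncomputable def pvxiPt (K Y : Set ℂ) (v : ℂ) : ℂ :=
  if v ∈ K then v
  else if h : (vorCell Y v ∩ K).Nonempty then h.some
  else if h' : ∃ p ∈ K, infDist v K = dist v p then h'.choose else v

/-- the chart value of a site -/
noncomputable def pvxiG (K : Set ℂ) (Φ : ℂ → ℂ) (Y : Set ℂ) (v : ↥Y) : ℂ := Φ (pvxiPt K Y v)

/-- the inner sites -/
def pvxiX (K Y : Set ℂ) : Set ↥Y := {v | (v : ℂ) ∈ vorMeet Y K}

theorem pvxi_eqns_cite : True := by
  have := @pvxiPt.eq_1; have := @pvxiG.eq_1; have := @pvxiX.eq_1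
  trivial

section pt

variable {K Y : Set ℂ} {v : ℂ}

theorem pvxi_pt_self (hv : v ∈ K) : pvxiPt K Y v = v := by
  unfold pvxiPt
  rw [if_pos hv]

theorem pvxi_pt_cell (hv : (vorCell Y v ∩ K).Nonempty) : pvxiPt K Y v ∈ vorCell Y v ∩ K := by
  by_cases hvK : v ∈ K
  · rw [pvxi_pt_self hvK]
    exact ⟨vor_self_mem Y v, hvK⟩
  · unfold pvxiPt
    rw [if_neg hvK, dif_pos hv]
    exact hv.some_mem

theorem pvxi_pt_foot (hK : IsCompact K) (hne : K.Nonempty) (hv : ¬ (vorCell Y v ∩ K).Nonempty) :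
    pvxiPt K Y v ∈ K ∧ infDist v K = dist v (pvxiPt K Y v) := by
  have h' : ∃ p ∈ K, infDist v K = dist v p := hK.exists_infDist_eq_dist hne v
  have hvK : v ∉ K := fun h => hv ⟨v, vor_self_mem Y v, h⟩
  unfold pvxiPt
  rw [if_neg hvK, dif_neg hv, dif_pos h']
  exact h'.choose_spec

theorem pvxi_pt_mem (hK : IsCompact K) (hne : K.Nonempty) : pvxiPt K Y v ∈ K := by
  by_cases hv : (vorCell Y v ∩ K).Nonempty
  · exact (pvxi_pt_cell hv).2
  · exact (pvxi_pt_foot hK hne hv).1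

/-- a nearest point of a closed set to an outside point lies on the frontier -/
theorem pvxi_foot_frontier (hK : IsClosed K) {p : ℂ} (hv : v ∉ K) (hp : p ∈ K) (hd : infDist v K = dist v p) : p ∈ frontier K := by
  rw [hK.frontier_eq]
  refine ⟨hp, fun hint => ?_⟩
  obtain ⟨ε, hε, hball⟩ := Metric.mem_nhds_iff.1 (mem_interior_iff_mem_nhds.1 hint)
  have hvp : 0 < dist v p := dist_pos.2 (fun e => hv (e ▸ hp))
  set t : ℝ := min (1 / 2) (ε / (2 * dist v p)) with ht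
  have ht0 : 0 < t := lt_min (by norm_num) (by positivity)
  have ht1 : t ≤ 1 / 2 := min_le_left _ _
  have ht2 : t * dist v p ≤ ε / 2 := by
    have : t ≤ ε / (2 * dist v p) := min_le_right _ _
    calc t * dist v p ≤ ε / (2 * dist v p) * dist v p := by gcongr
      _ = ε / 2 := by field_simp
  set p' : ℂ := p + (t : ℂ) * (v - p) with hp'
  have h1 : dist p' p = t * dist v p := by
    rw [dist_eq_norm, dist_eq_norm, hp', add_sub_cancel_left, norm_mul, Complex.norm_real, Real.norm_of_nonneg ht0.le]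
  have h2 : p' ∈ ball p ε := by rw [mem_ball, h1]; linarith
  have h3 : dist v p' = (1 - t) * dist v p := by
    have e : v - p' = ((1 - t : ℝ) : ℂ) * (v - p) := by rw [hp']; push_cast; ring
    rw [dist_eq_norm, dist_eq_norm, e, norm_mul, Complex.norm_real, Real.norm_of_nonneg (by linarith)]
  have h4 := infDist_le_dist_of_mem (x := v) (hball h2)
  rw [hd, h3] at h4
  nlinarith

theorem pvxi_pt_frontier (hK : IsCompact K) (hne : K.Nonempty) (hv : ¬ (vorCell Y v ∩ K).Nonempty) : pvxiPt K Y v ∈ frontier K := by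
  obtain ⟨h1, h2⟩ := pvxi_pt_foot hK hne hv
  exact pvxi_foot_frontier hK.isClosed (fun h => hv ⟨v, vor_self_mem Y v, h⟩) h1 h2

theorem pvxi_sub_B {B : Set ℂ} (hB : {z | infDist z K ≤ 1} ⊆ B) : K ⊆ B := fun z hz => hB (by
  show infDist z K ≤ 1
  rw [infDist_zero_of_mem hz]; exact zero_le_one)

/-- the attached point is close to the site -/
theorem pvxi_pt_near (hK : IsCompact K) (hne : K.Nonempty) {B : Set ℂ} {μ r : ℝ} (hd : VorDense Y B μ) (hB : {z | infDist z K ≤ 1} ⊆ B) (hμ0 : 0 ≤ μ)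
    (hr : infDist v K < r) : dist v (pvxiPt K Y v) < μ + r := by
  by_cases hv : (vorCell Y v ∩ K).Nonempty
  · obtain ⟨h1, h2⟩ := pvxi_pt_cell hv
    have := pvxs_mesh hd h1 (pvxi_sub_B hB h2)
    rw [dist_comm, dist_eq_norm]
    linarith [infDist_nonneg (x := v) (s := K)]
  · rw [← (pvxi_pt_foot hK hne hv).2]
    linarith

end pt

/-! ## 2. the instance, moduli given -/

section inst

variable {K : Set ℂ} {Φ : ℂ → ℂ} {Y B : Set ℂ} {μ r s om : ℝ} {h : DelGood Y} {c : (delPl h).toMap.Cyc}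

/-- two points of `K` in the same cell -/
theorem pvxi_same_cell (hd : VorDense Y B μ) (hB : {z | infDist z K ≤ 1} ⊆ B) {v a b : ℂ} (ha : a ∈ vorCell Y v ∩ K) (hb : b ∈ vorCell Y v ∩ K) : dist a b ≤ 2 * μ := by
  have h1 := pvxs_mesh hd ha.1 (pvxi_sub_B hB ha.2)
  have h2 := pvxs_mesh hd hb.1 (pvxi_sub_B hB hb.2)
  have := dist_triangle a v b
  rw [dist_eq_norm a v, dist_comm v b, dist_eq_norm b v] at this
  linarith

/-- **(CH)** in the Delaunay plane: pull the segment back by the inverse chart, take the nerve of the cells it meets -/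
theorem pvxi_ch (H : PvxmDisc K Φ) (hs : ∀ a ∈ K, ∀ b ∈ K, dist a b < s → dist (Φ a) (Φ b) < om) (hd : VorDense Y B μ) (hB : {z | infDist z K ≤ 1} ⊆ B)
    (hμs : 2 * μ < s) : PvxfCh (delPl h).toMap (pvxiX K Y) (pvxiG K Φ Y) om := by
  intro a ha b hb
  obtain ⟨pa1, pa2⟩ := pvxi_pt_cell ha.2
  obtain ⟨pb1, pb2⟩ := pvxi_pt_cell hb.2
  set S : Set ℂ := segment ℝ (Φ (pvxiPt K Y a)) (Φ (pvxiPt K Y b)) with hS
  have hS1 : S ⊆ closedBall 0 1 := (convex_closedBall (0 : ℂ) 1).segment_subset (by simpa using H.norm_le pa2) (by simpa using H.norm_le pb2)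
  set Sg : Set ℂ := pvxdInv K Φ '' S with hSg
  have hpre : IsPreconnected Sg := (convex_segment _ _).isPreconnected.image _ (H.inv_cont.mono hS1)
  have hSgK : Sg ⊆ K := by
    rintro _ ⟨w, hw, rfl⟩
    exact H.inv_mem (by simpa using hS1 hw)
  have haS : (a : ℂ) ∈ vorMeet Y Sg := ⟨a.2, _, pa1, ⟨_, left_mem_segment ℝ _ _, H.inv_phi pa2⟩⟩
  have hbS : (b : ℂ) ∈ vorMeet Y Sg := ⟨b.2, _, pb1, ⟨_, right_mem_segment ℝ _ _, H.inv_phi pb2⟩⟩
  refine ⟨{v | (v : ℂ) ∈ vorMeet Y Sg}, ?_, haS, ?_, doc_del_conn h hpre a b haS hbS⟩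
  · rintro v ⟨hv, z, hz1, hz2⟩
    exact ⟨hv, z, hz1, hSgK hz2⟩
  · rintro y ⟨hy, z, hz1, w, hw, rfl⟩
    have hw1 : ‖w‖ ≤ 1 := by simpa using hS1 hw
    have hzK : pvxdInv K Φ w ∈ K := H.inv_mem hw1
    have hyK : (vorCell Y (y : ℂ) ∩ K).Nonempty := ⟨_, hz1, hzK⟩
    have h1 := pvxi_same_cell hd hB (pvxi_pt_cell hyK) ⟨hz1, hzK⟩
    have h2 := hs _ (pvxi_pt_cell hyK).2 _ hzK (by linarith)
    rw [H.phi_inv hw1, dist_eq_norm] at h2
    exact ⟨w, hw, h2.le⟩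

/-- **THE INSTANCE**, moduli given: `s` = modulus of `Φ` for `om`; `r` = location of the closed disc and of the circuit (`pvxs_main` of helper45) -/
theorem pvxi_in_of (H : PvxmDisc K Φ) (hs : ∀ a ∈ K, ∀ b ∈ K, dist a b < s → dist (Φ a) (Φ b) < om) (hd : VorDense Y B μ) (hB : {z | infDist z K ≤ 1} ⊆ B)
    (hμ0 : 0 ≤ μ) (hμ : μ ≤ 1 / 8) (hc : PvgRim h K c) (hr0 : 0 < r) (hr2 : r ≤ 1 / 2) (hsm : 2 * r + 4 * μ ≤ s)
    (hr : ∀ v ∈ (delPl h).toMap.VOf c.Left, infDist (v : ℂ) K < r) :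
    PvxfIn (delPl h).toMap c (pvxiX K Y) (pvxiG K Φ Y) om 0 := by
  have hK := H.cpt
  have hne := H.nonempty
  refine ⟨fun v hv => hc.int v hv, fun k => (hc.rim k).2, pvxi_ch H hs hd hB (by linarith), ?_, fun v _ => H.norm_le (pvxi_pt_mem hK hne),
    fun k => H.norm_le (pvxi_pt_mem hK hne), fun k => ?_, fun d hdL => ?_⟩
  · -- the centre
    have hz0 : pvxdInv K Φ 0 ∈ K := H.inv_mem (by simp)
    obtain ⟨o, hoY, ho⟩ := vor_cover h.lf h.ne (pvxdInv K Φ 0)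
    have hoK : (vorCell Y o ∩ K).Nonempty := ⟨_, ho, hz0⟩
    refine ⟨⟨o, hoY⟩, ⟨hoY, hoK⟩, ?_⟩
    have h1 := pvxi_same_cell hd hB (pvxi_pt_cell hoK) ⟨ho, hz0⟩
    have h2 := hs _ (pvxi_pt_cell hoK).2 _ hz0 (by linarith)
    rw [H.phi_inv (by simp), dist_zero_right] at h2
    exact h2.le
  · -- the vertices of the circuit sit ON the unit circle
    have h1 : ¬ (vorCell Y ((delPl h).toMap.src (c.e k) : ℂ) ∩ K).Nonempty := fun hn => (hc.rim k).1 ⟨Subtype.coe_prop _, hn⟩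
    have h2 := (H.norm_eq_of_frontier (pvxi_pt_frontier hK hne h1)).2
    show 1 - 0 ≤ ‖Φ (pvxiPt K Y _)‖
    rw [h2, sub_zero]
  · -- the edges of the closed disc are short in the chart
    obtain ⟨-, -, -, -, z, ⟨hz1, hz2⟩, -⟩ := pvg_w_del_face h d
    have hu := hr _ ⟨d, hdL, rfl⟩
    have hw := hr _ ⟨(delPl h).toMap.nxt d, ((pl_left_face c) d).2 hdL, rfl⟩
    rw [PvMap.src_nxt] at hw
    have c1 := pvxs_cell_ball hd hB hμ0 (by linarith) (by linarith : infDist ((delPl h).toMap.src d : ℂ) K ≤ 1 / 2) hz1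
    have c2 := pvxs_cell_ball hd hB hμ0 (by linarith) (by linarith : infDist ((delPl h).toMap.tgt d : ℂ) K ≤ 1 / 2) hz2
    rw [mem_closedBall] at c1 c2
    have n1 := pvxi_pt_near hK hne hd hB hμ0 hu
    have n2 := pvxi_pt_near hK hne hd hB hμ0 hw
    have t1 : dist (pvxiPt K Y ((delPl h).toMap.tgt d : ℂ)) (pvxiPt K Y ((delPl h).toMap.src d : ℂ)) < s := by
      have a1 := dist_triangle4 (pvxiPt K Y ((delPl h).toMap.tgt d : ℂ)) ((delPl h).toMap.tgt d : ℂ) z (pvxiPt K Y ((delPl h).toMap.src d : ℂ))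
      have a2 := dist_triangle z ((delPl h).toMap.src d : ℂ) (pvxiPt K Y ((delPl h).toMap.src d : ℂ))
      have e1 := dist_comm (pvxiPt K Y ((delPl h).toMap.tgt d : ℂ)) ((delPl h).toMap.tgt d : ℂ)
      have e2 := dist_comm ((delPl h).toMap.tgt d : ℂ) z
      linarith
    have := hs _ (pvxi_pt_mem hK hne) _ (pvxi_pt_mem hK hne) t1
    rw [dist_eq_norm] at this
    exact this.le

/-- density of the circuit on the unit circle -/
theorem pvxi_dense_of (H : PvxmDisc K Φ) (hs : ∀ a ∈ K, ∀ b ∈ K, dist a b < s → dist (Φ a) (Φ b) < om) (hc : PvgRim h K c) (hsm : 2 * r ≤ s)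
    (hnear : ∀ p ∈ frontier K, ∃ i, ‖((delPl h).toMap.src (c.e i) : ℂ) - p‖ < r) (w : ℂ) (hw : ‖w‖ = 1) :
    ∃ k, ‖pvxiG K Φ Y ((delPl h).toMap.src (c.e k)) - w‖ ≤ om := by
  have hK := H.cpt
  have hne := H.nonempty
  have hp : pvxdInv K Φ w ∈ K := H.inv_mem hw.le
  have hΦ : Φ (pvxdInv K Φ w) = w := H.phi_inv hw.le
  obtain ⟨i, hi⟩ := hnear _ (H.mem_frontier hp (by rw [hΦ, hw]))
  refine ⟨i, ?_⟩
  have h1 : ¬ (vorCell Y ((delPl h).toMap.src (c.e i) : ℂ) ∩ K).Nonempty := fun hn => (hc.rim i).1 ⟨Subtype.coe_prop _, hn⟩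
  obtain ⟨f1, f2⟩ := pvxi_pt_foot hK hne h1
  have h2 := infDist_le_dist_of_mem (x := ((delPl h).toMap.src (c.e i) : ℂ)) hp
  rw [← dist_eq_norm] at hi
  have h3 : dist (pvxiPt K Y ((delPl h).toMap.src (c.e i) : ℂ)) (pvxdInv K Φ w) < s := by
    have := dist_triangle (pvxiPt K Y ((delPl h).toMap.src (c.e i) : ℂ)) ((delPl h).toMap.src (c.e i) : ℂ) (pvxdInv K Φ w)
    have e1 := dist_comm (pvxiPt K Y ((delPl h).toMap.src (c.e i) : ℂ)) ((delPl h).toMap.src (c.e i) : ℂ)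
    linarith
  have := hs _ f1 _ hp h3
  rw [hΦ, dist_eq_norm] at this
  exact this.le

end inst

/-! ## 3. the instance for small mesh -/

/-- **THE INSTANCE**: for every chart tolerance `om` and every Euclidean tolerance `r0`, once the mesh is small, the outer circuit of the sites whose cell meets `K` bounds a soft discrete disc -/
theorem pvxi_main {K : Set ℂ} {Φ : ℂ → ℂ} (H : PvxmDisc K Φ) {om r0 : ℝ} (hom : 0 < om) (hr0 : 0 < r0) :
    ∃ μ0 : ℝ, 0 < μ0 ∧ μ0 ≤ 1 / 8 ∧ ∀ μ : ℝ, 0 ≤ μ → μ ≤ μ0 → ∀ (B Y : Set ℂ) (h : DelGood Y), {z | infDist z K ≤ 1} ⊆ B → VorDense Y B μ →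
      ∀ c : (delPl h).toMap.Cyc, PvgRim h K c →
        PvxfIn (delPl h).toMap c (pvxiX K Y) (pvxiG K Φ Y) om 0 ∧
        (∀ w : ℂ, ‖w‖ = 1 → ∃ k, ‖pvxiG K Φ Y ((delPl h).toMap.src (c.e k)) - w‖ ≤ om) ∧
        (∀ v ∈ (delPl h).toMap.VOf c.Left, dist (v : ℂ) (pvxiPt K Y v) < r0) := by
  obtain ⟨s, hs0, hs⟩ := H.mod hom
  set r : ℝ := min (min (s / 4) (1 / 2)) (r0 / 2) with hr
  have hrpos : 0 < r := by positivity
  have hr1 : r ≤ s / 4 := (min_le_left _ _).trans (min_le_left _ _)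
  have hr2 : r ≤ 1 / 2 := (min_le_left _ _).trans (min_le_right _ _)
  have hr3 : r ≤ r0 / 2 := min_le_right _ _
  obtain ⟨μ1, hμ1, hμ18, hmain⟩ := pvxs_main H.cpt H.nonempty (pvxs_ns_of_disc H.cpt H.cont H.inj one_pos H.img) hrpos
  refine ⟨min μ1 (min (s / 8) (r0 / 2)), by positivity, (min_le_left _ _).trans hμ18, ?_⟩
  intro μ hμ0 hμ B Y h hB hd c hc
  have m1 : μ ≤ μ1 := hμ.trans (min_le_left _ _)
  have m2 : μ ≤ s / 8 := hμ.trans ((min_le_right _ _).trans (min_le_left _ _))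
  have m3 : μ ≤ r0 / 2 := hμ.trans ((min_le_right _ _).trans (min_le_right _ _))
  obtain ⟨-, g2, g3⟩ := hmain μ hμ0 m1 B Y h hB hd c hc
  refine ⟨pvxi_in_of H hs hd hB hμ0 (m1.trans hμ18) hc hrpos hr2 (by linarith) g2, pvxi_dense_of H hs hc (by linarith) g3, fun v hv => ?_⟩
  have := pvxi_pt_near H.cpt H.nonempty hd hB hμ0 (g2 v hv)
  linarith

/-- **THE INSTANCE + ORD + MARKS, orientation given** (`0 ≤ doSum G c` = block SIGN).      ONE family of marks `m` serves all the tolerances: feed `M` to `pvxi_marks_of` with any moduli. -/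
theorem pvxi_marks_pos {K : Set ℂ} {Φ : ℂ → ℂ} (H : PvxmDisc K Φ) {om r0 : ℝ} (hom : 0 < om) (hom4 : 424 * om ≤ 1 / 4) (hr0 : 0 < r0)
    {α : ℕ → ℝ} (hlt : ∀ j, j < 4 → α j + 424 * om < α (j + 1)) (hper : α 4 = α 0 + 2 * Real.pi) :
    ∃ μ0 : ℝ, 0 < μ0 ∧ μ0 ≤ 1 / 8 ∧ ∀ μ : ℝ, 0 ≤ μ → μ ≤ μ0 → ∀ (B Y : Set ℂ) (h : DelGood Y), {z | infDist z K ≤ 1} ⊆ B → VorDense Y B μ →
      ∀ c : (delPl h).toMap.Cyc, PvgRim h K c → 0 ≤ doSum (pvxiG K Φ Y) c →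
        (∃ m : ℕ → ℕ, PvxfMarks c (pvxiG K Φ Y) α m 0 (424 * om)) ∧ (∀ v ∈ (delPl h).toMap.VOf c.Left, dist (v : ℂ) (pvxiPt K Y v) < r0) := by
  obtain ⟨μ0, hμ0, hμ8, hmain⟩ := pvxi_main H hom hr0
  refine ⟨μ0, hμ0, hμ8, fun μ hμ hμle B Y h hB hd c hc hOR => ?_⟩
  obtain ⟨hin, hdense, hloc⟩ := hmain μ hμ hμle B Y h hB hd c hc
  have hδ : 64 * (0 : ℝ) + 424 * om = 424 * om := by ring
  obtain ⟨m, M⟩ := pvxf_main_pos (delp_isSph h) hin hom (by rw [hδ]; exact hom4) (dn := om) (by linarith) hdense hOR (α := α) (fun j hj => by rw [hδ]; exact hlt j hj) hper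
  rw [hδ] at M
  exact ⟨⟨m, M⟩, hloc⟩

/-! ## 4. Euclidean form of the marks, arcs and sectors -/

/-- the boundary curve of the soft disc -/
noncomputable def pvxiGam (K : Set ℂ) (Φ : ℂ → ℂ) (t : ℝ) : ℂ := pvxdInv K Φ (Complex.exp ((t : ℂ) * Complex.I))

theorem pvxi_gam_eqns_cite : True := by
  have := @pvxiGam.eq_1
  trivial

/-- **four marks on the circuit, EUCLIDEAN statements**; `γ` the boundary curve, `α 0 < … < α 4 = α 0 + 2π` the parameters of the marks, `s` input tolerance, `t` output tolerance -/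
structure PvxiMarks {Y : Set ℂ} (h : DelGood Y) (c : (delPl h).toMap.Cyc) (γ : ℝ → ℂ) (α : ℕ → ℝ) (m : ℕ → ℕ) (s t : ℝ) : Prop where
  lt : ∀ j, j < 4 → m j < m (j + 1)
  per : m 4 = m 0 + c.n
  mark : ∀ j, j ≤ 4 → ‖((delPl h).toMap.src (c.e (m j)) : ℂ) - γ (α j)‖ < t
  arc : ∀ j, j < 4 → ∀ k, m j ≤ k → k ≤ m (j + 1) → ∃ τ, α j ≤ τ ∧ τ ≤ α (j + 1) ∧ ‖((delPl h).toMap.src (c.e k) : ℂ) - γ τ‖ < t
  dens : ∀ j, j < 4 → ∀ τ, α j ≤ τ → τ ≤ α (j + 1) → ∃ k, m j ≤ k ∧ k ≤ m (j + 1) ∧ ‖((delPl h).toMap.src (c.e k) : ℂ) - γ τ‖ < t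
  secL : ∀ j, j < 4 → ∀ k, m j ≤ k → k ≤ m (j + 1) → ∀ β, α j ≤ β → β ≤ α (j + 1) → ‖((delPl h).toMap.src (c.e k) : ℂ) - γ β‖ < s →
    ∀ k', m j ≤ k' → k' ≤ k → ∃ τ, α j ≤ τ ∧ τ ≤ β ∧ ‖((delPl h).toMap.src (c.e k') : ℂ) - γ τ‖ < t
  secR : ∀ j, j < 4 → ∀ k, m j ≤ k → k ≤ m (j + 1) → ∀ β, α j ≤ β → β ≤ α (j + 1) → ‖((delPl h).toMap.src (c.e k) : ℂ) - γ β‖ < s →
    ∀ k', k ≤ k' → k' ≤ m (j + 1) → ∃ τ, β ≤ τ ∧ τ ≤ α (j + 1) ∧ ‖((delPl h).toMap.src (c.e k') : ℂ) - γ τ‖ < t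

/-- from the chart to the plane -/
theorem pvxi_marks_of {Y : Set ℂ} {h : DelGood Y} {c : (delPl h).toMap.Cyc} {P : ↥Y → ℂ} {γ : ℝ → ℂ} {α : ℕ → ℝ} {m : ℕ → ℕ} {δ e1 s' s t : ℝ}
    (M : PvxfMarks c P α m 0 δ) (hδ : 0 ≤ δ) (hs' : 0 ≤ s') (he : Real.pi / 2 * s' + δ < e1)
    (hwin : ∀ j, j < 4 → α (j + 1) - α j + δ + Real.pi / 2 * s' < 2 * Real.pi)
    (C2E : ∀ (k : ℕ) (τ : ℝ), ‖P ((delPl h).toMap.src (c.e k)) - Complex.exp ((τ : ℂ) * Complex.I)‖ < e1 → ‖((delPl h).toMap.src (c.e k) : ℂ) - γ τ‖ < t)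
    (E2C : ∀ (k : ℕ) (β : ℝ), ‖((delPl h).toMap.src (c.e k) : ℂ) - γ β‖ < s → ‖P ((delPl h).toMap.src (c.e k)) - Complex.exp ((β : ℂ) * Complex.I)‖ ≤ s') :
    PvxiMarks h c γ α m s t := by
  have hπ := Real.pi_pos
  have hp : 0 ≤ Real.pi / 2 * s' := by positivity
  refine ⟨M.lt, M.per, fun j hj => C2E _ _ (lt_of_le_of_lt (M.mark j hj) (by linarith)), fun j hj k k1 k2 => ?_, fun j hj τ t1 t2 => ?_,
    fun j hj k k1 k2 β b1 b2 hb k' k1' k2' => ?_, fun j hj k k1 k2 β b1 b2 hb k' k1' k2' => ?_⟩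
  · obtain ⟨τ, t1, t2, t3⟩ := M.arc j hj k k1 k2
    exact ⟨τ, t1, t2, C2E _ _ (lt_of_le_of_lt t3 (by linarith))⟩
  · obtain ⟨k, k1, k2, k3⟩ := M.dens j hj τ t1 t2
    exact ⟨k, k1, k2, C2E _ _ (lt_of_le_of_lt k3 (by linarith))⟩
  · obtain ⟨τ, t1, t2, t3⟩ := M.secL j hj k k1 k2 β s' b1 b2 (E2C k β hb) (by rw [add_zero]; exact hwin j hj) k' k1' k2'
    rw [add_zero, zero_add] at t3
    exact ⟨τ, t1, t2, C2E _ _ (lt_of_le_of_lt t3 he)⟩
  · obtain ⟨τ, t1, t2, t3⟩ := M.secR j hj k k1 k2 β s' b1 b2 (E2C k β hb) (by rw [add_zero]; exact hwin j hj) k' k1' k2'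
    rw [add_zero, zero_add] at t3
    exact ⟨τ, t1, t2, C2E _ _ (lt_of_le_of_lt t3 he)⟩

theorem pvxi_conj_exp (τ : ℝ) : (starRingEnd ℂ) (Complex.exp ((τ : ℂ) * Complex.I)) = Complex.exp (((-τ : ℝ) : ℂ) * Complex.I) := by
  rw [← Complex.exp_conj]
  congr 1
  simp

/-- a gap of four marks is shorter than a full turn -/
theorem pvxi_gap {α : ℕ → ℝ} {g0 : ℝ} (hα : ∀ j, j < 4 → α j + g0 ≤ α (j + 1)) (hper : α 4 = α 0 + 2 * Real.pi) (j : ℕ) (hj : j < 4) :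
    α (j + 1) - α j ≤ 2 * Real.pi - 3 * g0 := by
  have h0 := hα 0 (by norm_num)
  have h1 := hα 1 (by norm_num)
  have h2 := hα 2 (by norm_num)
  have h3 := hα 3 (by norm_num)
  norm_num at h0 h1 h2 h3
  interval_cases j <;> norm_num <;> linarith

/-- **MARKS, ARCS, SECTORS OF THE OUTER CIRCUIT OF A SOFT DISC, IN THE PLANE**.      For every output tolerance `t` there are an input tolerance `s` and a mesh `μ0` such that the circuit carries four marks,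
for the boundary curve `τ ↦ Φ⁻¹(e^{iτ})` and the parameters `α`, or for the reversed curve `τ ↦ Φ⁻¹(e^{-iτ})` and the parameters `α'`. -/
theorem pvxi_marks {K : Set ℂ} {Φ : ℂ → ℂ} (H : PvxmDisc K Φ) {α α' : ℕ → ℝ} {g0 : ℝ} (hg0 : 0 < g0) (hα : ∀ j, j < 4 → α j + g0 ≤ α (j + 1)) (hper : α 4 = α 0 + 2 * Real.pi)
    (hα' : ∀ j, j < 4 → α' j + g0 ≤ α' (j + 1)) (hper' : α' 4 = α' 0 + 2 * Real.pi) {t : ℝ} (ht : 0 < t) :
    ∃ s : ℝ, 0 < s ∧ ∃ μ0 : ℝ, 0 < μ0 ∧ μ0 ≤ 1 / 8 ∧ ∀ μ : ℝ, 0 ≤ μ → μ ≤ μ0 → ∀ (B Y : Set ℂ) (h : DelGood Y), {z | infDist z K ≤ 1} ⊆ B → VorDense Y B μ →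
      ∀ c : (delPl h).toMap.Cyc, PvgRim h K c →
        (∃ m : ℕ → ℕ, PvxiMarks h c (pvxiGam K Φ) α m s t) ∨ (∃ m : ℕ → ℕ, PvxiMarks h c (fun τ => pvxiGam K Φ (-τ)) α' m s t) := by
  have hπ := Real.pi_pos
  have hπ4 := Real.pi_le_four
  obtain ⟨e1, he1, hinv⟩ := H.mod_inv (t := t / 2) (by linarith)
  set e : ℝ := min (min e1 g0) (1 / 4) with he
  have he0 : 0 < e := by positivity
  have hee1 : e ≤ e1 := (min_le_left _ _).trans (min_le_left _ _)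
  have heg : e ≤ g0 := (min_le_left _ _).trans (min_le_right _ _)
  have he4 : e ≤ 1 / 4 := min_le_right _ _
  obtain ⟨s2, hs2, hmod⟩ := H.mod (t := e / 4) (by linarith)
  have hom : 0 < e / 1696 := by positivity
  obtain ⟨μ0, hμ0, hμ8, hmain⟩ := pvxi_main H hom (r0 := min (s2 / 2) (t / 2)) (by positivity)
  refine ⟨s2 / 2, by linarith, μ0, hμ0, hμ8, ?_⟩
  intro μ hμ hμle B Y h hB hd c hc
  obtain ⟨hin, hdense, hloc⟩ := hmain μ hμ hμle B Y h hB hd c hc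
  have hT := delp_isSph h
  have hδ : 64 * (0 : ℝ) + 424 * (e / 1696) = e / 4 := by ring
  have hx : ∀ k, dist ((delPl h).toMap.src (c.e k) : ℂ) (pvxiPt K Y ((delPl h).toMap.src (c.e k) : ℂ)) < min (s2 / 2) (t / 2) :=
    fun k => hloc _ ⟨c.e k, (pl_jordan hT c).2.1 k, rfl⟩
  have hptK : ∀ v : ℂ, pvxiPt K Y v ∈ K := fun v => pvxi_pt_mem H.cpt H.nonempty
  have hexp : ∀ τ : ℝ, ‖Complex.exp ((τ : ℂ) * Complex.I)‖ ≤ 1 := fun τ => (Complex.norm_exp_ofReal_mul_I τ).le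
  -- chart to plane, plane to chart
  have C2E : ∀ k (τ : ℝ), ‖pvxiG K Φ Y ((delPl h).toMap.src (c.e k)) - Complex.exp ((τ : ℂ) * Complex.I)‖ < e1 → ‖((delPl h).toMap.src (c.e k) : ℂ) - pvxiGam K Φ τ‖ < t := by
    intro k τ hk
    have h1 := hinv _ (mem_closedBall_zero_iff.2 (H.norm_le (hptK ((delPl h).toMap.src (c.e k) : ℂ)))) _ (mem_closedBall_zero_iff.2 (hexp τ)) (by rw [dist_eq_norm]; exact hk)
    rw [H.inv_phi (hptK _)] at h1
    have h2 := dist_triangle ((delPl h).toMap.src (c.e k) : ℂ) (pvxiPt K Y ((delPl h).toMap.src (c.e k) : ℂ)) (pvxiGam K Φ τ)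
    have h3 := lt_of_lt_of_le (hx k) (min_le_right _ _)
    rw [← dist_eq_norm]
    unfold pvxiGam at h2 ⊢
    linarith
  have E2C : ∀ k (β : ℝ), ‖((delPl h).toMap.src (c.e k) : ℂ) - pvxiGam K Φ β‖ < s2 / 2 → ‖pvxiG K Φ Y ((delPl h).toMap.src (c.e k)) - Complex.exp ((β : ℂ) * Complex.I)‖ ≤ e / 4 := by
    intro k β hk
    have h3 := lt_of_lt_of_le (hx k) (min_le_left _ _)
    have h2 := dist_triangle (pvxiPt K Y ((delPl h).toMap.src (c.e k) : ℂ)) ((delPl h).toMap.src (c.e k) : ℂ) (pvxiGam K Φ β)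
    have e1' := dist_comm (pvxiPt K Y ((delPl h).toMap.src (c.e k) : ℂ)) ((delPl h).toMap.src (c.e k) : ℂ)
    rw [← dist_eq_norm] at hk
    have h4 := hmod _ (hptK _) _ (H.inv_mem (hexp β)) (by unfold pvxiGam at h2 hk; linarith)
    rw [H.phi_inv (hexp β), dist_eq_norm] at h4
    exact h4.le
  have num : Real.pi / 2 * (e / 4) + e / 4 < e1 := by nlinarith
  have win : ∀ {a : ℕ → ℝ}, (∀ j, j < 4 → a j + g0 ≤ a (j + 1)) → a 4 = a 0 + 2 * Real.pi → ∀ j, j < 4 → a (j + 1) - a j + e / 4 + Real.pi / 2 * (e / 4) < 2 * Real.pi := by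
    intro a h1 h2 j hj
    have := pvxi_gap h1 h2 j hj
    nlinarith
  rcases pvxf_main hT hin hom (by rw [hδ]; linarith) (dn := e / 1696) (by linarith) hdense (α := α) (α' := α')
    (fun j hj => by rw [hδ]; linarith [hα j hj]) hper (fun j hj => by rw [hδ]; linarith [hα' j hj]) hper' with ⟨m, M⟩ | ⟨m, M⟩
  · rw [hδ] at M
    exact Or.inl ⟨m, pvxi_marks_of M (by linarith) (by linarith) num (win hα hper) C2E E2C⟩
  · rw [hδ] at M
    refine Or.inr ⟨m, pvxi_marks_of M (by linarith) (by linarith) num (win hα' hper') (fun k τ hk => C2E k (-τ) ?_) (fun k β hk => ?_)⟩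
    · rw [← pvxf_norm_conj, Complex.conj_conj, pvxi_conj_exp] at hk
      exact hk
    · rw [← pvxf_norm_conj, Complex.conj_conj, pvxi_conj_exp]
      exact E2C k (-β) hk

end Claimed.Agent.R289
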