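import Claimed.Agent.R289.Mix.Tol
import Claimed.Agent.R289.Mix.Exit
import Claimed.Agent.R289.Exit.Inst
import Claimed.Agent.R289.Defs.Nice
import Claimed.Agent.R289.Obs.Ev

/-!
# Row 289 (S0537), unit EXT, ROAD 2 = MIX, file Mix/Main : `pvzm_lower : PvTransport → PvLower`      (helper246, ruling MIX of helper243 09:26Z; prefix `pvzm_`, defs `Pvzm*`)

IDEA: Sec. 8 (OBS) is run ON THE WILD QUAD ITSELF.   `pvo_exit` (`Obs/Abs.lean`), `PvoFam.Good`, `PvoGuard`, `𝔇.sys` are chart-agnostic;  the analytic chart was used only to BUILD the discrete disc.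
The SOFT DISC: `Ψ = h.disc`, `Z0 = Ψ '' (arcL ∪ arcR)`, `χ = 0` within `κ` of `Z0`, `= 1` beyond `2κ`, `K(δ) = {z ∈ closure D : ‖Ψ z‖ ≤ 1 - δ χ(Ψ z/‖Ψ z‖)}`, `Φ = Ψ/(1 - δ χ)` : a homeomorphism `K(δ) → closedBall 0 1`.
The discrete disc = the sites inside the outer circuit of `vorMeet Y K(δ)`:  it STICKS OUT of `D` along the two arcs of the crossing and stays INSIDE `D` (depth `c(δ)`) along the two free arcs.
So a black vertex crossing of the discrete disc starts and ends at sites `∉ D` and its cells leave `D` only near the two arcs (record `PvzmOut`):   clipping gives a fat crossing of `closure D` with a Euclidean tolerance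
on the position of its end points (`PvFatTol`),   absorbed by a change of marks (`Mix/Tol.lean`, 0 sorry).

    PvTransport ⟹(`pvzm_fat`, compiled glue HERE)⟹ PvLowerFat ⟹(`pvxt_lower_fat`, Mix/Tol, 0 sorry)⟹ PvLower

CONTRACTS (sorried here, owners in brackets):
 * `PvzmDiscAll` (now a HYPOTHESIS of `pvzm_lower`: ROAD STOPPED, file floating, 0 sorry)  [DISC of the road: 262 Soft, 45 Topo, 17 + 148 Ord, 297 Rec, assembly pen]   `∃ 𝔇, PvzmWhp 𝔇 D d ψ x` for a `PvChart`;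
 * `pvzm_det`        [104 + 10, Mix/Exit]   black chain of sites with cells in `D ∪ nbhd of the arcs`, ends `∉ D` near the arcs ⟹ `PvFatTol`;
 * `pvzm_arm pvzm_bd pvzm_geo pvzm_cr`   = `pvoj_arm pvoj_bd pvoj_geo pvoj_cr` for a `PvChart` (their proofs use `PvAn` only through `toPvChart` / `isOpen`).
-/

set_option autoImplicit false

namespace Claimed.Agent.R289

open MeasureTheory ProbabilityTheory Set Filter Topology Claims.C0465 Relation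
open scoped ContDiff ENNReal

/-! ## 1. the record OUT, the guard: defs `pvzmW PvzmOut PvzmWhp PvzmGuard`, `PvzmOut.mono` are in `Mix/Tol.lean` sec. 9 (so that the owners of the contracts import them) -/

/-- **GUARD** (diagonal choice of the level: the proof of `pvoj_guard` with `Good ∧ Out`) -/
theorem pvzm_guard {𝔇 : PvoFam} {D : Set ℂ} {d : ℂ} {ψ : ℂ → ℂ} {x : ℝ} (hW : PvzmWhp 𝔇 D d ψ x) {εs : ℕ → ℝ} (h0 : ∀ k, 0 < εs k)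
    (h1 : Tendsto εs atTop (𝓝 0)) (𝒜 : ℝ → Set PvGeoT) (hA : ∀ ε : ℝ, 0 < ε → pvGeo ε (𝒜 ε)ᶜ = 0) :
    ∃ 𝒯 : ℕ → Set PvGeoT, PvzmGuard 𝔇 D d ψ x εs 𝒯 ∧ ∀ k, 𝒯 k ⊆ 𝒜 (εs k) := by
  classical
  have hpos : ∀ m : ℕ, (0 : ℝ) < 1 / ((m : ℝ) + 1) := fun m => by positivity
  choose s hs hlim using fun m : ℕ => hW (1 / ((m : ℝ) + 1)) (hpos m)
  have hε : Tendsto εs atTop (𝓝[>] 0) := tendsto_nhdsWithin_iff.2 ⟨h1, Eventually.of_forall h0⟩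
  set bad : ℕ → Set PvGeoT := fun m => {g | ¬ (𝔇.Good D d ψ x (pvgSites g) (s m) (1 / ((m : ℝ) + 1)) ∧ PvzmOut 𝔇 D d ψ x (pvgSites g) (1 / ((m : ℝ) + 1)))} with hbad
  have hB : ∀ m, Tendsto (fun k => pvGeo (εs k) (bad m)) atTop (𝓝 0) := fun m => (hlim m).comp hε
  set Pk : ℕ → ℕ → Prop := fun k M => ∀ m ≤ M, pvGeo (εs k) (bad m) ≤ (((M : ℝ≥0∞) + 1) ^ 2)⁻¹ with hPk
  set M : ℕ → ℕ := fun k => Nat.findGreatest (Pk k) k with hM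
  have hP0 : ∀ k, Pk k 0 := by
    intro k m _
    simpa using prob_le_one (μ := pvGeo (εs k)) (s := bad m)
  have hPM : ∀ k, Pk k (M k) := fun k => Nat.findGreatest_spec (P := Pk k) (Nat.zero_le k) (hP0 k)
  have hMinf : Tendsto M atTop atTop := by
    refine tendsto_atTop.2 fun M0 => ?_
    have hev : ∀ᶠ k in atTop, ∀ m ∈ Finset.range (M0 + 1), pvGeo (εs k) (bad m) ≤ (((M0 : ℝ≥0∞) + 1) ^ 2)⁻¹ := by
      rw [Filter.eventually_all_finset]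
      intro m _
      refine (hB m).eventually (ge_mem_nhds ?_)
      refine ENNReal.inv_pos.2 (ENNReal.pow_ne_top ?_)
      exact ENNReal.add_ne_top.2 ⟨ENNReal.natCast_ne_top _, ENNReal.one_ne_top⟩
    filter_upwards [hev, eventually_ge_atTop M0] with k hk hk0
    exact Nat.le_findGreatest hk0 fun m hm => hk m (Finset.mem_range.2 (Nat.lt_succ_of_le hm))
  refine ⟨fun k => 𝒜 (εs k) ∩ {g | PvgOk g} ∩ ⋂ m ∈ Finset.range (M k + 1), (bad m)ᶜ, ⟨⟨h0, h1, ?_, ?_, ?_⟩, ?_⟩, fun k g hg => hg.1.1⟩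
  · intro k g hg
    refine ⟨hg.1.2, ?_⟩
    have h2 := mem_iInter₂.1 hg.2 0 (Finset.mem_range.2 (Nat.succ_pos _))
    have h3 : 𝔇.Good D d ψ x (pvgSites g) (s 0) (1 / (((0 : ℕ) : ℝ) + 1)) := (not_not.1 h2).1
    exact pvoj_ok_empty h3.ok
  · intro t ht
    obtain ⟨m, hm⟩ := exists_nat_one_div_lt ht
    refine ⟨s m, hs m, ?_⟩
    filter_upwards [hMinf.eventually_ge_atTop m] with k hk g hg
    have h2 := mem_iInter₂.1 hg.2 m (Finset.mem_range.2 (Nat.lt_succ_of_le hk))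
    have h3 : 𝔇.Good D d ψ x (pvgSites g) (s m) (1 / ((m : ℝ) + 1)) := (not_not.1 h2).1
    exact h3.mono hm.le
  · have hlim0 : Tendsto (fun k => (((M k + 1 : ℕ) : ℝ≥0∞))⁻¹) atTop (𝓝 0) :=
      ENNReal.tendsto_inv_nat_nhds_zero.comp ((tendsto_add_atTop_iff_nat 1).2 tendsto_id |>.comp hMinf)
    refine tendsto_of_tendsto_of_tendsto_of_le_of_le tendsto_const_nhds hlim0 (fun _ => zero_le) (fun k => ?_)
    have hsub : (𝒜 (εs k) ∩ {g | PvgOk g} ∩ ⋂ m ∈ Finset.range (M k + 1), (bad m)ᶜ)ᶜ ⊆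
        ((𝒜 (εs k))ᶜ ∪ {g | PvgOk g}ᶜ) ∪ ⋃ m ∈ Finset.range (M k + 1), bad m := by
      intro g hg
      by_contra hcon
      rw [mem_union, mem_union, not_or, not_or] at hcon
      apply hg
      refine ⟨⟨not_not.1 hcon.1.1, not_not.1 hcon.1.2⟩, mem_iInter₂.2 fun m hm hgm => hcon.2 (mem_iUnion₂.2 ⟨m, hm, hgm⟩)⟩
    have e1 : pvGeo (εs k) (𝒜 (εs k))ᶜ = 0 := hA _ (h0 k)
    have e2 : pvGeo (εs k) {g | PvgOk g}ᶜ = 0 := pvqu_ok_ae (εs k)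
    have e3 : pvGeo (εs k) (⋃ m ∈ Finset.range (M k + 1), bad m) ≤ ∑ m ∈ Finset.range (M k + 1), (((M k : ℝ≥0∞) + 1) ^ 2)⁻¹ :=
      (measure_biUnion_finset_le _ _).trans (Finset.sum_le_sum fun m hm => hPM k m (Nat.lt_succ_iff.1 (Finset.mem_range.1 hm)))
    calc pvGeo (εs k) (𝒜 (εs k) ∩ {g | PvgOk g} ∩ ⋂ m ∈ Finset.range (M k + 1), (bad m)ᶜ)ᶜ
        ≤ pvGeo (εs k) (((𝒜 (εs k))ᶜ ∪ {g | PvgOk g}ᶜ) ∪ ⋃ m ∈ Finset.range (M k + 1), bad m) := measure_mono hsub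
      _ ≤ (pvGeo (εs k) (𝒜 (εs k))ᶜ + pvGeo (εs k) {g | PvgOk g}ᶜ) + pvGeo (εs k) (⋃ m ∈ Finset.range (M k + 1), bad m) :=
          (measure_union_le _ _).trans (add_le_add (measure_union_le _ _) le_rfl)
      _ ≤ ∑ m ∈ Finset.range (M k + 1), (((M k : ℝ≥0∞) + 1) ^ 2)⁻¹ := by rw [e1, e2, zero_add, zero_add]; exact e3
      _ = (((M k + 1 : ℕ) : ℝ≥0∞))⁻¹ := by
          rw [Finset.sum_const, Finset.card_range, nsmul_eq_mul]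
          push_cast
          have hne : ((M k : ℝ≥0∞) + 1) ≠ 0 := by simp
          have hnt : ((M k : ℝ≥0∞) + 1) ≠ ⊤ := ENNReal.add_ne_top.2 ⟨ENNReal.natCast_ne_top _, ENNReal.one_ne_top⟩
          rw [sq, ENNReal.mul_inv (Or.inl hne) (Or.inl hnt), ← mul_assoc, ENNReal.mul_inv_cancel hne hnt, one_mul]
  · intro t ht
    obtain ⟨m, hm⟩ := exists_nat_one_div_lt ht
    filter_upwards [hMinf.eventually_ge_atTop m] with k hk g hg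
    have h2 := mem_iInter₂.1 hg.2 m (Finset.mem_range.2 (Nat.lt_succ_of_le hk))
    have h3 : PvzmOut 𝔇 D d ψ x (pvgSites g) (1 / ((m : ℝ) + 1)) := (not_not.1 h2).2
    exact h3.mono hm.le

/-! ## 2. the contracts -/

/-- **DISC of the road MIX** (HYPOTHESIS: the road was stopped at 10:13Z by order of 243, EXT road 1 closed first): the soft discrete disc of a WILD quad -/
def PvzmDiscAll : Prop :=
  ∀ (D : Set ℂ) (d : ℂ) (ψ : ℂ → ℂ), PvChart D d ψ → ∀ x : ℝ, 0 < x → x < 1 → ∃ 𝔇 : PvoFam, PvzmWhp 𝔇 D d ψ x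

theorem pvzm_eqns_cite2 : True := by
  have := @PvzmDiscAll.eq_1
  trivial

/-- **DET-EXIT** (104 + 10, `Mix/Exit.lean`): polygon through the cells of the chain (`dels_chain`), clipped between its last visit of `Dᶜ` near `arcL` and the next visit of `Dᶜ` (near `arcR`) -/
theorem pvzm_det {D : Set ℂ} {d : ℂ} {ψ : ℂ → ℂ} (h : PvChart D d ψ) {x : ℝ} (hx0 : 0 < x) (hx1 : x < 1) {r : ℝ} (hr : 0 < r) :
    ∃ t0 : ℝ, 0 < t0 ∧ ∀ t : ℝ, 0 < t → t ≤ t0 → ∀ (g : PvGeoT) (c : PvColT), PvgOk g → ∀ u v : ℂ, u ∉ D → v ∉ D →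
      u ∈ Metric.thickening t (pvArcL D d ψ x) → v ∈ Metric.thickening t (pvArcR D d ψ) → PvBk (pvConf (pvMerge (g, c))) (pvzmW D d ψ x t (pvgSites g)) u →
      ReflTransGen (fun a b => PvBk (pvConf (pvMerge (g, c))) (pvzmW D d ψ x t (pvgSites g)) b ∧ DelAdj (pvgSites g) a b) u v →
      PvFatTol D d ψ x r (pvMerge (g, c)) :=
  pvxme_det h hx1 hr

/-- **J-ARM for a chart** (= `pvaj_arm` of 66: uses `h.toPvChart` only) -/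
theorem pvzm_arm {D : Set ℂ} {d : ℂ} {ψ : ℂ → ℂ} (h : PvChart D d ψ) {x : ℝ} (hx0 : 0 < x) (hx1 : x < 1) {a c : ℂ} (ha : a ∈ frontier D) (hc : c ∈ frontier D)
    (had : a ≠ d) (hcd : c ≠ d) (hψa : ψ a = 0) (hψc : ψ c = 1) {𝔇 : PvoFam} {εs : ℕ → ℝ} {𝒯 : ℕ → Set PvGeoT} (hG : PvoGuard 𝔇 D d ψ x εs 𝒯) :
    PvoArm (𝔇.sys D ψ εs 𝒯) (closure D \ {a, c, d}) :=
  pvoj_arm h hx0 hx1 ha hc had hcd hψa hψc hG

/-- **J-BD for a chart** (side lines; 182 145: uses `h.isOpen` only) -/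
theorem pvzm_bd {D : Set ℂ} {d : ℂ} {ψ : ℂ → ℂ} (h : PvChart D d ψ) {x : ℝ} (hx0 : 0 < x) (hx1 : x < 1) {b : ℂ} (hb : b ∈ frontier D) (hbd : b ≠ d) (hψb : ψ b = x)
    {𝔇 : PvoFam} {εs : ℕ → ℝ} {𝒯 : ℕ → Set PvGeoT} (hG : PvoGuard 𝔇 D d ψ x εs 𝒯) :
    PvoBd (𝔇.sys D ψ εs 𝒯) D d ψ 1 pvOm b (fun k => pvomR (pvGeo (εs k)) (fun g => 𝔇.Pc (pvgSites g) (𝔇.probe D ψ (pvgSites g) b))) :=
  pvojb_bd h.isOpen hx0 hx1 hb hbd hψb hG

/-- **J-GEO for a chart** (199) -/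
theorem pvzm_geo : ∃ 𝒜 : ℝ → Set PvGeoT, (∀ ε : ℝ, 0 < ε → pvGeo ε (𝒜 ε)ᶜ = 0) ∧
    ∀ {D : Set ℂ} {d : ℂ} {ψ : ℂ → ℂ}, PvChart D d ψ → ∀ {x : ℝ} {𝔇 : PvoFam} {εs : ℕ → ℝ} {𝒯 : ℕ → Set PvGeoT}, PvoGuard 𝔇 D d ψ x εs 𝒯 → (∀ k, 𝒯 k ⊆ 𝒜 (εs k)) →
      ∀ f : ℂ → ℝ, PvoTest D f → (PvoCrLim (𝔇.sys D ψ εs 𝒯) f → PvoCR (𝔇.sys D ψ εs 𝒯) (2 * Complex.I) f) ∧
        (PvoCrLim (𝔇.sys D ψ εs 𝒯).conj f → PvoCR (𝔇.sys D ψ εs 𝒯).conj (2 * Complex.I) f) :=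
  pvoj_geo

/-- **J-CR for a chart** (= `pvoj_cr`: uses `pvoj_depth` only) -/
theorem pvzm_cr (hT : PvCR) {D : Set ℂ} {d : ℂ} {ψ : ℂ → ℂ} (h : PvChart D d ψ) {x : ℝ} {𝔇 : PvoFam} {εs : ℕ → ℝ} {𝒯 : ℕ → Set PvGeoT}
    (hG : PvoGuard 𝔇 D d ψ x εs 𝒯) :
    ∃ ms : ℕ → ℕ, StrictMono ms ∧ ((∀ f : ℂ → ℝ, PvoTest D f → PvoCrLim (𝔇.sys D ψ (εs ∘ ms) (𝒯 ∘ ms)) f) ∨
      (∀ f : ℂ → ℝ, PvoTest D f → PvoCrLim (𝔇.sys D ψ (εs ∘ ms) (𝒯 ∘ ms)).conj f)) :=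
  pvoj_cr hT h hG

/-! ## 3. the exit event -/

/-- **`XB` at the reversed canonical probe ⟹ a black chain of sites, ends outside `D` near the two arcs, cells inside `D` up to the neighbourhoods of the arcs** -/
theorem pvzm_ev_of_xb {𝔇 : PvoFam} {D : Set ℂ} {d : ℂ} {ψ : ℂ → ℂ} {x : ℝ} {Y : Set ℂ} {s t : ℝ} (hG : 𝔇.Good D d ψ x Y s t) (hO : PvzmOut 𝔇 D d ψ x Y t)
    {b : ℂ} (hb : b ∈ frontier D) (hbd : b ≠ d) (hψb : ψ b = x) {a : ℂ} (he0 : (𝔇 Y).lab ((𝔇 Y).T.src ((𝔇 Y).T.opp (𝔇.probe D ψ Y b))) = Sum.inr 0)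
    (hea : (𝔇 Y).lab ((𝔇 Y).T.tgt ((𝔇 Y).T.opp (𝔇.probe D ψ Y b))) = Sum.inl a) (hab : ‖a - b‖ < s) {σ : (𝔇 Y).V → Bool}
    (hx : (𝔇 Y).T.XB (𝔇 Y).q ((𝔇 Y).T.opp (𝔇.probe D ψ Y b)) ((𝔇 Y).T.dcol (𝔇 Y).q σ true)) {η : Conf PvPt}
    (hcol : ∀ v p, (𝔇 Y).lab v = Sum.inl p → σ v = true → (p, true) ∈ η.pts) :
    ∃ u v : ℂ, u ∉ D ∧ v ∉ D ∧ u ∈ Metric.thickening t (pvArcL D d ψ x) ∧ v ∈ Metric.thickening t (pvArcR D d ψ) ∧ PvBk η (pvzmW D d ψ x t Y) u ∧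
      ReflTransGen (fun a b => PvBk η (pvzmW D d ψ x t Y) b ∧ DelAdj Y a b) u v := by
  obtain ⟨e', he', y, hy, hj0, hj⟩ := hx
  obtain ⟨a', ha'⟩ := pvev_site hG hj0.1 hj0.2.1 hj0.2.2.1
  have key : ∀ z, ReflTransGen (fun u v => (𝔇 Y).T.EdgeIn Set.univ u v ∧ v ∈ (𝔇 Y).T.dcol (𝔇 Y).q σ true) ((𝔇 Y).T.tgt e') z →
      ∃ pz : ℂ, (𝔇 Y).lab z = Sum.inl pz ∧ ReflTransGen (fun a b => PvBk η (pvzmW D d ψ x t Y) b ∧ DelAdj Y a b) a' pz := by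
    intro z hz
    induction hz with
    | refl => exact ⟨a', ha', ReflTransGen.refl⟩
    | tail _ hstep ih =>
      obtain ⟨pz, hpz, hr⟩ := ih
      obtain ⟨⟨d0, -, hs0, ht0⟩, hX⟩ := hstep
      obtain ⟨pw, hpw⟩ := pvev_site hG hX.1 hX.2.1 hX.2.2.1
      refine ⟨pw, hpw, hr.tail ⟨⟨hcol _ pw hpw hX.2.2.2, hO.cellIn _ pw hpw⟩, ?_⟩⟩
      exact (hG.adj d0 pz pw (by rw [hs0]; exact hpz) (by rw [ht0]; exact hpw)).1
  obtain ⟨py, hpy, hr⟩ := key y hj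
  obtain ⟨d1, hs1, ht1⟩ := hy
  refine ⟨a', py, hO.secOut b hb hbd hψb e' he' a' ha', hO.arcOut d1 py (by rw [hs1]; exact hpy) (by rw [ht1]; exact hG.cl1),
    hG.sec b hb hbd hψb _ a he0 hea hab e' he' a' ha', ?_, ⟨hcol _ a' ha' hj0.2.2.2, hO.cellIn _ a' ha'⟩, hr⟩
  exact Metric.thickening_subset_of_subset t (pvev_arc_one D d ψ) (hG.arc d1 py 1 (by rw [hs1]; exact hpy) (by rw [ht1]; exact hG.cl1))

/-- **(Q) of the road MIX**: the quenched coefficient of `w1` at the canonical probe of `b` is at most the quenched probability of ANY set containing the fat tolerant crossings -/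
theorem pvzm_quench {𝔇 : PvoFam} {D : Set ℂ} {d : ℂ} {ψ : ℂ → ℂ} {x : ℝ} {g : PvGeoT} {s s' t r : ℝ} (hD : IsOpen D) (hx0 : 0 < x) (hx1 : x < 1)
    {b : ℂ} (hb : b ∈ frontier D) (hbd : b ≠ d) (hψb : ψ b = x)
    (hG : 𝔇.Good D d ψ x (pvgSites g) s t) (hG' : 𝔇.Good D d ψ x (pvgSites g) s' s) (hO : PvzmOut 𝔇 D d ψ x (pvgSites g) t)
    (hdet : ∀ (c : PvColT), ∀ u v : ℂ, u ∉ D → v ∉ D →
      u ∈ Metric.thickening t (pvArcL D d ψ x) → v ∈ Metric.thickening t (pvArcR D d ψ) → PvBk (pvConf (pvMerge (g, c))) (pvzmW D d ψ x t (pvgSites g)) u →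
      ReflTransGen (fun a b => PvBk (pvConf (pvMerge (g, c))) (pvzmW D d ψ x t (pvgSites g)) b ∧ DelAdj (pvgSites g) a b) u v →
      PvFatTol D d ψ x r (pvMerge (g, c)))
    {T : Set PVSample} (hT : {o | PvFatTol D d ψ x r o} ⊆ T) :
    𝔇.Pc (pvgSites g) (𝔇.probe D ψ (pvgSites g) b) ≤ pvQr T g := by
  classical
  have hbD : b ∉ D := by
    rw [hD.frontier_eq] at hb
    exact hb.2
  have hre : (ψ b).re = x := by rw [hψb]; simp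
  have hix : pvoArcIx ψ b = 0 := by
    unfold pvoArcIx
    rw [hre, if_neg (not_lt.2 hx0.le), if_pos hx1.le]
  have hbarc : b ∈ pvoArc D d ψ (pvoArcIx ψ b) := by
    rw [hix]
    exact Or.inr ⟨hb, hbd, Or.inl ⟨rfl, by rw [hre]; exact hx0.le, by rw [hre]; exact hx1.le⟩⟩
  obtain ⟨a, ha, hh, hab⟩ := pvev_probe_bd hG' hbD hbarc
  rw [hix] at hh
  set Y := pvgSites g with hY
  set e := 𝔇.probe D ψ Y b with he
  let _ := (𝔇 Y).fV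
  have : Finite (𝔇 Y).D := @Finite.of_fintype _ (𝔇 Y).fD
  have hinj : Function.Injective (𝔇 Y).lab := hG.ok.inj
  have hsph : (𝔇 Y).T.IsSph := hG.ok.sph
  have hsim : (𝔇 Y).T.Simple := hG.ok.simple
  have h1 : (𝔇 Y).T.src ((𝔇 Y).T.opp e) = (𝔇 Y).T.src (𝔇 Y).q := by
    rw [(𝔇 Y).T.src_opp']
    exact hinj (hh.trans hG.cl0.symm)
  have h3 : (𝔇 Y).T.opp e ≠ (𝔇 Y).T.rot (𝔇 Y).q := by
    intro h
    have h4 := congrArg (fun z => (𝔇 Y).lab ((𝔇 Y).T.tgt z)) h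
    simp only [(𝔇 Y).T.tgt_opp, (𝔇 Y).T.tgt_rot] at h4
    rw [ha, hG.cl1] at h4
    cases h4
  have hcr := pv82_cross_le hsph hsim h1 h3
  rw [pv82_N_opp] at hcr
  have hcnt := pvev_count hG.ok {σ | (𝔇 Y).T.XB (𝔇 Y).q ((𝔇 Y).T.opp e) ((𝔇 Y).T.dcol (𝔇 Y).q σ true)} T (fun σ hσ c hc => by
      obtain ⟨u, v, hu, hv, hul, hvr, hbk, hr⟩ := pvzm_ev_of_xb hG hO hb hbd hψb (by rw [(𝔇 Y).T.src_opp']; exact hh) (by rw [(𝔇 Y).T.tgt_opp]; exact ha) hab hσ hc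
      exact hT (hdet c u v hu hv hul hvr hbk hr))
  refine le_trans ?_ hcnt
  have hcard : ({σ | (𝔇 Y).T.XB (𝔇 Y).q ((𝔇 Y).T.opp e) ((𝔇 Y).T.dcol (𝔇 Y).q σ true)} : Set ((𝔇 Y).V → Bool)).ncard
      = (Finset.univ.filter fun σ : (𝔇 Y).V → Bool => (𝔇 Y).T.XB (𝔇 Y).q ((𝔇 Y).T.opp e) ((𝔇 Y).T.dcol (𝔇 Y).q σ true)).card := by
    rw [← Set.ncard_coe_finset]
    congr 1
    ext σ
    simp
  rw [hcard]
  show (𝔇 Y).T.obsP ((𝔇 Y).T.nxt ((𝔇 Y).T.nxt (𝔇 Y).q)) e ≤ _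
  unfold PvMap.obsP
  refine div_le_div_of_nonneg_right ?_ (by positivity)
  have : (4 * (𝔇 Y).T.obsN ((𝔇 Y).T.nxt ((𝔇 Y).T.nxt (𝔇 Y).q)) e : ℕ)
      ≤ (Finset.univ.filter fun σ : (𝔇 Y).V → Bool => (𝔇 Y).T.XB (𝔇 Y).q ((𝔇 Y).T.opp e) ((𝔇 Y).T.dcol (𝔇 Y).q σ true)).card := by
    convert hcr
  exact_mod_cast this

/-- **(E) of the road MIX** -/
theorem pvzm_ev {D : Set ℂ} {d : ℂ} {ψ : ℂ → ℂ} (h : PvChart D d ψ) {x : ℝ} (hx0 : 0 < x) (hx1 : x < 1) {b : ℂ} (hb : b ∈ frontier D) (hbd : b ≠ d) (hψb : ψ b = x)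
    {𝔇 : PvoFam} {εs : ℕ → ℝ} {𝒯 : ℕ → Set PvGeoT} (hG : PvzmGuard 𝔇 D d ψ x εs 𝒯) {r : ℝ} (hr : 0 < r)
    {T : Set PVSample} (hTm : MeasurableSet T) (hT : {o | PvFatTol D d ψ x r o} ⊆ T) :
    ∃ q : ℕ → ℝ, Tendsto q atTop (𝓝 0) ∧
      ∀ k, pvomR (pvGeo (εs k)) (fun g => 𝔇.Pc (pvgSites g) (𝔇.probe D ψ (pvgSites g) b)) ≤ (pvLaw (εs k) T).toReal + q k := by
  classical
  obtain ⟨t0, ht0, hdet⟩ := pvzm_det h hx0 hx1 hr
  obtain ⟨s, hs, hk⟩ := hG.gd.good t0 ht0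
  obtain ⟨s', hs', hk'⟩ := hG.gd.good s hs
  have hko := hG.out t0 ht0
  set B : ℕ → Set PvGeoT := fun k => {g | ¬ (PvgOk g ∧ 𝔇.Good D d ψ x (pvgSites g) s t0 ∧ 𝔇.Good D d ψ x (pvgSites g) s' s ∧ PvzmOut 𝔇 D d ψ x (pvgSites g) t0)} with hB
  have hBlim : Tendsto (fun k => pvGeo (εs k) (B k)) atTop (𝓝 0) := by
    refine tendsto_of_tendsto_of_tendsto_of_le_of_le' tendsto_const_nhds hG.gd.prob (Eventually.of_forall fun _ => zero_le) ?_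
    filter_upwards [hk, hk', hko] with k h1 h2 h3
    exact measure_mono fun g hg hgT => hg ⟨(hG.gd.ok k g hgT).1, h1 g hgT, h2 g hgT, h3 g hgT⟩
  refine ⟨fun k => (pvGeo (εs k) (B k)).toReal, (ENNReal.tendsto_toReal ENNReal.zero_ne_top).comp hBlim, fun k => ?_⟩
  refine pvok_link (εs k) hTm (fun g => pvev_Pc_abs _ _ _) (fun g hg => ?_)
  have hg' : PvgOk g ∧ 𝔇.Good D d ψ x (pvgSites g) s t0 ∧ 𝔇.Good D d ψ x (pvgSites g) s' s ∧ PvzmOut 𝔇 D d ψ x (pvgSites g) t0 := not_not.1 hg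
  exact pvzm_quench h.isOpen hx0 hx1 hb hbd hψb hg'.2.1 hg'.2.2.1 hg'.2.2.2 (fun c => hdet t0 ht0 le_rfl g c hg'.1) hT

/-! ## 4. the compiled glue -/

/-- **Sec. 8 on the wild quad** -/
theorem pvzm_fat (hT : PvTransport) (hDisc : PvzmDiscAll) : PvLowerFat := by
  intro D d ψ h x hx0 hx1 r η hr hη T hTm hTs
  by_contra hcon
  rw [Filter.not_eventually] at hcon
  obtain ⟨εs0, hεs, hbad⟩ := Filter.exists_seq_forall_of_frequently hcon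
  have hε0 : Tendsto εs0 atTop (𝓝 0) := hεs.mono_right nhdsWithin_le_nhds
  have hεpos : ∀ᶠ n in atTop, 0 < εs0 n := by
    have := hεs.eventually (eventually_mem_nhdsWithin)
    simpa using this
  obtain ⟨N, hN⟩ := eventually_atTop.1 hεpos
  set εs : ℕ → ℝ := fun n => εs0 (n + N) with hεs'
  have h1 : Tendsto εs atTop (𝓝 0) := hε0.comp (tendsto_add_atTop_nat N)
  have h0 : ∀ n, 0 < εs n := fun n => hN _ (Nat.le_add_left N n)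
  obtain ⟨a, ha, had, hψa⟩ := pvon_mark h 0
  obtain ⟨b, hb, hbd, hψb⟩ := pvon_mark h x
  obtain ⟨c, hc, hcd, hψc⟩ := pvon_mark h 1
  have hψa' : ψ a = 0 := by simpa using hψa
  have hψc' : ψ c = 1 := by simpa using hψc
  obtain ⟨𝔇, hW⟩ := hDisc D d ψ h x hx0 hx1
  obtain ⟨𝒜, hA, hgeo⟩ := pvzm_geo
  obtain ⟨𝒯, hG, hTA⟩ := pvzm_guard hW h0 h1 𝒜 hA
  obtain ⟨q, hq, hEp⟩ := pvzm_ev h hx0 hx1 hb hbd hψb hG hr hTm hTs
  have hre : (ψ b).re = x := by rw [hψb]; simp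
  have hlim := pvo_exit h ha hb hc had hbd hcd hψa' hψc' (by rw [hre]; exact ⟨hx0, hx1⟩) (𝔇.sys D ψ εs 𝒯)
    (mul_ne_zero two_ne_zero Complex.I_ne_zero) pvoj_om_ne (pvzm_arm h hx0 hx1 ha hc had hcd hψa' hψc' hG.gd) (by
      intro ns hns
      have hG1 := hG.gd.sub hns
      obtain ⟨ms, hms, halt⟩ := pvzm_cr (pvcr_main hT) h hG1
      have hG2 := hG1.sub hms.tendsto_atTop
      refine ⟨ms, hms, ?_⟩
      rcases halt with hl | hl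
      · left
        intro x0 R hR hx f hf hfc hfs
        exact (hgeo h hG2 (fun k => hTA _) f ⟨hf, hfc, x0, R, hR, hx, hfs⟩).1 (hl f ⟨hf, hfc, x0, R, hR, hx, hfs⟩)
      · right
        intro x0 R hR hx f hf hfc hfs
        exact (hgeo h hG2 (fun k => hTA _) f ⟨hf, hfc, x0, R, hR, hx, hfs⟩).2 (hl f ⟨hf, hfc, x0, R, hR, hx, hfs⟩))
    (pvzm_bd h hx0 hx1 hb hbd hψb hG.gd)
  rw [hre] at hlim
  have e1 : ∀ᶠ k in atTop, cardyF x - η / 2 < pvomR (pvGeo (εs k)) (fun g => 𝔇.Pc (pvgSites g) (𝔇.probe D ψ (pvgSites g) b)) :=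
    hlim.eventually (lt_mem_nhds (by linarith))
  have e2 : ∀ᶠ k in atTop, q k < η / 2 := hq.eventually (gt_mem_nhds (by linarith))
  obtain ⟨k, hk1, hk2⟩ := (e1.and e2).exists
  refine hbad (k + N) ?_
  have h3 : cardyF x - η ≤ (pvLaw (εs k) T).toReal := by linarith [hEp k]
  exact ENNReal.ofReal_le_of_le_toReal h3

/-- **THE EXIT OF THE ROAD MIX** (rival of `exit_pv_lower`) -/
theorem pvzm_lower (hT : PvTransport) (hDisc : PvzmDiscAll) : PvLower := pvxt_lower_fat (pvzm_fat hT hDisc)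

end Claimed.Agent.R289
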