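-- KEEP
import Claimed.Agent.R289.Mix.Fold
import Claimed.Agent.R289.Mix.Disc
import Claimed.Agent.R289.Brg.Angle
import Claimed.Agent.R289.Brg.Fit

/-!
# Row 289 (S0537), road MIX (head helper246), file Mix/Ord : FROM THE MARKS IN THE SOFT CHART TO THE FIELDS `arc densB sec` OF `PvgfRec`      (owner helper17; prefix `pvxo_`)

INPUT   `PvxfMarks c (fun v => Φ (p v)) (pvgaTh x) m th δ` (helper148, `Mix/Fold.lean`): four marks `a b c d` on the boundary cycle, all statements in the soft chart `Φ`; `p v ∈ K` = the point of the soft disc which stands for the site `v`.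
OUTPUT  `PvxoRec F D d ψ x s t` = the fields `arc`, `densB`, `sec` of `PvgfRec` (helper92, `Brg/Fit.lean`), verbatim, on the fan `F = pvxoFan … = PvFan.ofMarks T hT c hfin (m 0) (m 2) (m 3)`.
* sec.1  DICTIONARY `ψ ↔ angle` for the disc chart `Ψ = h0.disc` of ANY `PvChart` (wild boundary allowed): `pvxo_psi`, forward `pvxo_fwd_L`, `pvxo_fwd`, backward `pvxo_bwd`, `pvxo_bwd_arc`, `pvxo_b`   (trig kit of helper90, `Brg/Angle.lean`)
* sec.2  MODULI of `Ψ⁻¹` (`pvxo_pull`) and of `Ψ` (`pvxo_push`).      Nothing else is used on the soft disc than `K ⊆ closure D` and `‖Φ z - Ψ z‖ ≤ η` on `K`: the thresholds `η`, `s` depend on `(h0, t)` only, NOT on `K`, `Φ`.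
* sec.3  the fan of the marks, index calculus
* sec.4  **`pvxo_rec`**
-/

set_option autoImplicit false
set_option linter.unusedVariables false

namespace Claimed.Agent.R289

open Set Metric
open scoped Real

/-! ## 1. the dictionary `ψ ↔ angle` in the disc chart of a `PvChart` -/

section dict

variable {D : Set ℂ} {d : ℂ} {ψ : ℂ → ℂ}

theorem pvxo_fr (h0 : PvChart D d ψ) {z : ℂ} (hz : z ∈ closure D) (h1 : ‖h0.disc z‖ = 1) : z ∈ frontier D := by
  rw [frontier, h0.isOpen.interior_eq]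
  exact ⟨hz, fun hD => absurd (h0.disc_norm_lt hD) (by rw [h1]; exact lt_irrefl _)⟩

/-- **`ψ` at the point of angle `t`** -/
theorem pvxo_psi (h0 : PvChart D d ψ) {z : ℂ} {t : ℝ} (hz : z ∈ closure D) (hgz : h0.disc z = pvgE t) (ht : Real.sin (t / 2) ≠ 0) :
    z ∈ frontier D ∧ z ≠ d ∧ ψ z = ((Real.tan ((t - π) / 2) : ℝ) : ℂ) := by
  have h1 : z ∈ frontier D := pvxo_fr h0 hz (by rw [hgz, pvg_E_norm])
  have h2 : z ≠ d := fun h => pvga_E_ne_one ht (by rw [← hgz, h, h0.disc_d])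
  refine ⟨h1, h2, ?_⟩
  have h3 := pvch_Ci_C (h0.im_nonneg hz h2)
  rw [← h0.disc_of_ne h2, hgz] at h3
  rw [← h3]
  unfold pvchCi
  exact pvga_cayley ht

theorem pvxo_dinv_mem (h0 : PvChart D d ψ) (t : ℝ) : h0.dinv (pvgE t) ∈ closure D := h0.dinv_mem (by rw [pvg_E_norm])

theorem pvxo_disc_dinv (h0 : PvChart D d ψ) (t : ℝ) : h0.disc (h0.dinv (pvgE t)) = pvgE t := h0.disc_dinv (by rw [pvg_E_norm])

theorem pvxo_dinv_two_pi (h0 : PvChart D d ψ) : h0.dinv (pvgE (2 * π)) = d := by rw [pvga_E_two_pi, h0.dinv_one]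

/-- FORWARD, `[a, b]`: angles in `[π, π + 2 arctan x]` -/
theorem pvxo_fwd_L (h0 : PvChart D d ψ) {x t : ℝ} (h1 : π ≤ t) (h2 : t ≤ π + 2 * Real.arctan x) : h0.dinv (pvgE t) ∈ pvArcL D d ψ x := by
  have hp := Real.pi_pos
  have ha := Real.arctan_lt_pi_div_two x
  obtain ⟨a1, a2, a3⟩ := pvxo_psi h0 (pvxo_dinv_mem h0 t) (pvxo_disc_dinv h0 t) (pvga_sin_pos (by linarith) (by linarith))
  have h3 := pvga_tan_L h1 h2
  exact ⟨a1, a2, by rw [a3, Complex.ofReal_re]; exact h3.1, by rw [a3, Complex.ofReal_re]; exact h3.2⟩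

/-- the angles of the three closed arcs `a → c`, `c → d`, `d → a` -/
noncomputable def pvxoLo : Fin 3 → ℝ
  | 0 => π
  | 1 => 3 * π / 2
  | 2 => 2 * π

noncomputable def pvxoHi : Fin 3 → ℝ
  | 0 => 3 * π / 2
  | 1 => 2 * π
  | 2 => 3 * π

theorem pvxo_eqns_cite : True := by
  have := @pvxoLo.eq_1; have := @pvxoHi.eq_1
  trivial

/-- FORWARD, the three closed arcs -/
theorem pvxo_fwd (h0 : PvChart D d ψ) (j : Fin 3) {t : ℝ} (h1 : pvxoLo j ≤ t) (h2 : t ≤ pvxoHi j) : h0.dinv (pvgE t) ∈ pvoArc D d ψ j := by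
  have hp := Real.pi_pos
  match j, h1, h2 with
  | 0, h1, h2 =>
    have h1' : π ≤ t := h1
    have h2' : t ≤ 3 * π / 2 := h2
    obtain ⟨a1, a2, a3, a4⟩ := pvxo_fwd_L h0 (x := 1) h1' (by rw [Real.arctan_one]; linarith)
    exact Or.inr ⟨a1, a2, Or.inl ⟨rfl, a3, a4⟩⟩
  | 1, h1, h2 =>
    have h1' : 3 * π / 2 ≤ t := h1
    have h2' : t ≤ 2 * π := h2
    rcases h2'.lt_or_eq with h2' | rfl
    · obtain ⟨a1, a2, a3⟩ := pvxo_psi h0 (pvxo_dinv_mem h0 t) (pvxo_disc_dinv h0 t) (pvga_sin_pos (by linarith) h2')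
      exact Or.inr ⟨a1, a2, Or.inr (Or.inl ⟨rfl, by rw [a3, Complex.ofReal_re]; exact pvga_tan_1 h1' h2'⟩)⟩
    · exact Or.inl ⟨pvxo_dinv_two_pi h0, by decide⟩
  | 2, h1, h2 =>
    have h1' : 2 * π ≤ t := h1
    have h2' : t ≤ 3 * π := h2
    rcases h1'.lt_or_eq with h1' | rfl
    · obtain ⟨a1, a2, a3⟩ := pvxo_psi h0 (pvxo_dinv_mem h0 t) (pvxo_disc_dinv h0 t) (pvga_sin_neg h1' (by linarith))
      exact Or.inr ⟨a1, a2, Or.inr (Or.inr ⟨rfl, by rw [a3, Complex.ofReal_re]; exact pvga_tan_2 h1' h2'⟩)⟩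
    · exact Or.inl ⟨pvxo_dinv_two_pi h0, by decide⟩

/-- **BACKWARD**: the angle of a boundary point -/
theorem pvxo_bwd (h0 : PvChart D d ψ) {p : ℂ} (hp : p ∈ frontier D) (hpd : p ≠ d) : h0.disc p = pvgE (π + 2 * Real.arctan (ψ p).re) := by
  have hre : ψ p = (((ψ p).re : ℝ) : ℂ) := Complex.ext (by simp) (by simp [h0.im_zero hp hpd])
  have hs : Real.sin ((π + 2 * Real.arctan (ψ p).re) / 2) ≠ 0 := by
    have h1 := Real.arctan_lt_pi_div_two (ψ p).re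
    have h2 := Real.neg_pi_div_two_lt_arctan (ψ p).re
    exact pvga_sin_pos (by linarith) (by linarith)
  have h1 := pvga_cayley hs
  have e : (π + 2 * Real.arctan (ψ p).re - π) / 2 = Real.arctan (ψ p).re := by ring
  rw [e, Real.tan_arctan, ← hre] at h1
  have h2 := pvch_C_Ci (pvga_E_ne_one hs)
  unfold pvchCi at h2
  rw [h1] at h2
  rw [h0.disc_of_ne hpd, h2]

/-- BACKWARD, the three closed arcs -/
theorem pvxo_bwd_arc (h0 : PvChart D d ψ) (j : Fin 3) {p : ℂ} (hp : p ∈ pvoArc D d ψ j) :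
    p ∈ closure D ∧ ∃ t, pvxoLo j ≤ t ∧ t ≤ pvxoHi j ∧ h0.disc p = pvgE t := by
  have hpi := Real.pi_pos
  rcases hp with ⟨rfl, hj⟩ | ⟨h1, h2, h3⟩
  · refine ⟨frontier_subset_closure h0.hd, 2 * π, ?_, ?_, by rw [h0.disc_d, pvga_E_two_pi]⟩
    · match j, hj with
      | 1, _ => show 3 * π / 2 ≤ 2 * π; linarith
      | 2, _ => exact le_rfl
    · match j, hj with
      | 1, _ => exact le_rfl
      | 2, _ => show 2 * π ≤ 3 * π; linarith
  · refine ⟨frontier_subset_closure h1, ?_⟩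
    have hb := pvxo_bwd h0 h1 h2
    rcases h3 with ⟨rfl, a, b⟩ | ⟨rfl, a⟩ | ⟨rfl, a⟩
    · refine ⟨_, ?_, ?_, hb⟩
      · have := Real.arctan_nonneg.2 a
        show π ≤ _
        linarith
      · have := Real.arctan_strictMono.monotone b
        rw [Real.arctan_one] at this
        show _ ≤ 3 * π / 2
        linarith
    · refine ⟨_, ?_, ?_, hb⟩
      · have := Real.arctan_strictMono.monotone a
        rw [Real.arctan_one] at this
        show 3 * π / 2 ≤ _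
        linarith
      · have := Real.arctan_lt_pi_div_two (ψ p).re
        show _ ≤ 2 * π
        linarith
    · refine ⟨π + 2 * Real.arctan (ψ p).re + 2 * π, ?_, ?_, by rw [pvga_E_add]; exact hb⟩
      · have := Real.neg_pi_div_two_lt_arctan (ψ p).re
        show 2 * π ≤ _
        linarith
      · have := Real.arctan_strictMono.monotone a
        rw [Real.arctan_zero] at this
        show _ ≤ 3 * π
        linarith

/-- the mark `b` -/
theorem pvxo_b (h0 : PvChart D d ψ) {x : ℝ} {b : ℂ} (hb : b ∈ frontier D) (hbd : b ≠ d) (hx : ψ b = x) : h0.disc b = pvgE (pvgaTh x 1) := by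
  have := pvxo_bwd h0 hb hbd
  rwa [hx, Complex.ofReal_re] at this

/-! ## 2. the moduli of `Ψ⁻¹` and of `Ψ` -/

theorem pvxo_pull (h0 : PvChart D d ψ) {t : ℝ} (ht : 0 < t) :
    ∃ η > 0, ∀ z ∈ closure D, ∀ ξ : ℂ, ‖ξ‖ ≤ 1 → ‖h0.disc z - ξ‖ < η → ‖z - h0.dinv ξ‖ < t := by
  have := (isCompact_closedBall (0 : ℂ) 1).uniformContinuousOn_of_continuous h0.dinv_cont
  rw [Metric.uniformContinuousOn_iff] at this
  obtain ⟨η, hη, h⟩ := this t ht
  refine ⟨η, hη, fun z hz ξ hξ hd => ?_⟩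
  have := h (h0.disc z) (by simpa using h0.disc_norm_le hz) ξ (by simpa using hξ) (by rwa [dist_eq_norm])
  rwa [h0.dinv_disc hz, dist_eq_norm] at this

theorem pvxo_push (h0 : PvChart D d ψ) {η : ℝ} (hη : 0 < η) :
    ∃ s > 0, ∀ z ∈ closure D, ∀ z' ∈ closure D, ‖z - z'‖ < s → ‖h0.disc z - h0.disc z'‖ < η := by
  have hc : IsCompact (closure D) := Metric.isCompact_of_isClosed_isBounded isClosed_closure h0.bdd.closure
  have := hc.uniformContinuousOn_of_continuous h0.disc_cont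
  rw [Metric.uniformContinuousOn_iff] at this
  obtain ⟨s, hs, h⟩ := this η hη
  refine ⟨s, hs, fun z hz z' hz' hd => ?_⟩
  have := h z hz z' hz' (by rwa [dist_eq_norm])
  rwa [dist_eq_norm] at this

end dict

/-! ## 3. the fan of the marks -/

section fan

variable {Y : Set ℂ} {Dt : Type} {T : PvMap ↥Y Dt}

/-- the fan sphere of four marks `a b c d` on the cycle: fans on the index arcs `a → c`, `c → d`, `d → a` -/
def pvxoFan (hT : T.IsSph) (c : T.Cyc) (hfin : c.Left.Finite) {P : ↥Y → ℂ} {α : ℕ → ℝ} {m : ℕ → ℕ} {th δ : ℝ} (M : PvxfMarks c P α m th δ) : PvFan ↥Y Dt :=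
  PvFan.ofMarks T hT c hfin (m 0) (m 2) (m 3) ((M.lt 0 (by norm_num)).trans (M.lt 1 (by norm_num))) (M.lt 2 (by norm_num))
    (by have h3 : m 3 < m 4 := M.lt 3 (by norm_num); have := M.per; omega)

/-- **the fields `arc`, `densB`, `sec` of `PvgfRec`** (verbatim) -/
structure PvxoRec {Y : Set ℂ} {Dt : Type} (F : PvFan ↥Y Dt) (D : Set ℂ) (d : ℂ) (ψ : ℂ → ℂ) (x s t : ℝ) : Prop where
  arc : ∀ (j : Fin 3) (k : ℕ), F.lo j ≤ k → k ≤ F.hi j → pvgfX F k ∈ thickening t (pvoArc D d ψ j)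
  densB : ∀ (j : Fin 3), ∀ p ∈ pvoArc D d ψ j, ∃ k, F.lo j ≤ k ∧ k ≤ F.hi j ∧ ‖pvgfX F k - p‖ < t
  sec : ∀ b ∈ frontier D, b ≠ d → ψ b = x → ∀ k, k ≤ F.i1 → ‖pvgfX F k - b‖ < s → ∀ k', k' ≤ k → pvgfX F k' ∈ thickening t (pvArcL D d ψ x)

theorem pvxo_eqns_cite2 : True := by
  have := @pvxoFan.eq_1
  trivial

variable (hT : T.IsSph) (c : T.Cyc) (hfin : c.Left.Finite) {P : ↥Y → ℂ} {α : ℕ → ℝ} {m : ℕ → ℕ} {th δ : ℝ} (M : PvxfMarks c P α m th δ)

theorem pvxo_fan_T : (pvxoFan hT c hfin M).T = T := rfl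
theorem pvxo_fan_X (k : ℕ) : pvgfX (pvxoFan hT c hfin M) k = ((T.src (c.e (k + m 0)) : ↥Y) : ℂ) := rfl
theorem pvxo_fan_i1 : (pvxoFan hT c hfin M).i1 = m 2 - m 0 := rfl
theorem pvxo_fan_i2 : (pvxoFan hT c hfin M).i2 = m 3 - m 0 := rfl
theorem pvxo_fan_n : (pvxoFan hT c hfin M).c.n = c.n := rfl
theorem pvxo_fan_left : (pvxoFan hT c hfin M).c.Left = c.Left := (pl_shift_left hT c (m 0)).1

/-- first and last index (on `c`) of the three index arcs -/
def pvxoA (m : ℕ → ℕ) : Fin 3 → ℕ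
  | 0 => m 0
  | 1 => m 2
  | 2 => m 3

def pvxoB (m : ℕ → ℕ) : Fin 3 → ℕ
  | 0 => m 2
  | 1 => m 3
  | 2 => m 4

theorem pvxo_eqns_cite3 : True := by
  have := @pvxoA.eq_1; have := @pvxoB.eq_1
  trivial

include M in
theorem pvxo_mono : m 0 < m 1 ∧ m 1 < m 2 ∧ m 2 < m 3 ∧ m 3 < m 4 ∧ m 4 = m 0 + c.n :=
  ⟨M.lt 0 (by norm_num), M.lt 1 (by norm_num), M.lt 2 (by norm_num), M.lt 3 (by norm_num), M.per⟩

theorem pvxo_fan_lo (j : Fin 3) : (pvxoFan hT c hfin M).lo j + m 0 = pvxoA m j := by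
  obtain ⟨a0, a1, a2, a3, a4⟩ := pvxo_mono c M
  match j with
  | 0 => show 0 + m 0 = m 0; omega
  | 1 => show m 2 - m 0 + m 0 = m 2; omega
  | 2 => show m 3 - m 0 + m 0 = m 3; omega

theorem pvxo_fan_hi (j : Fin 3) : (pvxoFan hT c hfin M).hi j + m 0 = pvxoB m j := by
  obtain ⟨a0, a1, a2, a3, a4⟩ := pvxo_mono c M
  match j with
  | 0 => show m 2 - m 0 + m 0 = m 2; omega
  | 1 => show m 3 - m 0 + m 0 = m 3; omega
  | 2 => show c.n + m 0 = m 4; omega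

end fan

/-! ## 4. the three index arcs in the chart -/

section arcs

variable {V Dt : Type} {T : PvMap V Dt} {c : T.Cyc} {P : V → ℂ} {m : ℕ → ℕ} {th δ x : ℝ}

/-- the index arc `j` of the fan follows the geometric arc `j` -/
theorem pvxo_arc3 (hx0 : 0 < x) (hx1 : x < 1) (M : PvxfMarks c P (pvgaTh x) m th δ) (j : Fin 3) {i : ℕ} (h1 : pvxoA m j ≤ i) (h2 : i ≤ pvxoB m j) :
    ∃ t, pvxoLo j ≤ t ∧ t ≤ pvxoHi j ∧ ‖P (T.src (c.e i)) - pvgE t‖ ≤ th + δ := by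
  have hmk := pvga_mk hx0 hx1
  have l0 := hmk.lt 0 (by norm_num)
  have l1 := hmk.lt 1 (by norm_num)
  match j, h1, h2 with
  | 0, h1, h2 =>
    have h1' : m 0 ≤ i := h1
    have h2' : i ≤ m 2 := h2
    rcases le_total i (m 1) with hi | hi
    · obtain ⟨t, t1, t2, t3⟩ := M.arc 0 (by norm_num) i h1' hi
      exact ⟨t, t1, t2.trans l1.le, t3⟩
    · obtain ⟨t, t1, t2, t3⟩ := M.arc 1 (by norm_num) i hi h2'
      exact ⟨t, l0.le.trans t1, t2, t3⟩
  | 1, h1, h2 => exact M.arc 2 (by norm_num) i h1 h2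
  | 2, h1, h2 => exact M.arc 3 (by norm_num) i h1 h2

/-- the index arc `j` of the fan is dense on the geometric arc `j` -/
theorem pvxo_dens3 (M : PvxfMarks c P (pvgaTh x) m th δ) (j : Fin 3) {t : ℝ} (h1 : pvxoLo j ≤ t) (h2 : t ≤ pvxoHi j) :
    ∃ i, pvxoA m j ≤ i ∧ i ≤ pvxoB m j ∧ ‖P (T.src (c.e i)) - pvgE t‖ ≤ th + δ := by
  have a0 := M.lt 0 (by norm_num)
  have a1 := M.lt 1 (by norm_num)
  match j, h1, h2 with
  | 0, h1, h2 =>
    rcases le_total t (pvgaTh x 1) with ht | ht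
    · obtain ⟨i, i1, i2, i3⟩ := M.dens 0 (by norm_num) t h1 ht
      exact ⟨i, i1, i2.trans a1.le, i3⟩
    · obtain ⟨i, i1, i2, i3⟩ := M.dens 1 (by norm_num) t ht h2
      exact ⟨i, a0.le.trans i1, i2, i3⟩
  | 1, h1, h2 => exact M.dens 2 (by norm_num) t h1 h2
  | 2, h1, h2 => exact M.dens 3 (by norm_num) t h1 h2

/-- the sector before a vertex of the index arc `a → c` which is `s`-close to the mark `b` in the chart -/
theorem pvxo_sec3 (hx0 : 0 < x) (hx1 : x < 1) (hth : 0 ≤ th) (hδ : 0 ≤ δ) (M : PvxfMarks c P (pvgaTh x) m th δ) {i : ℕ} (h1 : m 0 ≤ i) (h2 : i ≤ m 2) {s : ℝ}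
    (hs : ‖P (T.src (c.e i)) - pvgE (pvgaTh x 1)‖ ≤ s) (hw : δ + π / 2 * (s + th) < π) {i' : ℕ} (h1' : m 0 ≤ i') (h2' : i' ≤ i) :
    ∃ t, π ≤ t ∧ t ≤ π + 2 * Real.arctan x ∧ ‖P (T.src (c.e i')) - pvgE t‖ ≤ th + (π / 2 * (s + th) + δ) := by
  have hp := Real.pi_pos
  have hs0 : 0 ≤ s := (norm_nonneg _).trans hs
  have hmk := pvga_mk hx0 hx1
  have l0 := hmk.lt 0 (by norm_num)
  have l1 := hmk.lt 1 (by norm_num)
  have hbig : th + δ ≤ th + (π / 2 * (s + th) + δ) := by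
    have : 0 ≤ π / 2 * (s + th) := by positivity
    linarith
  rcases le_total i' (m 1) with hi | hi
  · obtain ⟨t, t1, t2, t3⟩ := M.arc 0 (by norm_num) i' h1' hi
    exact ⟨t, t1, t2, t3.trans hbig⟩
  · obtain ⟨t, t1, t2, t3⟩ := M.secL 1 (by norm_num) i (hi.trans h2') h2 (pvgaTh x 1) s le_rfl l1.le hs (by
      have e1 : pvgaTh x (1 + 1) = 3 * π / 2 := rfl
      have e2 : pvgaTh x 1 = π + 2 * Real.arctan x := rfl
      have := Real.arctan_pos.2 hx0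
      rw [e1, e2]
      linarith) i' hi h2'
    exact ⟨t, l0.le.trans t1, t2, t3⟩

end arcs

/-! ## 5. the exit -/

/-- **FROM THE MARKS IN THE SOFT CHART TO THE EUCLIDEAN RECORD**.      The thresholds `η` (soft chart against `Ψ`, foot points, `th`, `δ`) and `s` depend on the chart `h0` and on `t` only. -/
theorem pvxo_rec {D : Set ℂ} {d : ℂ} {ψ : ℂ → ℂ} (h0 : PvChart D d ψ) {t : ℝ} (ht : 0 < t) :
    ∃ η > 0, ∃ s > 0, ∀ (K : Set ℂ) (Φ : ℂ → ℂ), K ⊆ closure D → (∀ z ∈ K, ‖Φ z - h0.disc z‖ ≤ η) →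
      ∀ x : ℝ, 0 < x → x < 1 → ∀ (Y : Set ℂ) (Dt : Type) (T : PvMap ↥Y Dt) (hT : T.IsSph) (c : T.Cyc) (hfin : c.Left.Finite) (p : ↥Y → ℂ),
        (∀ k, p (T.src (c.e k)) ∈ K) → (∀ k, ‖p (T.src (c.e k)) - ((T.src (c.e k) : ↥Y) : ℂ)‖ ≤ η) →
        ∀ (m : ℕ → ℕ) (th δ : ℝ), 0 ≤ th → th ≤ η → 0 ≤ δ → δ ≤ η → ∀ M : PvxfMarks c (fun v => Φ (p v)) (pvgaTh x) m th δ,
          PvxoRec (pvxoFan hT c hfin M) D d ψ x s t := by
  have hpi := Real.pi_pos
  have hpi3 := Real.pi_gt_three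
  have hpi4 := Real.pi_le_four
  obtain ⟨η0, hη0, pull⟩ := pvxo_pull h0 (t := t / 2) (by positivity)
  set η1 : ℝ := min η0 1 with hη1def
  have hη1 : 0 < η1 := lt_min hη0 one_pos
  have hη1a : η1 ≤ η0 := min_le_left _ _
  have hη1b : η1 ≤ 1 := min_le_right _ _
  obtain ⟨s1, hs1, push⟩ := pvxo_push h0 (η := η1 / 4) (by positivity)
  refine ⟨min (η1 / 16) (min (t / 2) (s1 / 2)), by positivity, s1 / 2, by positivity, ?_⟩
  set η : ℝ := min (η1 / 16) (min (t / 2) (s1 / 2)) with hηdef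
  have e1 : η ≤ η1 / 16 := min_le_left _ _
  have e2 : η ≤ t / 2 := (min_le_right _ _).trans (min_le_left _ _)
  have e3 : η ≤ s1 / 2 := (min_le_right _ _).trans (min_le_right _ _)
  intro K Φ hK hΦ x hx0 hx1 Y Dt T hT c hfin p hpK hpx m th δ hth0 hth hδ0 hδ M
  -- chart to Euclid
  have key : ∀ (i : ℕ) (τ e : ℝ), ‖Φ (p (T.src (c.e i))) - pvgE τ‖ ≤ e → e + η < η1 → ‖((T.src (c.e i) : ↥Y) : ℂ) - h0.dinv (pvgE τ)‖ < t := by
    intro i τ e he hee
    have a1 : ‖h0.disc (p (T.src (c.e i))) - pvgE τ‖ < η0 := by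
      have := norm_sub_le (Φ (p (T.src (c.e i))) - pvgE τ) (Φ (p (T.src (c.e i))) - h0.disc (p (T.src (c.e i))))
      rw [sub_sub_sub_cancel_left] at this
      have := hΦ _ (hpK i)
      linarith
    have a2 := pull _ (hK (hpK i)) (pvgE τ) (by rw [pvg_E_norm]) a1
    have a3 := norm_sub_le (p (T.src (c.e i)) - h0.dinv (pvgE τ)) (p (T.src (c.e i)) - ((T.src (c.e i) : ↥Y) : ℂ))
    rw [sub_sub_sub_cancel_left] at a3
    have := hpx i
    linarith
  obtain ⟨m0, m1, m2, m3, m4⟩ := pvxo_mono c M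
  refine ⟨fun j k k1 k2 => ?_, fun j q hq => ?_, fun b hb hbd hψ k hk hkb k' hk' => ?_⟩
  · have l1 := pvxo_fan_lo hT c hfin M j
    have l2 := pvxo_fan_hi hT c hfin M j
    obtain ⟨τ, τ1, τ2, τ3⟩ := pvxo_arc3 hx0 hx1 M j (i := k + m 0) (by omega) (by omega)
    rw [pvxo_fan_X]
    exact mem_thickening_iff.2 ⟨_, pvxo_fwd h0 j τ1 τ2, by rw [dist_eq_norm]; exact key _ τ _ τ3 (by linarith)⟩
  · have l1 := pvxo_fan_lo hT c hfin M j
    have l2 := pvxo_fan_hi hT c hfin M j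
    obtain ⟨hqc, τ, τ1, τ2, hτ⟩ := pvxo_bwd_arc h0 j hq
    obtain ⟨i, i1, i2, i3⟩ := pvxo_dens3 M j τ1 τ2
    refine ⟨i - m 0, by omega, by omega, ?_⟩
    rw [pvxo_fan_X, show i - m 0 + m 0 = i by omega]
    have := key i τ _ i3 (by linarith)
    rwa [← hτ, h0.dinv_disc hqc] at this
  · rw [pvxo_fan_i1] at hk
    rw [pvxo_fan_X] at hkb ⊢
    have hbc : b ∈ closure D := frontier_subset_closure hb
    have b1 : ‖p (T.src (c.e (k + m 0))) - b‖ < s1 := by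
      have := norm_add_le (p (T.src (c.e (k + m 0))) - ((T.src (c.e (k + m 0)) : ↥Y) : ℂ)) (((T.src (c.e (k + m 0)) : ↥Y) : ℂ) - b)
      rw [sub_add_sub_cancel] at this
      have := hpx (k + m 0)
      linarith
    have b2 := push _ (hK (hpK (k + m 0))) b hbc b1
    rw [pvxo_b h0 hb hbd hψ] at b2
    have b3 : ‖Φ (p (T.src (c.e (k + m 0)))) - pvgE (pvgaTh x 1)‖ ≤ η + η1 / 4 := by
      have := norm_add_le (Φ (p (T.src (c.e (k + m 0)))) - h0.disc (p (T.src (c.e (k + m 0))))) (h0.disc (p (T.src (c.e (k + m 0)))) - pvgE (pvgaTh x 1))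
      rw [sub_add_sub_cancel] at this
      have := hΦ _ (hpK (k + m 0))
      linarith
    have b4 : π / 2 * (η + η1 / 4 + th) ≤ 2 * (η + η1 / 4 + th) := by
      have : 0 ≤ η + η1 / 4 + th := by positivity
      nlinarith
    obtain ⟨τ, τ1, τ2, τ3⟩ := pvxo_sec3 hx0 hx1 hth0 hδ0 M (i := k + m 0) (by omega) (by omega) b3 (by linarith) (i' := k' + m 0) (by omega) (by omega)
    exact mem_thickening_iff.2 ⟨_, pvxo_fwd_L h0 τ1 τ2, by rw [dist_eq_norm]; exact key _ τ _ τ3 (by linarith)⟩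

end Claimed.Agent.R289
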