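-- KEEP
import Claimed.Agent.R289.Mix.Topo
import Claimed.Agent.R289.Mix.Disc
import Claimed.Agent.R289.Brg.Fit

/-!
# Row 289 (S0537, Cardy for Poisson-Voronoi), road MIX, file Mix/Rec : THE EUCLIDEAN RECORD OF THE SOFT DISC      (owner helper297; prefix `pvzr_`, defs `Pvzr*`)

Post of helper246 (head of MIX), dispatch of 09:43Z: the fields `conn` (soft D4) `densD` `short` `del` `inD` of the chart free record `PvgfRec` of helper92 (`Brg/Fit.lean`) and the depth hypothesis,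
from a SOFT DISC `(K, Φ)` (`PvxmDisc` of helper262), the mesh event (`VorDense Y B μ`, `{z | infDist z K ≤ 1} ⊆ B`: hypotheses of helper45, `Mix/Topo.lean`) and an outer circuit `c` of `vorMeet Y K` (`PvgRim h K c`).
The fields `arc densB sec` (marks, ORD) are the post of helper17 + helper148 (`Mix/Fold.lean`, `Mix/Ord.lean`).   The assembly (levels, best level, OUT, PROB) is `Mix/Asm.lean`.

* `PvzrLC K s t`            uniform local connectedness: two points of `K` at distance `≤ s` lie in a connected subset of `K` inside `closedBall a t`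
* `pvzr_inv`, `pvzr_lc_of_disc`      a soft disc is uniformly locally connected (pull a segment back)
* `pvzr_apex pvzr_down pvzr_chord pvzr_d4`      soft (D4): DESCENT to `B = vorMeet Y K` along a Euclidean segment (stop at the circuit, step to the apex), then the cells which meet a connected subset of `K`
* `pvzr_short pvzr_dense`
* `PvzrBase h c K t`, `PvzrConn h c s t`, `.mono`, `pvzr_conn`, **`pvzr_base`**      the record without marks, one mesh `μ0(K, t)`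
* `PvzrHalf X D s t`, `pvzr_half`, `pvzr_deep`      the five fields for the fan of a choice `X : DlbSel Y` (helper271)
* `pvzr_star pvzr_radial` **`pvzr_lc_level`**      UNIFORM local connectedness of the sets `K(δ) = pvxdK h Z κ δ`: the pair `(s, t)` does not depend on `Z κ δ` (`δ < δ0(t)`).
      WHY: `PvxmWhp` asks `∀ t ∃ s` for ONE family, the chosen disc sits at a level which depends on `Y`, and `conn` is not monotone in `s`.
-/

set_option autoImplicit false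

namespace Claimed.Agent.R289

open Set Metric Relation Filter Topology MeasureTheory Claims.C0465

/-! ## 0. the continuum: the inverse chart, uniform local connectedness -/

/-- uniform local connectedness of `K` at the pair `(s, t)` -/
def PvzrLC (K : Set ℂ) (s t : ℝ) : Prop :=
  ∀ a ∈ K, ∀ b ∈ K, ‖a - b‖ ≤ s → ∃ S : Set ℂ, IsPreconnected S ∧ S ⊆ K ∧ a ∈ S ∧ b ∈ S ∧ ∀ z ∈ S, ‖z - a‖ ≤ t

theorem pvzr_eqns_cite : True := by
  have := @PvzrLC.eq_1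
  trivial

/-- the inverse chart, continuous on the whole plane (composed with the radial retraction) -/
theorem pvzr_inv {K : Set ℂ} (hK : IsCompact K) {Φ : ℂ → ℂ} (hΦ : ContinuousOn Φ K) (hinj : InjOn Φ K) (himg : Φ '' K = closedBall 0 1) :
    ∃ J : ℂ → ℂ, Continuous J ∧ (∀ w, J w ∈ K) ∧ (∀ w ∈ closedBall (0 : ℂ) 1, Φ (J w) = w) ∧ ∀ z ∈ K, J (Φ z) = z := by
  have : CompactSpace K := isCompact_iff_compactSpace.1 hK
  have hfc : Continuous fun x : K => Φ x := continuousOn_iff_continuous_domRestrict.1 hΦ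
  have hfi : Function.Injective fun x : K => Φ x := fun x y hxy => Subtype.ext (hinj x.2 y.2 hxy)
  have hemb := hfc.isClosedEmbedding hfi
  have hq : ∀ w : ℂ, ∃ x : K, Φ x = pvxsRad 1 w := fun w => by
    have h1 : pvxsRad 1 w ∈ Φ '' K := himg ▸ pvxs_rad_mem one_pos _
    obtain ⟨x, hx, hxe⟩ := h1
    exact ⟨⟨x, hx⟩, hxe⟩
  choose ρ' hρ' using hq
  have hc : Continuous ρ' := by
    rw [hemb.isInducing.continuous_iff]
    have : ((fun x : K => Φ x) ∘ ρ') = fun w => pvxsRad 1 w := funext hρ'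
    rw [this]
    exact pvxs_rad_cont one_pos
  refine ⟨fun w => ρ' w, continuous_subtype_val.comp hc, fun w => (ρ' w).2, fun w hw => ?_, fun z hz => ?_⟩
  · rw [hρ']; exact pvxs_rad_id one_pos hw
  · have h1 : Φ (ρ' (Φ z)) = Φ z := by
      rw [hρ']
      exact pvxs_rad_id one_pos (himg ▸ mem_image_of_mem Φ hz)
    exact hinj (ρ' (Φ z)).2 hz h1

/-- **a soft disc is uniformly locally connected**: pull a segment of the closed unit disc back -/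
theorem pvzr_lc_of_disc {K : Set ℂ} (hK : IsCompact K) {Φ : ℂ → ℂ} (hΦ : ContinuousOn Φ K) (hinj : InjOn Φ K) (himg : Φ '' K = closedBall 0 1) {t : ℝ} (ht : 0 < t) :
    ∃ s : ℝ, 0 < s ∧ PvzrLC K s t := by
  obtain ⟨J, hJc, hJK, hJr, hJl⟩ := pvzr_inv hK hΦ hinj himg
  obtain ⟨η, hη, hJu⟩ := Metric.uniformContinuousOn_iff.1 ((isCompact_closedBall (0 : ℂ) 1).uniformContinuousOn_of_continuous hJc.continuousOn) t ht
  obtain ⟨δ, hδ, hΦu⟩ := Metric.uniformContinuousOn_iff.1 (hK.uniformContinuousOn_of_continuous hΦ) η hη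
  refine ⟨δ / 2, by positivity, fun a ha b hb hab => ?_⟩
  have hA : Φ a ∈ closedBall (0 : ℂ) 1 := himg ▸ mem_image_of_mem Φ ha
  have hB : Φ b ∈ closedBall (0 : ℂ) 1 := himg ▸ mem_image_of_mem Φ hb
  have hseg : segment ℝ (Φ a) (Φ b) ⊆ closedBall (0 : ℂ) 1 := (convex_closedBall (0 : ℂ) 1).segment_subset hA hB
  have hd : dist (Φ a) (Φ b) < η := hΦu a ha b hb (by rw [dist_eq_norm]; linarith)
  refine ⟨J '' segment ℝ (Φ a) (Φ b), (convex_segment _ _).isPreconnected.image J hJc.continuousOn, ?_, ⟨_, left_mem_segment ℝ _ _, hJl a ha⟩,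
    ⟨_, right_mem_segment ℝ _ _, hJl b hb⟩, ?_⟩
  · rintro _ ⟨w, -, rfl⟩; exact hJK w
  · rintro _ ⟨w, hw, rfl⟩
    have h1 : dist w (Φ a) < η := by
      rw [dist_eq_norm]
      refine lt_of_le_of_lt (norm_sub_le_of_mem_segment hw) ?_
      rwa [← dist_eq_norm, dist_comm]
    have h2 := hJu w (hseg hw) (Φ a) hA h1
    rw [hJl a ha, dist_eq_norm] at h2
    exact h2.le

/-! ## 1. soft (D4): descent to `B = vorMeet Y K`, chords inside `B` -/

section d4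

variable {K B Y : Set ℂ} {μ r : ℝ} {h : DelGood Y} {c : (delPl h).toMap.Cyc}

/-- from a vertex of the circuit one step to `B` -/
theorem pvzr_apex (hd : VorDense Y B μ) (hB : {z | infDist z K ≤ 1} ⊆ B) (hμ0 : 0 ≤ μ) (hμ : μ ≤ 1 / 8) (hc : PvgRim h K c) {y : ↥Y} (hy : y ∈ c.verts) :
    ∃ b : ↥Y, (b : ℂ) ∈ vorMeet Y K ∧ (delPl h).toMap.EdgeIn c.Left y b ∧ ‖(b : ℂ) - (y : ℂ)‖ ≤ 2 * μ := by
  obtain ⟨i, rfl⟩ := hy
  have hA := pl_left_face c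
  have he : c.e i ∈ c.Left := (pl_jordan (delp_isSph h) c).2.1 i
  have h1 : (delPl h).toMap.src ((delPl h).toMap.opp ((delPl h).toMap.nxt ((delPl h).toMap.nxt (c.e i)))) = (delPl h).toMap.src (c.e i) := by
    rw [(delPl h).toMap.src_opp', (delPl h).toMap.tgt_nxt2]
  have h2 : (delPl h).toMap.tgt ((delPl h).toMap.opp ((delPl h).toMap.nxt ((delPl h).toMap.nxt (c.e i)))) = (delPl h).toMap.apex (c.e i) := by
    rw [(delPl h).toMap.tgt_opp]; rfl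
  refine ⟨(delPl h).toMap.apex (c.e i), (hc.rim i).2, ⟨_, Or.inr ?_, h1, h2⟩, (pvxs_rim_loc hd hB hμ0 hμ hc i).2.2.2.2⟩
  rw [(delPl h).toMap.opp_opp]
  exact (hA _).2 ((hA _).2 he)

theorem pvzr_sub (q : ℂ) {t t' : ℝ} (htt : t ≤ t') : {w : ↥Y | ‖(w : ℂ) - q‖ ≤ t} ⊆ {w : ↥Y | ‖(w : ℂ) - q‖ ≤ t'} := fun _ hw => le_trans hw htt

/-- **DESCENT**: a vertex of the closed disc within `r` of `K` is joined to `B` inside the closed disc, within `r + 3μ` -/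
theorem pvzr_down (hd : VorDense Y B μ) (hB : {z | infDist z K ≤ 1} ⊆ B) (hμ0 : 0 ≤ μ) (hμ : μ ≤ 1 / 8) (hc : PvgRim h K c) (hne : K.Nonempty) (hr1 : r ≤ 1)
    {u : ↥Y} (hu : u ∈ (delPl h).toMap.VOf c.Left) (hur : infDist (u : ℂ) K < r) :
    ∃ b : ↥Y, (b : ℂ) ∈ vorMeet Y K ∧ (delPl h).toMap.Join c.Left {w : ↥Y | ‖(w : ℂ) - (u : ℂ)‖ ≤ r + 3 * μ} u b := by
  have hr0 : 0 < r := lt_of_le_of_lt infDist_nonneg hur
  have hu0 : ∀ t : ℝ, 0 ≤ t → u ∈ {w : ↥Y | ‖(w : ℂ) - (u : ℂ)‖ ≤ t} := fun t ht => by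
    show ‖(u : ℂ) - (u : ℂ)‖ ≤ t
    rw [sub_self, norm_zero]; exact ht
  have hstep : ∀ y ∈ c.verts, (delPl h).toMap.Join c.Left {w : ↥Y | ‖(w : ℂ) - (u : ℂ)‖ ≤ r + μ} u y →
      ∃ b : ↥Y, (b : ℂ) ∈ vorMeet Y K ∧ (delPl h).toMap.Join c.Left {w : ↥Y | ‖(w : ℂ) - (u : ℂ)‖ ≤ r + 3 * μ} u b := by
    intro y hy hj
    obtain ⟨b, hb, hyb, hdist⟩ := pvzr_apex hd hB hμ0 hμ hc hy
    have hy6' : y ∈ {w : ↥Y | ‖(w : ℂ) - (u : ℂ)‖ ≤ r + μ} := pvg_d4_join_mem hj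
    have hy6 : ‖(y : ℂ) - (u : ℂ)‖ ≤ r + μ := hy6'
    have hj8 : (delPl h).toMap.Join c.Left {w : ↥Y | ‖(w : ℂ) - (u : ℂ)‖ ≤ r + 3 * μ} u y := pvg_d4_join_mono (pvzr_sub _ (by linarith)) hj
    refine ⟨b, hb, hj8.1, hj8.2.tail ⟨hyb, ?_⟩⟩
    show ‖(b : ℂ) - (u : ℂ)‖ ≤ r + 3 * μ
    have := norm_add_le ((b : ℂ) - (y : ℂ)) ((y : ℂ) - (u : ℂ))
    rw [sub_add_sub_cancel] at this
    linarith
  have hu' := hu
  rw [pl_VOf_left (delp_isSph h) c] at hu'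
  rcases hu' with hv | hi
  · exact hstep u hv ⟨hu0 _ (by positivity), ReflTransGen.refl⟩
  obtain ⟨k, hkK, hk⟩ := (infDist_lt_iff hne).1 hur
  rw [dist_eq_norm] at hk
  have hS : ∀ z ∈ segment ℝ (u : ℂ) k, ‖z - (u : ℂ)‖ ≤ r ∧ z ∈ B := by
    intro z hz
    have h1 : ‖z - (u : ℂ)‖ ≤ ‖k - (u : ℂ)‖ := norm_sub_le_of_mem_segment hz
    have h2 : ‖z - k‖ ≤ ‖(u : ℂ) - k‖ := norm_sub_le_of_mem_segment (by rwa [segment_symm])
    rw [norm_sub_rev k] at h1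
    refine ⟨by linarith, hB ?_⟩
    have h3 := infDist_le_dist_of_mem (x := z) hkK
    rw [dist_eq_norm] at h3
    show infDist z K ≤ 1
    linarith
  obtain ⟨b0, hb0Y, hkb0⟩ := vor_cover h.lf h.ne k
  have huS : (u : ℂ) ∈ vorMeet Y (segment ℝ (u : ℂ) k) := ⟨u.2, u, vor_self_mem Y u, left_mem_segment ℝ _ _⟩
  have hb0S : b0 ∈ vorMeet Y (segment ℝ (u : ℂ) k) := ⟨hb0Y, k, hkb0, right_mem_segment ℝ _ _⟩
  obtain ⟨hb, hchain⟩ := pvg_w_lift_chain h u.2 (del_win_conn h.lf (convex_segment (u : ℂ) k).isPreconnected huS hb0S)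
  have hX : ∀ y : ↥Y, (y : ℂ) ∈ vorMeet Y (segment ℝ (u : ℂ) k) → y ∈ {w : ↥Y | ‖(w : ℂ) - (u : ℂ)‖ ≤ r + μ} := fun y hy => by
    obtain ⟨-, z, hz, hzS⟩ := hy
    obtain ⟨h3, h4⟩ := hS z hzS
    have h5 := pvxs_mesh hd hz h4
    have h7 := norm_sub_le ((y : ℂ) - z) ((u : ℂ) - z)
    rw [sub_sub_sub_cancel_right, norm_sub_rev (y : ℂ) z, norm_sub_rev (u : ℂ) z] at h7
    show ‖(y : ℂ) - (u : ℂ)‖ ≤ r + μ
    linarith
  rcases pvg_d4_walk (c := c) hX hi (hu0 _ (by positivity)) hchain with ⟨hj, -⟩ | ⟨y, hy, -, hj⟩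
  · exact ⟨⟨b0, hb⟩, ⟨hb0Y, k, hkb0, hkK⟩, pvg_d4_join_mono (pvzr_sub _ (by linarith)) hj⟩
  · exact hstep y hy hj

/-- **INSIDE `B`**: along a connected subset of `K` -/
theorem pvzr_chord (hd : VorDense Y B μ) (hB : {z | infDist z K ≤ 1} ⊆ B) (hc : PvgRim h K c) {b1 b2 : ↥Y} {k1 k2 : ℂ} (h1 : k1 ∈ vorCell Y b1) (h2 : k2 ∈ vorCell Y b2)
    {S : Set ℂ} (hSp : IsPreconnected S) (hSK : S ⊆ K) (hk1 : k1 ∈ S) (hk2 : k2 ∈ S) (q : ℂ) (ρ' : ℝ) (hq : ∀ z ∈ S, ‖z - q‖ ≤ ρ') :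
    (delPl h).toMap.Join c.Left {w : ↥Y | ‖(w : ℂ) - q‖ ≤ ρ' + μ} b1 b2 := by
  have hb1S : (b1 : ℂ) ∈ vorMeet Y S := ⟨b1.2, k1, h1, hk1⟩
  have hb2S : (b2 : ℂ) ∈ vorMeet Y S := ⟨b2.2, k2, h2, hk2⟩
  have hSB : ∀ y : ℂ, y ∈ vorMeet Y S → y ∈ vorMeet Y K := fun y hy => ⟨hy.1, hy.2.mono (inter_subset_inter_right _ hSK)⟩
  obtain ⟨hb, hchain⟩ := pvg_w_lift_chain h b1.2 (del_win_conn h.lf hSp hb1S hb2S)
  have hX : ∀ y : ↥Y, (y : ℂ) ∈ vorMeet Y S → y ∈ {w : ↥Y | ‖(w : ℂ) - q‖ ≤ ρ' + μ} := fun y hy => by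
    obtain ⟨-, z, hz, hzS⟩ := hy
    have h5 := pvxs_mesh hd hz (hB (by show infDist z K ≤ 1; rw [infDist_zero_of_mem (hSK hzS)]; exact zero_le_one))
    have h7 := norm_add_le ((y : ℂ) - z) (z - q)
    rw [sub_add_sub_cancel, norm_sub_rev (y : ℂ) z] at h7
    have := hq z hzS
    show ‖(y : ℂ) - q‖ ≤ ρ' + μ
    linarith
  rcases pvg_d4_walk (c := c) hX (hc.int b1 (hSB _ hb1S)) (hX b1 hb1S) hchain with ⟨hj, -⟩ | ⟨y, ⟨i, rfl⟩, hyS, -⟩
  · exact hj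
  · exact absurd (hSB _ hyS) (hc.rim i).1

/-- **soft (D4)**, centred at `u` -/
theorem pvzr_d4 (hd : VorDense Y B μ) (hB : {z | infDist z K ≤ 1} ⊆ B) (hμ0 : 0 ≤ μ) (hμ : μ ≤ 1 / 8) (hc : PvgRim h K c) (hne : K.Nonempty) (hr1 : r ≤ 1)
    (hnear : ∀ v ∈ (delPl h).toMap.VOf c.Left, infDist (v : ℂ) K < r) {s' t' σ : ℝ} (hLC : PvzrLC K s' t') (hσ : σ + 2 * r + 8 * μ ≤ s')
    {u v : ↥Y} (hu : u ∈ (delPl h).toMap.VOf c.Left) (hv : v ∈ (delPl h).toMap.VOf c.Left) (huv : ‖(u : ℂ) - (v : ℂ)‖ ≤ σ) :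
    (delPl h).toMap.Join c.Left {w : ↥Y | ‖(w : ℂ) - (u : ℂ)‖ ≤ t' + σ + r + 5 * μ} u v := by
  have hσ0 : 0 ≤ σ := (norm_nonneg _).trans huv
  have hr0 : 0 < r := lt_of_le_of_lt infDist_nonneg (hnear u hu)
  obtain ⟨bu, hbu, hju⟩ := pvzr_down hd hB hμ0 hμ hc hne hr1 hu (hnear u hu)
  obtain ⟨bv, hbv, hjv⟩ := pvzr_down hd hB hμ0 hμ hc hne hr1 hv (hnear v hv)
  obtain ⟨-, ku, hku1, hku2⟩ := hbu
  obtain ⟨-, kv, hkv1, hkv2⟩ := hbv
  have hKB : ∀ z ∈ K, z ∈ B := fun z hz => hB (by show infDist z K ≤ 1; rw [infDist_zero_of_mem hz]; exact zero_le_one)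
  have e1' : bu ∈ {w : ↥Y | ‖(w : ℂ) - (u : ℂ)‖ ≤ r + 3 * μ} := pvg_d4_join_mem hju
  have e2' : bv ∈ {w : ↥Y | ‖(w : ℂ) - (v : ℂ)‖ ≤ r + 3 * μ} := pvg_d4_join_mem hjv
  have e1 : ‖(bu : ℂ) - (u : ℂ)‖ ≤ r + 3 * μ := e1'
  have e2 : ‖(bv : ℂ) - (v : ℂ)‖ ≤ r + 3 * μ := e2'
  have e3 := pvxs_mesh hd hku1 (hKB _ hku2)
  have e4 := pvxs_mesh hd hkv1 (hKB _ hkv2)
  have q1 : ‖ku - (u : ℂ)‖ ≤ r + 4 * μ := by
    have := norm_add_le (ku - (bu : ℂ)) ((bu : ℂ) - (u : ℂ))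
    rw [sub_add_sub_cancel] at this
    linarith
  have q2 : ‖kv - (v : ℂ)‖ ≤ r + 4 * μ := by
    have := norm_add_le (kv - (bv : ℂ)) ((bv : ℂ) - (v : ℂ))
    rw [sub_add_sub_cancel] at this
    linarith
  have q3 : ‖ku - kv‖ ≤ s' := by
    have e : ku - kv = (ku - (u : ℂ)) + ((u : ℂ) - (v : ℂ)) - (kv - (v : ℂ)) := by ring
    have := norm_sub_le ((ku - (u : ℂ)) + ((u : ℂ) - (v : ℂ))) (kv - (v : ℂ))
    have h2 := norm_add_le (ku - (u : ℂ)) ((u : ℂ) - (v : ℂ))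
    rw [← e] at this
    linarith
  obtain ⟨S, hSp, hSK, hS1, hS2, hSt⟩ := hLC ku hku2 kv hkv2 q3
  have ht0 : 0 ≤ t' := (norm_nonneg _).trans (hSt _ hS1)
  have hmid := pvzr_chord hd hB hc hku1 hkv1 hSp hSK hS1 hS2 (u : ℂ) (t' + (r + 4 * μ)) (fun z hz => by
    have := norm_add_le (z - ku) (ku - (u : ℂ))
    rw [sub_add_sub_cancel] at this
    have := hSt z hz
    linarith)
  have j1 : (delPl h).toMap.Join c.Left {w : ↥Y | ‖(w : ℂ) - (u : ℂ)‖ ≤ t' + σ + r + 5 * μ} u bu := pvg_d4_join_mono (pvzr_sub _ (by linarith)) hju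
  have j2 : (delPl h).toMap.Join c.Left {w : ↥Y | ‖(w : ℂ) - (u : ℂ)‖ ≤ t' + σ + r + 5 * μ} bu bv := pvg_d4_join_mono (pvzr_sub _ (by linarith)) hmid
  have j3 : (delPl h).toMap.Join c.Left {w : ↥Y | ‖(w : ℂ) - (u : ℂ)‖ ≤ t' + σ + r + 5 * μ} bv v :=
    pvg_d4_join_symm (pvg_d4_join_mono (X := {w : ↥Y | ‖(w : ℂ) - (v : ℂ)‖ ≤ r + 3 * μ}) (fun w hw' => by
      have hw : ‖(w : ℂ) - (v : ℂ)‖ ≤ r + 3 * μ := hw'
      show ‖(w : ℂ) - (u : ℂ)‖ ≤ t' + σ + r + 5 * μ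
      have := norm_sub_le ((w : ℂ) - (v : ℂ)) ((u : ℂ) - (v : ℂ))
      rw [sub_sub_sub_cancel_right] at this
      linarith) hjv)
  exact pvg_d4_join_trans (pvg_d4_join_trans j1 j2) j3

/-- the head of a dart of the closed disc is a vertex of the closed disc -/
theorem pvzr_tgt_mem {e : (delPl h).Dart} (he : e ∈ c.Left) : (delPl h).toMap.tgt e ∈ (delPl h).toMap.VOf c.Left :=
  ⟨(delPl h).toMap.nxt e, (pl_left_face c _).2 he, rfl⟩

/-- **short**: the edges of the closed disc have length `≤ 2μ` -/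
theorem pvzr_short (hd : VorDense Y B μ) (hB : {z | infDist z K ≤ 1} ⊆ B) (hμ0 : 0 ≤ μ) (hμ : μ ≤ 1 / 8) (hr1 : r ≤ 1 / 2)
    (hnear : ∀ v ∈ (delPl h).toMap.VOf c.Left, infDist (v : ℂ) K < r) {e : (delPl h).Dart} (he : e ∈ c.Left) :
    ‖((delPl h).toMap.src e : ℂ) - ((delPl h).toMap.tgt e : ℂ)‖ ≤ 2 * μ := by
  obtain ⟨-, -, -, z, hz1, hz2⟩ := (pvg_w_adj_iff h _ _).1 ⟨e, rfl, rfl⟩
  have h1 := pvxs_cell_ball hd hB hμ0 (by linarith) (v := ((delPl h).toMap.src e : ℂ)) (by have := hnear _ ⟨e, he, rfl⟩; linarith) hz1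
  have h2 := pvxs_cell_ball hd hB hμ0 (by linarith) (v := ((delPl h).toMap.tgt e : ℂ)) (by have := hnear _ (pvzr_tgt_mem he); linarith) hz2
  rw [mem_closedBall, dist_eq_norm] at h1 h2
  have := norm_sub_le (((delPl h).toMap.src e : ℂ) - z) (((delPl h).toMap.tgt e : ℂ) - z)
  rw [sub_sub_sub_cancel_right, norm_sub_rev _ z, norm_sub_rev _ z] at this
  linarith

/-- **dense**: every point of `K` is within `μ` of an interior vertex -/
theorem pvzr_dense (hd : VorDense Y B μ) (hB : {z | infDist z K ≤ 1} ⊆ B) (hc : PvgRim h K c) {p : ℂ} (hp : p ∈ K) :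
    ∃ v ∈ (delPl h).toMap.Int c.Left, ‖(v : ℂ) - p‖ ≤ μ := by
  obtain ⟨b, hb, hbz⟩ := vor_cover h.lf h.ne p
  refine ⟨⟨b, hb⟩, hc.int ⟨b, hb⟩ ⟨hb, p, hbz, hp⟩, ?_⟩
  rw [norm_sub_rev]
  exact pvxs_mesh hd hbz (hB (by show infDist p K ≤ 1; rw [infDist_zero_of_mem hp]; exact zero_le_one))

end d4

/-! ## 2. the record without marks -/

/-- **the part of the Euclidean record which does not see the marks**, tolerance `t` -/
structure PvzrBase {Y : Set ℂ} (h : DelGood Y) (c : (delPl h).toMap.Cyc) (K : Set ℂ) (t : ℝ) : Prop where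
  /-- a finite disc -/
  fin : c.Left.Finite
  /-- the sites of `K` are interior vertices -/
  int : ∀ v : ↥Y, (v : ℂ) ∈ K → v ∈ (delPl h).toMap.Int c.Left
  /-- the closed disc lies near `K` -/
  inK : ∀ v ∈ (delPl h).toMap.VOf c.Left, infDist (v : ℂ) K < t
  /-- short edges -/
  short : ∀ e ∈ c.Left, ‖((delPl h).toMap.src e : ℂ) - ((delPl h).toMap.tgt e : ℂ)‖ < t
  /-- the interior vertices are dense in `K` -/
  dens : ∀ p ∈ K, ∃ v ∈ (delPl h).toMap.Int c.Left, ‖(v : ℂ) - p‖ < t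
  /-- the circuit is dense on the frontier of `K` -/
  near : ∀ p ∈ frontier K, ∃ i, ‖((delPl h).toMap.src (c.e i) : ℂ) - p‖ < t
  /-- the cells of the vertices of the circuit miss `K` -/
  off : ∀ i, Disjoint (vorCell Y ((delPl h).toMap.src (c.e i) : ℂ)) K
  /-- small cells -/
  cell : ∀ v ∈ (delPl h).toMap.VOf c.Left, vorCell Y (v : ℂ) ⊆ ball (v : ℂ) t

/-- (D4) in the form of `PvgfRec.conn` -/
def PvzrConn {Y : Set ℂ} (h : DelGood Y) (c : (delPl h).toMap.Cyc) (s t : ℝ) : Prop :=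
  ∀ p : ℂ, ∀ u ∈ (delPl h).toMap.VOf c.Left, ∀ v ∈ (delPl h).toMap.VOf c.Left, ‖(u : ℂ) - p‖ < s → ‖(v : ℂ) - p‖ < s →
    (delPl h).toMap.Join c.Left {w | ‖(w : ℂ) - p‖ < t} u v

theorem pvzr_eqns_cite2 : True := by
  have := @PvzrConn.eq_1
  trivial

theorem PvzrBase.mono {Y : Set ℂ} {h : DelGood Y} {c : (delPl h).toMap.Cyc} {K : Set ℂ} {t t' : ℝ} (H : PvzrBase h c K t) (htt : t ≤ t') : PvzrBase h c K t' :=
  ⟨H.fin, H.int, fun v hv => (H.inK v hv).trans_le htt, fun e he => (H.short e he).trans_le htt, fun p hp => by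
    obtain ⟨v, hv, h1⟩ := H.dens p hp
    exact ⟨v, hv, h1.trans_le htt⟩, fun p hp => by
    obtain ⟨i, h1⟩ := H.near p hp
    exact ⟨i, h1.trans_le htt⟩, H.off, fun v hv => (H.cell v hv).trans (ball_subset_ball htt)⟩

theorem PvzrConn.mono {Y : Set ℂ} {h : DelGood Y} {c : (delPl h).toMap.Cyc} {s t t' : ℝ} (H : PvzrConn h c s t) (htt : t ≤ t') : PvzrConn h c s t' :=
  fun p u hu v hv h1 h2 => pvg_d4_join_mono (fun _ hw => lt_of_lt_of_le hw htt) (H p u hu v hv h1 h2)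

/-- **soft (D4)**, form of the record -/
theorem pvzr_conn {K B Y : Set ℂ} {μ r : ℝ} {h : DelGood Y} {c : (delPl h).toMap.Cyc} (hd : VorDense Y B μ) (hB : {z | infDist z K ≤ 1} ⊆ B) (hμ0 : 0 ≤ μ) (hμ : μ ≤ 1 / 8)
    (hc : PvgRim h K c) (hne : K.Nonempty) (hr1 : r ≤ 1) (hnear : ∀ v ∈ (delPl h).toMap.VOf c.Left, infDist (v : ℂ) K < r) {s' t' s t : ℝ} (hLC : PvzrLC K s' t')
    (h1 : 2 * s + 2 * r + 8 * μ ≤ s') (h2 : t' + 3 * s + r + 5 * μ ≤ t) : PvzrConn h c s t := by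
  intro p u hu v hv hup hvp
  have huv : ‖(u : ℂ) - (v : ℂ)‖ ≤ 2 * s := by
    have := norm_sub_le ((u : ℂ) - p) ((v : ℂ) - p)
    rw [sub_sub_sub_cancel_right] at this
    linarith
  refine pvg_d4_join_mono (fun w hw' => ?_) (pvzr_d4 hd hB hμ0 hμ hc hne hr1 hnear hLC h1 hu hv huv)
  have hw : ‖(w : ℂ) - (u : ℂ)‖ ≤ t' + 2 * s + r + 5 * μ := hw'
  show ‖(w : ℂ) - p‖ < t
  have := norm_add_le ((w : ℂ) - (u : ℂ)) ((u : ℂ) - p)
  rw [sub_add_sub_cancel] at this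
  linarith

/-- **THE RECORD WITHOUT MARKS**: one mesh `μ0(K, t)` -/
theorem pvzr_base {K : Set ℂ} (hK : IsCompact K) (hne : K.Nonempty) (hns : PvxsNS K) {t : ℝ} (ht : 0 < t) :
    ∃ μ0 : ℝ, 0 < μ0 ∧ μ0 ≤ 1 / 8 ∧ ∀ μ : ℝ, 0 ≤ μ → μ ≤ μ0 → ∀ (B Y : Set ℂ) (h : DelGood Y), {z | infDist z K ≤ 1} ⊆ B → VorDense Y B μ →
      ∀ c : (delPl h).toMap.Cyc, PvgRim h K c → PvzrBase h c K t := by
  obtain ⟨μ1, hμ1, hμ18, hmain⟩ := pvxs_main hK hne hns (r := min t (1 / 2)) (lt_min ht (by norm_num))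
  refine ⟨min μ1 (t / 4), lt_min hμ1 (by linarith), (min_le_left _ _).trans hμ18, ?_⟩
  intro μ hμ0 hμ B Y h hB hd c hc
  have m1 : μ ≤ μ1 := hμ.trans (min_le_left _ _)
  have m2 : μ ≤ t / 4 := hμ.trans (min_le_right _ _)
  have m3 : μ ≤ 1 / 8 := m1.trans hμ18
  obtain ⟨-, hnear, hfr⟩ := hmain μ hμ0 m1 B Y h hB hd c hc
  have hnear' : ∀ v ∈ (delPl h).toMap.VOf c.Left, infDist (v : ℂ) K < 1 / 2 := fun v hv => (hnear v hv).trans_le (min_le_right _ _)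
  refine ⟨hc.fin, fun v hv => hc.int v ⟨v.2, v, vor_self_mem Y v, hv⟩, fun v hv => (hnear v hv).trans_le (min_le_left _ _), fun e he => ?_, fun p hp => ?_,
    fun p hp => ?_, fun i => ?_, fun v hv => ?_⟩
  · have := pvzr_short hd hB hμ0 m3 le_rfl hnear' he
    linarith
  · obtain ⟨v, hv, h1⟩ := pvzr_dense hd hB hc hp
    exact ⟨v, hv, by linarith⟩
  · obtain ⟨i, hi⟩ := hfr p hp
    exact ⟨i, hi.trans_le (min_le_left _ _)⟩
  · rw [Set.disjoint_left]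
    intro z hz hzK
    exact (hc.rim i).1 ⟨((delPl h).toMap.src (c.e i)).2, z, hz, hzK⟩
  · refine (pvxs_cell_ball hd hB hμ0 (by linarith) (hnear' v hv).le).trans (closedBall_subset_ball (by linarith))

/-! ## 3. from the Delaunay plane to the fan of a choice `X : DlbSel Y` -/

section sel

variable {Y : Set ℂ} (X : DlbSel Y) {K D : Set ℂ} {d : ℂ} {ψ : ℂ → ℂ} {x s t r : ℝ}

/-- the fields `inD del short densD conn` of `PvgfRec X.fan`, and the depth hypothesis of `pvgf_good_sel` -/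
structure PvzrHalf (D : Set ℂ) (s t : ℝ) : Prop where
  inD : ∀ v ∈ X.fan.T.VOf X.fan.c.Left, (v : ℂ) ∈ thickening t D
  del : ∀ e ∈ X.fan.c.Left, DelAdj Y ((X.fan.T.src e : ↥Y) : ℂ) ((X.fan.T.tgt e : ↥Y) : ℂ)
  short : ∀ e ∈ X.fan.c.Left, ‖((X.fan.T.src e : ↥Y) : ℂ) - ((X.fan.T.tgt e : ↥Y) : ℂ)‖ < t
  densD : ∀ p ∈ D, ∃ v ∈ X.fan.T.VOf X.fan.c.Left, ‖(v : ℂ) - p‖ < t
  conn : ∀ (p : ℂ), ∀ u ∈ X.fan.T.VOf X.fan.c.Left, ∀ v ∈ X.fan.T.VOf X.fan.c.Left, ‖(u : ℂ) - p‖ < s → ‖(v : ℂ) - p‖ < s →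
    X.fan.T.Join X.fan.c.Left {w | ‖(w : ℂ) - p‖ < t} u v

/-- **the half record** from the record without marks: `K ⊆ closure D`, `K` is `r`-dense in `D` -/
theorem pvzr_half (hb : PvzrBase X.good X.c K r) (hcn : PvzrConn X.good X.c s t) (hne : K.Nonempty) (hKD : K ⊆ closure D) (hDK : ∀ p ∈ D, ∃ z ∈ K, ‖z - p‖ < r) (hrt : 2 * r ≤ t) :
    PvzrHalf X D s t := by
  have hr0 : 0 < r := by
    obtain ⟨z, hz⟩ := hne
    obtain ⟨v, -, hv⟩ := hb.dens z hz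
    exact lt_of_le_of_lt (norm_nonneg _) hv
  refine ⟨fun v hv => ?_, fun e _ => pvgf_del X.fan rfl e, fun e he => (hb.short e he).trans_le (by linarith), fun p hp => ?_, hcn⟩
  · obtain ⟨k, hkK, hk⟩ := (infDist_lt_iff hne).1 (hb.inK v hv)
    have h1 : (v : ℂ) ∈ thickening r (closure D) := mem_thickening_iff.2 ⟨k, hKD hkK, hk⟩
    rw [thickening_closure] at h1
    exact thickening_mono (by linarith) D h1
  · obtain ⟨z, hzK, hz⟩ := hDK p hp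
    obtain ⟨v, hv, hvz⟩ := hb.dens z hzK
    refine ⟨v, ?_, ?_⟩
    · exact (pl_VOf_left (delp_isSph X.good) X.c).symm.subset (Or.inr hv)
    · have := norm_add_le ((v : ℂ) - z) (z - p)
      rw [sub_add_sub_cancel] at this
      linarith

/-- depth: the deep sites are interior vertices as soon as `K` contains the deep points -/
theorem pvzr_deep (hb : PvzrBase X.good X.c K r) (hdeep : {z | t ≤ infDist z Dᶜ} ⊆ K) : ∀ v : ↥Y, t ≤ infDist (v : ℂ) Dᶜ → v ∈ (delMap X.good).Int X.c.Left :=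
  fun v hv => hb.int v (hdeep hv)

end sel

/-! ## 4. UNIFORM local connectedness of the sets `K(δ)` of helper262: the modulus does not depend on `Z`, `κ`, `δ` -/

section level

variable {D : Set ℂ} {d : ℂ} {ψ : ℂ → ℂ} (h : PvChart D d ψ) {Z : Set ℂ} {κ δ : ℝ}

/-- `K(δ)` is star shaped in the chart `Ψ` -/
theorem pvzr_star {z : ℂ} (hz : z ∈ pvxdK h Z κ δ) {a : ℝ} (ha0 : 0 < a) (ha1 : a ≤ 1) : h.dinv (h.disc z * (a : ℂ)) ∈ pvxdK h Z κ δ := by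
  have h0 : ‖h.disc z * (a : ℂ)‖ = ‖h.disc z‖ * a := by rw [norm_mul, Complex.norm_real, Real.norm_of_nonneg ha0.le]
  have h1 : ‖h.disc z * (a : ℂ)‖ ≤ ‖h.disc z‖ := by
    rw [h0]; exact mul_le_of_le_one_right (norm_nonneg _) ha1
  have h2 : ‖h.disc z * (a : ℂ)‖ ≤ 1 := h1.trans (h.disc_norm_le hz.1)
  refine ⟨h.dinv_mem h2, ?_⟩
  rw [h.disc_dinv h2, pvxd_rho_smul ha0]
  exact h1.trans hz.2

/-- the radial segment from `Ψ z` to `(1-δ) Ψ z` stays in `K(δ)` -/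
theorem pvzr_radial (hδ : 0 ≤ δ) (hδ1 : δ < 1) {z : ℂ} (hz : z ∈ pvxdK h Z κ δ) {w : ℂ} (hw : w ∈ segment ℝ (h.disc z) (h.disc z * ((1 - δ : ℝ) : ℂ))) :
    h.dinv w ∈ pvxdK h Z κ δ := by
  obtain ⟨a, b, ha, hb, hab, rfl⟩ := hw
  have e : a • h.disc z + b • (h.disc z * ((1 - δ : ℝ) : ℂ)) = h.disc z * ((a + b * (1 - δ) : ℝ) : ℂ) := by
    simp only [Complex.real_smul]; push_cast; ring
  rw [e]
  refine pvzr_star h hz ?_ ?_
  · rcases ha.lt_or_eq with h1 | h1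
    · have : 0 ≤ b * (1 - δ) := mul_nonneg hb (by linarith)
      linarith
    · have hb1 : b = 1 := by linarith
      rw [← h1, hb1]; linarith
  · have : b * (1 - δ) ≤ b := mul_le_of_le_one_right hb (by linarith)
    linarith

/-- **UNIFORM (D4) in the continuum**: radially down to the deep disc, a chord of the deep disc, radially up -/
theorem pvzr_lc_level {t : ℝ} (ht : 0 < t) : ∃ δ0 s : ℝ, 0 < δ0 ∧ 0 < s ∧ ∀ (Z : Set ℂ) (κ δ : ℝ), 0 < κ → 0 ≤ δ → δ < 1 → δ < δ0 → PvzrLC (pvxdK h Z κ δ) s t := by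
  obtain ⟨η, hη, hJu⟩ := Metric.uniformContinuousOn_iff.1 ((isCompact_closedBall (0 : ℂ) 1).uniformContinuousOn_of_continuous h.dinv_cont) t ht
  obtain ⟨s0, hs0, hΦu⟩ := Metric.uniformContinuousOn_iff.1 (h.bdd.isCompact_closure.uniformContinuousOn_of_continuous h.disc_cont) (η / 2) (by positivity)
  refine ⟨η / 2, s0 / 2, by positivity, by positivity, fun Z κ δ hκ hδ hδ1 hδη a ha b hb hab => ?_⟩
  set ζa := h.disc a with hζa
  set ζb := h.disc b with hζb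
  set lam : ℂ := ((1 - δ : ℝ) : ℂ) with hlam
  have na : ‖ζa‖ ≤ 1 := h.disc_norm_le ha.1
  have nb : ‖ζb‖ ≤ 1 := h.disc_norm_le hb.1
  have nl : ‖lam‖ = 1 - δ := by rw [hlam, Complex.norm_real, Real.norm_of_nonneg (by linarith)]
  have hd : ‖ζa - ζb‖ < η / 2 := by
    have := hΦu a ha.1 b hb.1 (by rw [dist_eq_norm]; linarith)
    rwa [dist_eq_norm] at this
  have hsh : ∀ ζ : ℂ, ‖ζ‖ ≤ 1 → ‖ζ * lam - ζ‖ ≤ δ := fun ζ hζ => by
    have e : ζ * lam - ζ = ζ * ((-δ : ℝ) : ℂ) := by rw [hlam]; push_cast; ring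
    rw [e, norm_mul, Complex.norm_real, Real.norm_eq_abs, abs_neg, abs_of_nonneg hδ]
    exact mul_le_of_le_one_left hδ hζ
  have hdeep : ∀ ζ : ℂ, ‖ζ‖ ≤ 1 → ζ * lam ∈ closedBall (0 : ℂ) (1 - δ) := fun ζ hζ => by
    rw [mem_closedBall_zero_iff, norm_mul, nl]
    exact mul_le_of_le_one_left (by linarith) hζ
  -- the three segments
  set S1 := segment ℝ ζa (ζa * lam) with hS1
  set S2 := segment ℝ (ζa * lam) (ζb * lam) with hS2
  set S3 := segment ℝ ζb (ζb * lam) with hS3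
  have hpre : IsPreconnected (S1 ∪ S2 ∪ S3) := by
    have h12 : IsPreconnected (S1 ∪ S2) :=
      IsPreconnected.union (ζa * lam) (right_mem_segment ℝ _ _) (left_mem_segment ℝ _ _) (convex_segment _ _).isPreconnected (convex_segment _ _).isPreconnected
    exact IsPreconnected.union (ζb * lam) (Or.inr (right_mem_segment ℝ _ _)) (right_mem_segment ℝ _ _) h12 (convex_segment _ _).isPreconnected
  -- everything is close to `ζa`
  have c0 : ζa ∈ closedBall ζa (δ + η / 2) := mem_closedBall_self (by positivity)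
  have c1 : ζa * lam ∈ closedBall ζa (δ + η / 2) := by
    rw [mem_closedBall, dist_eq_norm]; have := hsh ζa na; linarith
  have c2 : ζb ∈ closedBall ζa (δ + η / 2) := by
    rw [mem_closedBall, dist_eq_norm, norm_sub_rev]; linarith
  have c3 : ζb * lam ∈ closedBall ζa (δ + η / 2) := by
    rw [mem_closedBall, dist_eq_norm]
    have := norm_add_le (ζb * lam - ζb) (ζb - ζa)
    rw [sub_add_sub_cancel, norm_sub_rev ζb ζa] at this
    have := hsh ζb nb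
    linarith
  have hcl : S1 ∪ S2 ∪ S3 ⊆ closedBall ζa (δ + η / 2) := by
    have hc := convex_closedBall ζa (δ + η / 2)
    exact union_subset (union_subset (hc.segment_subset c0 c1) (hc.segment_subset c1 c3)) (hc.segment_subset c2 c3)
  have hone : ∀ {r' : ℝ}, r' ≤ 1 → closedBall (0 : ℂ) r' ⊆ closedBall (0 : ℂ) 1 := fun hr => closedBall_subset_closedBall hr
  have hball : S1 ∪ S2 ∪ S3 ⊆ closedBall (0 : ℂ) 1 := by
    have hc := convex_closedBall (0 : ℂ) 1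
    have a0 : ζa ∈ closedBall (0 : ℂ) 1 := mem_closedBall_zero_iff.2 na
    have b0 : ζb ∈ closedBall (0 : ℂ) 1 := mem_closedBall_zero_iff.2 nb
    have a1 := hone (by linarith) (hdeep ζa na)
    have b1 := hone (by linarith) (hdeep ζb nb)
    exact union_subset (union_subset (hc.segment_subset a0 a1) (hc.segment_subset a1 b1)) (hc.segment_subset b0 b1)
  refine ⟨h.dinv '' (S1 ∪ S2 ∪ S3), hpre.image _ (h.dinv_cont.mono hball), ?_, ⟨ζa, Or.inl (Or.inl (left_mem_segment ℝ _ _)), h.dinv_disc ha.1⟩,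
    ⟨ζb, Or.inr (left_mem_segment ℝ _ _), h.dinv_disc hb.1⟩, ?_⟩
  · rintro _ ⟨w, (hw | hw) | hw, rfl⟩
    · exact pvzr_radial h hδ hδ1 ha hw
    · have h1 : w ∈ closedBall (0 : ℂ) (1 - δ) := (convex_closedBall (0 : ℂ) (1 - δ)).segment_subset (hdeep ζa na) (hdeep ζb nb) hw
      have h2 : ‖w‖ ≤ 1 - δ := mem_closedBall_zero_iff.1 h1
      have h3 : ‖w‖ ≤ 1 := by linarith
      exact pvxd_K_deep h hκ hδ (h.dinv_mem h3) (by rw [h.disc_dinv h3]; exact h2)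
    · exact pvzr_radial h hδ hδ1 hb hw
  · rintro _ ⟨w, hw, rfl⟩
    have h1 := hcl hw
    rw [mem_closedBall] at h1
    have h2 := hJu w (hball hw) ζa (mem_closedBall_zero_iff.2 na) (by linarith)
    rw [h.dinv_disc ha.1, dist_eq_norm] at h2
    exact h2.le

end level

end Claimed.Agent.R289
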