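import Claimed.Agent.R289.Mix.Fold
import Claimed.Agent.R289.Mix.Disc

/-!
# Row 289 (S0537), road MIX (head helper246), file Mix/Sign : THE SIGN OF THE SOFT RIM      (helper45; recipe of helper31; prefix `pvxsg_`, record `PvxsgPt`)      0 sorry

`pvxf_ord` / `pvxf_main` (148, `Mix/Fold.lean`) leave the alternative "the chart `G` OR its mirror image sees the cycle turn positively".   The mirror alternative is useless for the fan (31): HERE IT IS EXCLUDED.
`h : PvChart D d ψ`, `Ψ = h.disc`, `z0 = Ψ⁻¹ 0`.   `T` a triangulated sphere, `c` the boundary cycle of a finite POSITIVELY oriented disc (`DelwPos T pos c.Left`), `p v` = the point of `closure D` at which the chart reads the site `v`.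
* sec.1  `pvxsg_sum_congr` (`doSum` reads the cycle vertices only), `pvxsg_sum_scale` (`doSum` reads arguments only: positive real factors drop out)
* sec.2  `pvxsg_deriv_ne` (`Ψ'(z0) ≠ 0`: chain rule with `h.dinv`), `pvxsg_q_ne`, `pvxsg_q_cont` : `q = dslope Ψ z0` is continuous and never `0` on `closure D`
* sec.3  record `PvxsgPt h μ pos p v` : `p v ∈ closure D`, `‖p v - pos v‖ ≤ μ`, `p v = pos v` when `pos v ∈ D`, `‖Ψ (pos v)‖ ≤ 1/2`;
         **`pvxsg_sign`** : `∃ μ0 > 0` (depends on the chart only) such that for edges of `c.Left` shorter than `μ0`, `PvxsgPt h μ0` at the vertices of `c.Left`, `1/2 ≤ ‖Ψ (p x_k)‖` on the cycle:   `0 ≤ doSum (Ψ ∘ p) c`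
         PROOF: `Ψ (p v) = q' v (pos v - z0)`, `q' v = q (p v) ρ_v`, `‖ρ_v - 1‖ ≤ 1/40`;   relative increments of `q'` along the darts of `c.Left` are `≤ 1/4`;   `do_or` (253, `Del/Ord.lean`).
* sec.4  `pvxsg_sign_phi` (the same for `Φ = pvxdPhi h Z κ δ` of 262),   `pvxsg_ord`, `pvxsg_marks` (= `pvxf_ord`, `pvxf_main` WITHOUT the mirror alternative, from `0 ≤ doSum G c`),   **`pvxsg_road`** (all in one for `G = Φ ∘ p`)
-/

set_option autoImplicit false

namespace Claimed.Agent.R289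

open Complex Set Metric Filter Topology

/-! ## 1. what `doSum` reads -/

section sum

variable {V Dt : Type} {T : PvMap V Dt}

theorem pvxsg_sum_congr {P P' : V → ℂ} {c : T.Cyc} (h : ∀ k, P (T.src (c.e k)) = P' (T.src (c.e k))) : doSum P c = doSum P' c := by
  unfold doSum doInc
  exact Finset.sum_congr rfl fun i _ => by rw [h i, h (i + 1)]

theorem pvxsg_sum_scale (P : V → ℂ) (lam : V → ℝ) {c : T.Cyc} (h : ∀ k, 0 < lam (T.src (c.e k))) : doSum (fun v => (lam v : ℂ) * P v) c = doSum P c := by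
  unfold doSum doInc
  refine Finset.sum_congr rfl fun i _ => ?_
  have h1 := h i
  have h2 := h (i + 1)
  have e : ((lam (T.src (c.e (i + 1))) : ℂ) * P (T.src (c.e (i + 1)))) / ((lam (T.src (c.e i)) : ℂ) * P (T.src (c.e i))) =
      ((lam (T.src (c.e (i + 1))) / lam (T.src (c.e i)) : ℝ) : ℂ) * (P (T.src (c.e (i + 1))) / P (T.src (c.e i))) := by
    push_cast
    rw [mul_div_mul_comm]
  rw [e, Complex.arg_real_mul _ (div_pos h2 h1)]

end sum

/-! ## 2. the divided difference of the disc chart -/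

section chart

variable {D : Set ℂ} {d : ℂ} {ψ : ℂ → ℂ}

theorem pvxsg_z0_mem (h : PvChart D d ψ) : h.dinv 0 ∈ D := h.dinv_mem_D (by simp)

theorem pvxsg_z0_val (h : PvChart D d ψ) : h.disc (h.dinv 0) = 0 := h.disc_dinv (by simp)

theorem pvxsg_deriv_ne (h : PvChart D d ψ) : deriv h.disc (h.dinv 0) ≠ 0 := by
  have hz := pvxsg_z0_mem h
  have hD : D ∈ 𝓝 (h.dinv 0) := h.isOpen.mem_nhds hz
  have h1 : HasDerivAt h.disc (deriv h.disc (h.dinv 0)) (h.dinv 0) := (h.disc_diff.differentiableAt hD).hasDerivAt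
  have h2 : HasDerivAt h.dinv (deriv h.dinv (h.disc (h.dinv 0))) (h.disc (h.dinv 0)) := by
    rw [pvxsg_z0_val h]
    exact (h.dinv_diff.differentiableAt (isOpen_ball.mem_nhds (mem_ball_self one_pos))).hasDerivAt
  have h3 := h2.comp (h.dinv 0) h1
  have h4 : HasDerivAt (h.dinv ∘ h.disc) 1 (h.dinv 0) := by
    refine (hasDerivAt_id (h.dinv 0)).congr_of_eventuallyEq ?_
    filter_upwards [hD] with z hzD
    exact h.dinv_disc (subset_closure hzD)
  have h5 := h3.unique h4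
  intro e
  rw [e, mul_zero] at h5
  exact zero_ne_one h5

theorem pvxsg_q_ne (h : PvChart D d ψ) {z : ℂ} (hz : z ∈ closure D) : dslope h.disc (h.dinv 0) z ≠ 0 := by
  by_cases hzz : z = h.dinv 0
  · rw [hzz, dslope_same]
    exact pvxsg_deriv_ne h
  · rw [dslope_of_ne _ hzz, slope_def_field]
    exact div_ne_zero (sub_ne_zero.2 fun e => hzz (h.disc_injOn hz (subset_closure (pvxsg_z0_mem h)) e)) (sub_ne_zero.2 hzz)

theorem pvxsg_q_cont (h : PvChart D d ψ) : ContinuousOn (dslope h.disc (h.dinv 0)) (closure D) := by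
  intro z hz
  by_cases hzz : z = h.dinv 0
  · have hD : D ∈ 𝓝 (h.dinv 0) := h.isOpen.mem_nhds (pvxsg_z0_mem h)
    rw [hzz]
    exact ((((differentiableOn_dslope hD).2 h.disc_diff).continuousOn).continuousAt hD).continuousWithinAt
  · exact (continuousWithinAt_dslope_of_ne hzz).2 (h.disc_cont z hz)

/-- the value of the chart through the divided difference -/
theorem pvxsg_q_mul (h : PvChart D d ψ) (z : ℂ) : h.disc z = dslope h.disc (h.dinv 0) z * (z - h.dinv 0) := by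
  have := sub_smul_dslope h.disc (h.dinv 0) z
  rw [pvxsg_z0_val h, sub_zero, smul_eq_mul] at this
  rw [← this]; ring

/-! ## 3. the sign -/

/-- **the reading point of a site**: `p v ∈ closure D` is `μ`-close to the site and IS the site deep inside -/
structure PvxsgPt {V : Type} (h : PvChart D d ψ) (μ : ℝ) (pos p : V → ℂ) (v : V) : Prop where
  mem : p v ∈ closure D
  near : ‖p v - pos v‖ ≤ μ
  fix : pos v ∈ D → ‖h.disc (pos v)‖ ≤ 1 / 2 → p v = pos v

theorem PvxsgPt.mono {V : Type} {h : PvChart D d ψ} {μ μ' : ℝ} {pos p : V → ℂ} {v : V} (H : PvxsgPt h μ pos p v) (hμ : μ ≤ μ') : PvxsgPt h μ' pos p v :=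
  ⟨H.mem, H.near.trans hμ, H.fix⟩

/-- numerics of the relative increments -/
theorem pvxsg_num {a b r s : ℂ} (hab : ‖b - a‖ ≤ 1 / 16 * ‖a‖) (hr : ‖r - 1‖ ≤ 1 / 40) (hs : ‖s - 1‖ ≤ 1 / 40) : ‖b * s - a * r‖ ≤ ‖a * r‖ / 4 := by
  have e : b * s - a * r = (b - a) * s + a * (s - r) := by ring
  have h1 : ‖s‖ ≤ 41 / 40 := by
    have := norm_add_le (s - 1) 1
    rw [sub_add_cancel, norm_one] at this
    linarith
  have h2 : 39 / 40 ≤ ‖r‖ := by
    have := norm_sub_norm_le 1 r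
    rw [norm_one, norm_sub_rev] at this
    linarith
  have h3 : ‖s - r‖ ≤ 2 / 40 := by
    have : s - r = (s - 1) - (r - 1) := by ring
    rw [this]
    exact (norm_sub_le _ _).trans (by linarith)
  have ha := norm_nonneg a
  rw [e, norm_mul a r]
  calc ‖(b - a) * s + a * (s - r)‖ ≤ ‖b - a‖ * ‖s‖ + ‖a‖ * ‖s - r‖ := by
        refine (norm_add_le _ _).trans ?_
        rw [norm_mul, norm_mul]
    _ ≤ (1 / 16 * ‖a‖) * (41 / 40) + ‖a‖ * (2 / 40) := by gcongr
    _ ≤ ‖a‖ * ‖r‖ / 4 := by nlinarith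

/-- **THE SIGN OF THE SOFT RIM**: the image of the boundary cycle of a positively oriented triangulated disc, read through the points `p v`, does not turn negatively around `0` -/
theorem pvxsg_sign (h : PvChart D d ψ) :
    ∃ μ0 > 0, ∀ (V Dt : Type) (T : PvMap V Dt), T.IsSph → ∀ (c : T.Cyc) (pos p : V → ℂ), c.Left.Finite → DelwPos T pos c.Left →
      (∀ e ∈ c.Left, ‖pos (T.tgt e) - pos (T.src e)‖ ≤ μ0) →
      (∀ e ∈ c.Left, PvxsgPt h μ0 pos p (T.src e) ∧ PvxsgPt h μ0 pos p (T.tgt e)) →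
      (∀ i, 1 / 2 ≤ ‖h.disc (p (T.src (c.e i)))‖) → 0 ≤ doSum (fun v => h.disc (p v)) c := by
  set z0 : ℂ := h.dinv 0 with hz0
  set q : ℂ → ℂ := dslope h.disc z0 with hq
  have hz0D : z0 ∈ D := pvxsg_z0_mem h
  have hΨ0 : h.disc z0 = 0 := pvxsg_z0_val h
  have hcomp : IsCompact (closure D) := h.bdd.isCompact_closure
  obtain ⟨μ1, hμ1, hun⟩ := do_q_unif hcomp (g := id) continuousOn_id (injOn_id _) (pvxsg_q_cont h) (fun z hz => pvxsg_q_ne h hz) (ε := 1 / 16) (by norm_num)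
  obtain ⟨r0, hr0, hball⟩ : ∃ r0 > 0, ∀ w, ‖w - z0‖ < r0 → w ∈ D ∧ ‖h.disc w‖ < 1 / 2 := by
    have hD : D ∈ 𝓝 z0 := h.isOpen.mem_nhds hz0D
    have hc : ContinuousAt h.disc z0 := (h.disc_diff.differentiableAt hD).continuousAt
    have h1 : ∀ᶠ w in 𝓝 z0, ‖h.disc w‖ < 1 / 2 := by
      have : Tendsto (fun w => ‖h.disc w‖) (𝓝 z0) (𝓝 ‖h.disc z0‖) := hc.tendsto.norm
      rw [hΨ0, norm_zero] at this
      exact this.eventually_lt_const (by norm_num)
    obtain ⟨r0, hr0, hb⟩ := Metric.eventually_nhds_iff.1 (h1.and hD)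
    exact ⟨r0, hr0, fun w hw => (hb (by rwa [dist_eq_norm])).symm⟩
  refine ⟨min (μ1 / 3) (r0 / 40), lt_min (by positivity) (by positivity), fun V Dt T hT c pos p hfin hp hedge hpt hfar => ?_⟩
  set μ0 : ℝ := min (μ1 / 3) (r0 / 40) with hμ0
  have hμa : 3 * μ0 ≤ μ1 := by have := min_le_left (μ1 / 3) (r0 / 40); linarith
  have hμb : 40 * μ0 ≤ r0 := by have := min_le_right (μ1 / 3) (r0 / 40); linarith
  have hμpos : 0 < μ0 := lt_min (by positivity) (by positivity)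
  have j2 := (pl_jordan hT c).2.1
  classical
  set q' : V → ℂ := fun v => if pos v = z0 then q z0 else h.disc (p v) / (pos v - z0) with hq'
  -- the structure of `q'` at a good vertex
  have key : ∀ v, PvxsgPt h μ0 pos p v → h.disc (p v) = q' v * (pos v - z0) ∧ ∃ ρ : ℂ, q' v = q (p v) * ρ ∧ ‖ρ - 1‖ ≤ 1 / 40 := by
    intro v hv
    by_cases hin : ‖pos v - z0‖ < r0
    · obtain ⟨hvD, hv2⟩ := hball _ hin
      have hpv : p v = pos v := hv.fix hvD hv2.le
      by_cases hvz : pos v = z0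
      · refine ⟨?_, 1, ?_, by simp⟩
        · rw [hpv, hvz, hΨ0, sub_self, mul_zero]
        · simp only [hq', if_pos hvz]
          rw [hpv, hvz, mul_one]
      · have hne : pos v - z0 ≠ 0 := sub_ne_zero.2 hvz
        refine ⟨?_, 1, ?_, by simp⟩
        · simp only [hq', if_neg hvz]
          rw [div_mul_cancel₀ _ hne]
        · simp only [hq', if_neg hvz]
          rw [hpv, mul_one, pvxsg_q_mul h (pos v), mul_div_assoc, div_self hne, mul_one]
    · have hout : r0 ≤ ‖pos v - z0‖ := not_lt.1 hin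
      have hvz : pos v ≠ z0 := fun e => by
        rw [e, sub_self, norm_zero] at hout
        linarith
      have hne : pos v - z0 ≠ 0 := sub_ne_zero.2 hvz
      refine ⟨?_, (p v - z0) / (pos v - z0), ?_, ?_⟩
      · simp only [hq', if_neg hvz]
        rw [div_mul_cancel₀ _ hne]
      · simp only [hq', if_neg hvz]
        rw [pvxsg_q_mul h (p v), mul_div_assoc]
      · have e : (p v - z0) / (pos v - z0) - 1 = (p v - pos v) / (pos v - z0) := by
          field_simp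
          ring
        rw [e, norm_div, div_le_iff₀ (norm_pos_iff.2 hne)]
        have := hv.near
        linarith
  have hsum : doSum (fun v => h.disc (p v)) c = doSum (fun v => q' v * (pos v - z0)) c :=
    pvxsg_sum_congr fun k => (key _ (hpt _ (j2 k)).1).1
  rw [hsum]
  have hdist : ∀ i, 39 * μ0 ≤ ‖pos (T.src (c.e i)) - z0‖ := by
    intro i
    have hv := (hpt _ (j2 i)).1
    have h1 : r0 ≤ ‖p (T.src (c.e i)) - z0‖ := by
      by_contra hcon
      have := (hball _ (not_le.1 hcon)).2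
      linarith [hfar i]
    have h2 : ‖p (T.src (c.e i)) - z0‖ ≤ ‖p (T.src (c.e i)) - pos (T.src (c.e i))‖ + ‖pos (T.src (c.e i)) - z0‖ := by
      have := norm_add_le (p (T.src (c.e i)) - pos (T.src (c.e i))) (pos (T.src (c.e i)) - z0)
      rwa [sub_add_sub_cancel] at this
    have := hv.near
    linarith
  refine do_or hT c hfin hp (fun e he => ?_) (fun e he => ?_) (fun i e => ?_) (fun i => ?_)
  · obtain ⟨-, ρ, e1, e2⟩ := key _ (hpt e he).1
    rw [e1]
    refine mul_ne_zero (pvxsg_q_ne h (hpt e he).1.mem) fun e0 => ?_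
    rw [e0, zero_sub, norm_neg, norm_one] at e2
    norm_num at e2
  · obtain ⟨-, ρs, e1, e2⟩ := key _ (hpt e he).1
    obtain ⟨-, ρt, e3, e4⟩ := key _ (hpt e he).2
    rw [e1, e3]
    refine pvxsg_num (hun _ (hpt e he).1.mem _ (hpt e he).2.mem ?_) e2 e4
    have a1 := (hpt e he).1.near
    have a2 := (hpt e he).2.near
    have a3 := hedge e he
    have e5 : id (p (T.tgt e)) - id (p (T.src e)) = (p (T.tgt e) - pos (T.tgt e)) + (pos (T.tgt e) - pos (T.src e)) - (p (T.src e) - pos (T.src e)) := by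
      simp only [id]; ring
    rw [e5]
    calc ‖(p (T.tgt e) - pos (T.tgt e)) + (pos (T.tgt e) - pos (T.src e)) - (p (T.src e) - pos (T.src e))‖
        ≤ ‖p (T.tgt e) - pos (T.tgt e)‖ + ‖pos (T.tgt e) - pos (T.src e)‖ + ‖p (T.src e) - pos (T.src e)‖ :=
          (norm_sub_le _ _).trans (add_le_add_left (norm_add_le _ _) _)
      _ ≤ μ1 := by linarith
  · have := hdist i
    rw [e, sub_self, norm_zero] at this
    linarith
  · have := hdist i
    have := hedge _ (j2 i)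
    linarith

/-! ## 4. the soft chart of the road, ORD and MARKS without the mirror alternative -/

/-- the soft chart is a positive multiple of the disc chart -/
theorem pvxsg_phi_eq (h : PvChart D d ψ) (Z : Set ℂ) (κ δ : ℝ) (z : ℂ) : pvxdPhi h Z κ δ z = (((pvxdRho Z κ δ (h.disc z))⁻¹ : ℝ) : ℂ) * h.disc z := by
  unfold pvxdPhi pvxdR
  push_cast
  rw [div_eq_mul_inv, mul_comm]

/-- the reading point from the soft disc: `p v = pos v` on `K` -/
theorem PvxsgPt.of_K {V : Type} (h : PvChart D d ψ) {Z : Set ℂ} {κ δ μ : ℝ} (hκ : 0 < κ) (hδ : 0 ≤ δ) (hδ2 : δ ≤ 1 / 2) {pos p : V → ℂ} {v : V}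
    (h1 : p v ∈ pvxdK h Z κ δ) (h2 : ‖p v - pos v‖ ≤ μ) (h3 : pos v ∈ pvxdK h Z κ δ → p v = pos v) : PvxsgPt h μ pos p v :=
  ⟨pvxd_K_sub h h1, h2, fun a b => h3 (pvxd_K_deep h hκ hδ (subset_closure a) (by linarith))⟩

/-- **SIGN for the soft chart** `Φ = pvxdPhi h Z κ δ` -/
theorem pvxsg_sign_phi (h : PvChart D d ψ) :
    ∃ μ0 > 0, ∀ (Z : Set ℂ) (κ δ : ℝ), 0 < κ → 0 ≤ δ → δ < 1 → ∀ (V Dt : Type) (T : PvMap V Dt), T.IsSph → ∀ (c : T.Cyc) (pos p : V → ℂ), c.Left.Finite → DelwPos T pos c.Left →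
      (∀ e ∈ c.Left, ‖pos (T.tgt e) - pos (T.src e)‖ ≤ μ0) →
      (∀ e ∈ c.Left, PvxsgPt h μ0 pos p (T.src e) ∧ PvxsgPt h μ0 pos p (T.tgt e)) →
      (∀ i, 1 / 2 ≤ ‖h.disc (p (T.src (c.e i)))‖) → 0 ≤ doSum (fun v => pvxdPhi h Z κ δ (p v)) c := by
  obtain ⟨μ0, hμ0, H⟩ := pvxsg_sign h
  refine ⟨μ0, hμ0, fun Z κ δ hκ hδ hδ1 V Dt T hT c pos p hfin hp hedge hpt hfar => ?_⟩
  have e : (fun v => pvxdPhi h Z κ δ (p v)) = fun v => (((fun v => (pvxdRho Z κ δ (h.disc (p v)))⁻¹) v : ℝ) : ℂ) * (fun v => h.disc (p v)) v := by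
    funext v
    exact pvxsg_phi_eq h Z κ δ (p v)
  rw [e, pvxsg_sum_scale (fun v => h.disc (p v)) (fun v => (pvxdRho Z κ δ (h.disc (p v)))⁻¹) fun k => inv_pos.2 (pvxd_rho_pos hκ hδ hδ1 _)]
  exact H V Dt T hT c pos p hfin hp hedge hpt hfar

end chart

section ord

variable {V Dt : Type} {T : PvMap V Dt}

/-- **ORD with its sign** (= `pvxf_ord` of 148 without the mirror alternative) -/
theorem pvxsg_ord (hT : T.IsSph) {c : T.Cyc} {X : Set V} {G : V → ℂ} {om th dn : ℝ} (H : PvxfIn T c X G om th) (hom : 0 < om) (hsm : 64 * th + 424 * om ≤ 1 / 4)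
    (hdn : dn ≤ 8 * th + 52 * om) (hdense : ∀ w : ℂ, ‖w‖ = 1 → ∃ k, ‖G (T.src (c.e k)) - w‖ ≤ dn) (hOR : 0 ≤ doSum G c) :
    PvxfOrd c G (64 * th + 424 * om) :=
  pvxf_ord_aux hom H.th_nonneg hsm H.rim H.leC (H.stepC hT) (fun _ _ _ hv => pvxf_nofold hT H (by linarith [H.th_nonneg]) hv) hdn hdense hOR

/-- **MARKS with their sign** (= `pvxf_main` of 148 without the mirror alternative) -/
theorem pvxsg_marks (hT : T.IsSph) {c : T.Cyc} {X : Set V} {G : V → ℂ} {om th dn : ℝ} (H : PvxfIn T c X G om th) (hom : 0 < om) (hsm : 64 * th + 424 * om ≤ 1 / 4)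
    (hdn : dn ≤ 8 * th + 52 * om) (hdense : ∀ w : ℂ, ‖w‖ = 1 → ∃ k, ‖G (T.src (c.e k)) - w‖ ≤ dn) (hOR : 0 ≤ doSum G c)
    {α : ℕ → ℝ} (hlt : ∀ j, j < 4 → α j + (64 * th + 424 * om) < α (j + 1)) (hper : α 4 = α 0 + 2 * Real.pi) :
    ∃ m : ℕ → ℕ, PvxfMarks c G α m th (64 * th + 424 * om) := by
  have hth := H.th_nonneg
  exact pvxf_marks (by positivity) (pvxsg_ord hT H hom hsm hdn hdense hOR) H.rim H.leC hlt hper

end ord

/-- **THE ROAD FORM**: soft disc `K = pvxdK h Z κ δ`, `δ ≤ 1/4`, chart value of a site `G v = Φ (p v)`: marks, arcs, sectors IN THE CHART ITSELF (no mirror).      `μ0` depends on `h` only. -/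
theorem pvxsg_road {D : Set ℂ} {d : ℂ} {ψ : ℂ → ℂ} (h : PvChart D d ψ) :
    ∃ μ0 > 0, ∀ (Z : Set ℂ) (κ δ : ℝ), 0 < κ → 0 ≤ δ → δ ≤ 1 / 4 → ∀ (V Dt : Type) (T : PvMap V Dt), T.IsSph → ∀ (c : T.Cyc) (pos p : V → ℂ), c.Left.Finite → DelwPos T pos c.Left →
      (∀ e ∈ c.Left, ‖pos (T.tgt e) - pos (T.src e)‖ ≤ μ0) →
      (∀ e ∈ c.Left, PvxsgPt h μ0 pos p (T.src e) ∧ PvxsgPt h μ0 pos p (T.tgt e)) →
      ∀ (X : Set V) (om th dn : ℝ), PvxfIn T c X (fun v => pvxdPhi h Z κ δ (p v)) om th → 0 < om → 64 * th + 424 * om ≤ 1 / 4 → dn ≤ 8 * th + 52 * om →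
      (∀ w : ℂ, ‖w‖ = 1 → ∃ k, ‖pvxdPhi h Z κ δ (p (T.src (c.e k))) - w‖ ≤ dn) →
      PvxfOrd c (fun v => pvxdPhi h Z κ δ (p v)) (64 * th + 424 * om) ∧
      ∀ α : ℕ → ℝ, (∀ j, j < 4 → α j + (64 * th + 424 * om) < α (j + 1)) → α 4 = α 0 + 2 * Real.pi →
        ∃ m : ℕ → ℕ, PvxfMarks c (fun v => pvxdPhi h Z κ δ (p v)) α m th (64 * th + 424 * om) := by
  obtain ⟨μ0, hμ0, H⟩ := pvxsg_sign_phi h
  refine ⟨μ0, hμ0, fun Z κ δ hκ hδ hδ4 V Dt T hT c pos p hfin hp hedge hpt X om th dn HI hom hsm hdn hdense => ?_⟩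
  have hδ1 : δ < 1 := by linarith
  have hth := HI.th_nonneg
  have hfar : ∀ i, 1 / 2 ≤ ‖h.disc (p (T.src (c.e i)))‖ := by
    intro i
    have h1 := HI.rim i
    simp only [pvxd_Phi_norm h hκ hδ hδ1] at h1
    have h2 := pvxd_rho_ge (Z := Z) hκ hδ (h.disc (p (T.src (c.e i))))
    have h3 := pvxd_rho_pos (Z := Z) hκ hδ hδ1 (h.disc (p (T.src (c.e i))))
    rw [le_div_iff₀ h3] at h1
    nlinarith
  have hOR := H Z κ δ hκ hδ hδ1 V Dt T hT c pos p hfin hp hedge hpt hfar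
  exact ⟨pvxsg_ord hT HI hom hsm hdn hdense hOR, fun α hlt hper => pvxsg_marks hT HI hom hsm hdn hdense hOR hlt hper⟩

end Claimed.Agent.R289
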